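import Crest.Agent.R197.CDefs

/-! The square system over a finite quotient. -/

set_option autoImplicit false

namespace Crest.Agent.R197

theorem alg_abev_exists {k : ℕ} (m : Fin k → ℤ) :
    ∃ w : FreeGroup (Fin k), ∀ (M : Type) [AddCommGroup M] (v : Fin k → M),
      abev v w = ∑ i, m i • v i := by
  refine ⟨((List.finRange k).map fun i => FreeGroup.of i ^ m i).prod, fun M _ v => ?_⟩
  unfold abev
  rw [map_list_prod, List.map_map, Fin.sum_univ_def]
  generalize List.finRange k = l
  induction l with
  | nil => simp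
  | cons a l ih =>
    simp only [List.map_cons, List.prod_cons, List.sum_cons, toAdd_mul, ih]
    simp

theorem alg_lab_tpart {Q A T M : Type} [AddCommGroup M] (y : Q × T → M)
    (c : Q × (A ⊕ T) →₀ ℤ) :
    Finsupp.linearCombination ℤ (lab (fun _ => (0 : M)) y) c =
      Finsupp.linearCombination ℤ y (tpart c) := by
  induction c using Finsupp.induction_linear with
  | zero => simp
  | add c c' h h' => simp only [map_add, h, h']
  | single e n =>
    obtain ⟨q, s | t⟩ := e <;> simp [tpart, lab]

theorem alg_tpart_push {G Q A T : Type} [Group G] [Group Q] (π : G →* Q) (q : Q)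
    (c : G × (A ⊕ T) →₀ ℤ) : tpart (push π q c) = push π q (tpart c) := by
  induction c using Finsupp.induction_linear with
  | zero => simp
  | add c c' h h' => simp only [push_add, map_add, h, h']
  | single e n =>
    obtain ⟨g, s | t⟩ := e <;> simp [tpart]

theorem alg_push_supp {G Q R : Type} [Group G] [Group Q] (π : G →* Q) (q : Q) (c : G × R →₀ ℤ)
    (R0 : Finset R) (hc : ∀ e ∈ c.support, e.2 ∈ R0) : ∀ e ∈ (push π q c).support, e.2 ∈ R0 := by
  classical
  intro e he
  obtain ⟨x, hx, rfl⟩ := Finset.mem_image.1 (Finsupp.mapDomain_support he)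
  exact hc x hx

theorem exists_square {G A T R B : Type} [Group G] {φ : A → G} {ρ : R → FreeGroup (A ⊕ T)}
    {b : B → FreeGroup A} {Rin : Finset R} {P : R → (G × R →₀ ℤ)} {σ : T → (G × R →₀ ℤ)}
    {S0 : Finset G} {C : ℝ} (h : Setup φ ρ b Rin P σ S0 C) {Q : Type} [Group Q] [Finite Q]
    (π : G →* Q) (R0 : Finset R) (hR : Rin ⊆ R0) :
    ∃ k f W, Square π φ ρ P R0 k f W := by
  classical
  -- the idempotent `E = 1 - P`
  set E : (Q × R →₀ ℤ) →ₗ[ℤ] (Q × R →₀ ℤ) := LinearMap.id - ext π P with hE
  have hE1 : ∀ q r, E (Finsupp.single (q, r) 1) = Finsupp.single (q, r) 1 - push π q (P r) := by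
    intro q r; simp [hE]
  have hEP : ∀ q r, E (push π q (P r)) = 0 := by
    intro q r
    simp only [hE, LinearMap.sub_apply, LinearMap.id_apply, ext_push, h.idem, sub_self]
  have hEE : ∀ q r, E (E (Finsupp.single (q, r) 1)) = E (Finsupp.single (q, r) 1) := by
    intro q r
    conv_lhs => rw [hE1, map_sub, hEP, sub_zero]
  let gen : Q × R0 → (Q × R →₀ ℤ) := fun e => E (Finsupp.single (e.1, e.2.1) 1)
  let Lam : Submodule ℤ (Q × R →₀ ℤ) := Submodule.span ℤ (Set.range gen)
  have : Module.Finite ℤ Lam := Module.Finite.span_of_finite ℤ (Set.finite_range gen)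
  have : Module.Free ℤ Lam := inferInstance
  let β := Module.finBasis ℤ Lam
  -- elements of `Lam` are supported on `R0` and fixed by `E`
  have hsupp : ∀ c ∈ Lam, c ∈ Finsupp.supported ℤ ℤ {e : Q × R | e.2 ∈ R0} := by
    refine fun c hc => (Submodule.span_le.2 ?_ : Lam ≤ _) hc
    rintro _ ⟨⟨q, r, hr⟩, rfl⟩
    change E _ ∈ _
    rw [hE1]
    refine Submodule.sub_mem _ (Finsupp.single_mem_supported ℤ 1 hr) ?_
    rw [Finsupp.mem_supported]
    intro e he
    exact alg_push_supp π q (P r) R0 (fun e he => hR (h.supp r e he)) e he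
  have hfix : ∀ c ∈ Lam, E c = c := by
    intro c hc
    induction hc using Submodule.span_induction with
    | mem x hx =>
      obtain ⟨⟨q, r, hr⟩, rfl⟩ := hx
      exact hEE q r
    | zero => simp
    | add x y _ _ hx hy => rw [map_add, hx, hy]
    | smul a x _ hx => rw [map_smul, hx]
  -- the retraction onto `Lam`
  let D : (Q × R →₀ ℤ) →ₗ[ℤ] Lam := Finsupp.linearCombination ℤ fun e =>
    if he : e.2 ∈ R0 then ⟨gen (e.1, ⟨e.2, he⟩), Submodule.subset_span ⟨_, rfl⟩⟩ else 0
  have hD : ∀ c ∈ Finsupp.supported ℤ ℤ {e : Q × R | e.2 ∈ R0}, (D c : Q × R →₀ ℤ) = E c := by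
    intro c hc
    rw [Finsupp.supported_eq_span_single] at hc
    induction hc using Submodule.span_induction with
    | mem x hx =>
      obtain ⟨⟨q, r⟩, hr, rfl⟩ := hx
      have hr' : r ∈ R0 := hr
      simp only [D, Finsupp.linearCombination_single, one_smul, dif_pos hr', gen]
    | zero => simp
    | add x y _ _ hx hy => rw [map_add, map_add, Submodule.coe_add, hx, hy]
    | smul a x _ hx => rw [map_smul, map_smul, Submodule.coe_smul, hx]
  have hDL : ∀ c : Lam, D c = c := by
    intro c
    apply Subtype.ext
    rw [hD _ (hsupp _ c.2), hfix _ c.2]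
  choose W hW using fun t : Q × T => alg_abev_exists (β.repr (D (push π t.1 (σ t.2))))
  refine ⟨_, fun i => β i, W, ?_, ?_, ?_⟩
  · intro i e he
    exact (Finsupp.mem_supported ℤ _).1 (hsupp _ (β i).2) he
  · intro M _ v i
    let L : Lam →ₗ[ℤ] M := β.constr ℤ v
    have h1 : ∀ t : Q × T, abev v (W t) = L (D (push π t.1 (σ t.2))) := by
      intro t
      rw [hW t M v]
      simp only [L, Module.Basis.constr_apply_fintype, Module.Basis.equivFun_apply]
    have h2 : ∀ c : Q × T →₀ ℤ, Finsupp.linearCombination ℤ (fun t => abev v (W t)) c =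
        L (D (ext π σ c)) := by
      intro c
      induction c using Finsupp.induction_linear with
      | zero => simp
      | add c c' h h' => simp only [map_add, h, h']
      | single e n =>
        obtain ⟨q, t⟩ := e
        simp only [Finsupp.linearCombination_single, h1, ext_single, map_smul]
    have h3 : ∀ e : Q × R, Finsupp.linearCombination ℤ (lab (fun _ => 0) fun t => abev v (W t))
        (chain (fun s => π (nf φ T s)) (ρ e.2) e.1) = L (D (E (Finsupp.single e 1))) := by
      rintro ⟨q, r⟩
      rw [alg_lab_tpart, h2, hE1]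
      have h4 := push_chain π (nf φ T) (ρ r) q 1
      rw [map_one, mul_one] at h4
      dsimp only
      rw [← h4, alg_tpart_push, ext_push, h.split, push_sub, push_single, map_one, mul_one]
    have h5 : ∀ c : Q × R →₀ ℤ, Finsupp.linearCombination ℤ
        (fun e : Q × R => L (D (E (Finsupp.single e 1)))) c = L (D (E c)) := by
      intro c
      induction c using Finsupp.induction_linear with
      | zero => simp
      | add c c' h h' => simp only [map_add, h, h']
      | single e n =>
        rw [Finsupp.linearCombination_single, ← map_smul, ← map_smul, ← map_smul,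
          Finsupp.smul_single, smul_eq_mul, mul_one]
    simp only [h3]
    rw [h5, hfix _ (β i).2, hDL]
    simp [L]
  · intro M _ ξ hξ q r hr
    have h1 : (Finsupp.linearCombination ℤ ξ) ∘ₗ Lam.subtype = 0 := by
      refine β.ext fun i => ?_
      simpa using hξ i
    have h2 := LinearMap.congr_fun h1 ⟨gen (q, ⟨r, hr⟩), Submodule.subset_span ⟨_, rfl⟩⟩
    simp only [LinearMap.comp_apply, Submodule.subtype_apply, LinearMap.zero_apply, gen, hE1,
      map_sub, Finsupp.linearCombination_single, one_smul] at h2
    exact sub_eq_zero.1 h2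

end Crest.Agent.R197
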