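import Mathlib

/-! Row 197: abstract homological algebra for `CD2`. -/

set_option autoImplicit false

namespace Crest.Agent.R197

open CategoryTheory CategoryTheory.Limits

section
variable {k G : Type} [CommRing k] [Group G]

theorem cd2_exact (S : ShortComplex (Rep.{0} k G))
    (h : ∀ x : S.X₂.V, S.g.hom x = 0 → ∃ y : S.X₁.V, S.f.hom y = x) : S.Exact := by
  apply (forget₂ _ (ModuleCat k)).reflects_exact_of_faithful
  rw [ShortComplex.moduleCat_exact_iff]
  exact h

set_option backward.isDefEq.respectTransparency false in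
/-- vanishing of group cohomology from a projective resolution with a zero term -/
theorem cd2_of_complex (P : ℕ → Rep.{0} k G) (d : ∀ n, P (n + 1) ⟶ P n)
    (ε : P 0 ⟶ Rep.trivial k G k) (hproj : ∀ n, Projective (P n))
    (sq : ∀ n x, (d n).hom ((d (n + 1)).hom x) = 0) (hε : ∀ x, ε.hom ((d 0).hom x) = 0)
    (surj : Function.Surjective ε.hom)
    (ex0 : ∀ x, ε.hom x = 0 → ∃ y, (d 0).hom y = x)
    (ex : ∀ n x, (d n).hom x = 0 → ∃ y, (d (n + 1)).hom y = x)
    (A : Rep.{0} k G) (n : ℕ) (hn : IsZero (P n)) : IsZero (groupCohomology A n) := by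
  have sq' : ∀ n, d (n + 1) ≫ d n = 0 := fun n => by
    ext x
    exact sq n x
  let K : ChainComplex (Rep.{0} k G) ℕ := ChainComplex.of P d sq'
  have hK : ∀ n, K.d (n + 1) n = d n := fun n => ChainComplex.of_d P d n
  have hε' : K.d 1 0 ≫ ε = 0 := by
    rw [show K.d 1 0 = d 0 from hK 0]
    ext x
    exact hε x
  let π : K ⟶ (ChainComplex.single₀ (Rep.{0} k G)).obj (Rep.trivial k G k) :=
    (K.toSingle₀Equiv _).symm ⟨ε, hε'⟩
  have hπ : π.f 0 = ε := ChainComplex.toSingle₀Equiv_symm_apply_f_zero _ _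
  have hq : QuasiIso π := ⟨fun m => by
    cases m with
    | zero =>
      rw [ChainComplex.quasiIsoAt₀_iff, ShortComplex.quasiIso_iff_of_zeros' _ rfl rfl rfl]
      constructor
      · refine cd2_exact _ fun x hx => ?_
        change (π.f 0).hom x = 0 at hx
        change ∃ y, (K.d 1 0).hom y = x
        rw [hπ] at hx
        rw [show K.d 1 0 = d 0 from hK 0]
        exact ex0 x hx
      · change Epi (π.f 0)
        rw [hπ, Rep.epi_iff_surjective]
        exact surj
    | succ m =>
      rw [quasiIsoAt_iff_exactAt' (hL := ChainComplex.exactAt_succ_single_obj ..),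
        HomologicalComplex.exactAt_iff' _ (m + 2) (m + 1) m (by simp) (by simp)]
      refine cd2_exact _ fun x hx => ?_
      change (K.d (m + 1) m).hom x = 0 at hx
      change ∃ y, (K.d (m + 1 + 1) (m + 1)).hom y = x
      rw [hK] at hx
      rw [hK]
      exact ex m x hx⟩
  let R : ProjectiveResolution (Rep.trivial k G k) :=
    { complex := K, projective := hproj, π := π, quasiIso := hq }
  refine IsZero.of_iso ?_ (groupCohomologyIso A n R)
  refine (HomologicalComplex.ExactAt.of_isZero ?_).isZero_homology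
  have : Subsingleton (P n ⟶ A) := ⟨fun f g => hn.eq_of_src f g⟩
  exact ModuleCat.isZero_of_subsingleton (ModuleCat.of k (P n ⟶ A))

variable {X : Type}

/-- the permutation representation -/
noncomputable def cd2_rho (k : Type) [CommRing k] (act : G →* Equiv.Perm X) :
    Representation k G (X →₀ k) where
  toFun g := Finsupp.lmapDomain k k (act g)
  map_one' := by
    ext x
    simp
  map_mul' g h := by
    ext x
    simp

theorem cd2_rho_apply (act : G →* Equiv.Perm X) (g : G) (c : X →₀ k) :
    cd2_rho k act g c = Finsupp.mapDomain (act g) c := rfl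

theorem cd2_projective (act : G →* Equiv.Perm X) (hfree : ∀ g x, act g x = x → g = 1) :
    Projective (Rep.of (cd2_rho k act)) := by
  let st : Setoid X := ⟨fun x y => ∃ g, act g x = y, fun x => ⟨1, by simp⟩,
    fun ⟨g, hg⟩ => ⟨g⁻¹, by simp [← hg]⟩, fun ⟨g, hg⟩ ⟨h, hh⟩ => ⟨h * g, by simp [hg, hh]⟩⟩
  let r : X → X := fun x => (Quotient.mk st x).out
  have hr : ∀ x, ∃ g, act g (r x) = x := fun x => Quotient.mk_out (s := st) x
  choose γ hγ using hr
  have hr2 : ∀ g x, r (act g x) = r x := fun g x =>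
    congrArg Quotient.out (Quotient.sound (s := st) ⟨g, rfl⟩).symm
  have hγ2 : ∀ g x, γ (act g x) = g * γ x := fun g x => by
    have h1 := hγ (act g x)
    rw [hr2] at h1
    have h2 : act ((g * γ x)⁻¹ * γ (act g x)) (r x) = r x := by
      rw [map_mul, Equiv.Perm.mul_apply, h1, map_inv, Equiv.Perm.inv_def, Equiv.symm_apply_eq,
        map_mul, Equiv.Perm.mul_apply, hγ]
    exact (inv_mul_eq_one.1 (hfree _ _ h2)).symm
  refine ⟨fun {E B} f e he => ?_⟩
  obtain ⟨s, hs⟩ := ((Rep.epi_iff_surjective e).1 he).hasRightInverse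
  refine ⟨Rep.ofHom ⟨Finsupp.linearCombination k
    fun x => E.ρ (γ x) (s (f.hom (Finsupp.single (r x) 1))), fun g => ?_⟩, ?_⟩
  · ext x
    simp [cd2_rho_apply, hr2, hγ2]
  · ext x
    have h1 := Rep.hom_comm_apply f (γ x) (Finsupp.single (r x) 1)
    rw [cd2_rho_apply, Finsupp.mapDomain_single, hγ] at h1
    simp [Rep.hom_comm_apply, hs _, h1]

theorem cd2_projective_sub (F : Rep.{0} k G) (hF : Projective F) (W : Submodule k F)
    (hW : ∀ g, W ≤ W.comap (F.ρ g)) (r : F →ₗ[k] F) (hr : ∀ g c, r (F.ρ g c) = F.ρ g (r c))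
    (hrW : ∀ c, r c ∈ W) (hid : ∀ c ∈ W, r c = c) : Projective (F.subrepresentation W hW) := by
  refine Retract.projective (Y := F) ⟨F.subtype W hW,
    Rep.ofHom ⟨r.codRestrict W hrW, fun g => ?_⟩, ?_⟩
  · ext c
    exact hr g c
  · ext c
    exact hid c.1 c.2

end

end Crest.Agent.R197
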