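import Crest.Agent.R197.RDefs
import Crest.Agent.R197.CD2Aux

/-! A free resolution whose third boundary map splits gives cohomological dimension two. -/

set_option autoImplicit false

namespace Crest.Agent.R197

theorem cd2_hom_iff {X : Type} (deg : X → ℕ) (k : ℕ) (c : X →₀ ℤ) :
    Hom deg k c ↔ c ∈ Finsupp.supported ℤ ℤ {x | deg x = k} := Iff.rfl

theorem cd2_aug {X : Type} (c : X →₀ ℤ) :
    aug c = Finsupp.linearCombination ℤ (fun _ : X => (1 : ℤ)) c := by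
  simp [aug, Finsupp.linearCombination_apply]

open Classical in
/-- projection onto the part of degree `k` -/
noncomputable def cd2_pr {X : Type} (deg : X → ℕ) (k : ℕ) : (X →₀ ℤ) →ₗ[ℤ] (X →₀ ℤ) :=
  Finsupp.linearCombination ℤ fun x => if deg x = k then Finsupp.single x 1 else 0

theorem cd2_pr_hom {X : Type} (deg : X → ℕ) (k : ℕ) (c : X →₀ ℤ) : Hom deg k (cd2_pr deg k c) := by
  rw [cd2_hom_iff, cd2_pr, Finsupp.linearCombination_apply]
  refine Submodule.sum_mem _ fun x _ => Submodule.smul_mem _ _ ?_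
  split_ifs with h
  · exact Finsupp.single_mem_supported ℤ 1 h
  · exact Submodule.zero_mem _

theorem cd2_pr_id {X : Type} (deg : X → ℕ) (k : ℕ) (c : X →₀ ℤ) (hc : Hom deg k c) :
    cd2_pr deg k c = c := by
  rw [cd2_pr, Finsupp.linearCombination_apply]
  conv_rhs => rw [← Finsupp.sum_single c]
  refine Finsupp.sum_congr fun x hx => ?_
  simp [hc x hx]

theorem cd2_pr_map {X : Type} (deg : X → ℕ) (k : ℕ) (e : X → X) (he : ∀ x, deg (e x) = deg x)
    (c : X →₀ ℤ) :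
    cd2_pr deg k (Finsupp.mapDomain e c) = Finsupp.mapDomain e (cd2_pr deg k c) := by
  have : cd2_pr deg k ∘ₗ Finsupp.lmapDomain ℤ ℤ e = Finsupp.lmapDomain ℤ ℤ e ∘ₗ cd2_pr deg k := by
    ext1 x
    ext1
    by_cases h : deg x = k <;> simp [cd2_pr, he, h]
  exact LinearMap.congr_fun this c

theorem cd2_hom_map {X : Type} (deg : X → ℕ) (k : ℕ) (e : X → X) (he : ∀ x, deg (e x) = deg x)
    (c : X →₀ ℤ) (hc : Hom deg k c) : Hom deg k (Finsupp.mapDomain e c) := by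
  rw [← cd2_pr_id deg k c hc, ← cd2_pr_map deg k e he]
  exact cd2_pr_hom _ _ _

/-- the terms of the truncated resolution -/
def cd2_W {X : Type} (deg : X → ℕ) (lam : (X →₀ ℤ) →ₗ[ℤ] (X →₀ ℤ)) (k : ℕ) :
    Submodule ℤ (X →₀ ℤ) where
  carrier := {c | Hom deg k c ∧ (2 ≤ k → lam c = 0) ∧ (3 ≤ k → c = 0)}
  add_mem' := fun {a b} ha hb =>
    ⟨(cd2_hom_iff _ _ _).2 (Submodule.add_mem _ ((cd2_hom_iff _ _ _).1 ha.1)
      ((cd2_hom_iff _ _ _).1 hb.1)), fun h => by rw [map_add, ha.2.1 h, hb.2.1 h, add_zero],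
      fun h => by rw [ha.2.2 h, hb.2.2 h, add_zero]⟩
  zero_mem' := ⟨(cd2_hom_iff _ _ _).2 (Submodule.zero_mem _), fun _ => map_zero _, fun _ => rfl⟩
  smul_mem' := fun s a ha =>
    ⟨(cd2_hom_iff _ _ _).2 (Submodule.smul_mem _ s ((cd2_hom_iff _ _ _).1 ha.1)),
      fun h => by rw [map_smul, ha.2.1 h, smul_zero], fun h => by rw [ha.2.2 h, smul_zero]⟩

theorem cd2_mem_W {X : Type} (deg : X → ℕ) (lam : (X →₀ ℤ) →ₗ[ℤ] (X →₀ ℤ)) (k : ℕ) (c : X →₀ ℤ) :
    c ∈ cd2_W deg lam k ↔ Hom deg k c ∧ (2 ≤ k → lam c = 0) ∧ (3 ≤ k → c = 0) := Iff.rfl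

theorem cd_le_two {G X : Type} [Group G] (act : G →* Equiv.Perm X)
    (hfree : ∀ g x, act g x = x → g = 1) (deg : X → ℕ) (hdeg : ∀ g x, deg (act g x) = deg x)
    (d lam : (X →₀ ℤ) →ₗ[ℤ] (X →₀ ℤ))
    (hd : ∀ g c, d (Finsupp.mapDomain (act g) c) = Finsupp.mapDomain (act g) (d c))
    (hl : ∀ g c, lam (Finsupp.mapDomain (act g) c) = Finsupp.mapDomain (act g) (lam c))
    (hdh : ∀ k c, Hom deg (k + 1) c → Hom deg k (d c)) (hdd : ∀ c, d (d c) = 0)
    (haug : ∀ c, Hom deg 1 c → aug (d c) = 0) (hne : ∃ x, deg x = 0)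
    (ex0 : ∀ c, Hom deg 0 c → aug c = 0 → ∃ c', Hom deg 1 c' ∧ d c' = c)
    (ex1 : ∀ c, Hom deg 1 c → d c = 0 → ∃ c', Hom deg 2 c' ∧ d c' = c)
    (ex2 : ∀ c, Hom deg 2 c → d c = 0 → ∃ c', Hom deg 3 c' ∧ d c' = c)
    (hlh : ∀ c, Hom deg 2 c → Hom deg 3 (lam c)) (hsplit : ∀ c, Hom deg 3 c → lam (d c) = c)
    (A : Rep ℤ G) (n : ℕ) (hn : 3 ≤ n) : CategoryTheory.Limits.IsZero (groupCohomology A n) := by
  let F : Rep ℤ G := Rep.of (cd2_rho ℤ act)
  have hF : CategoryTheory.Projective F := cd2_projective act hfree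
  have hW : ∀ k g, cd2_W deg lam k ≤ (cd2_W deg lam k).comap (F.ρ g) := fun k g c hc =>
    ⟨cd2_hom_map deg k _ (hdeg g) c hc.1,
      fun h => by
        change lam (Finsupp.mapDomain (act g) c) = 0
        rw [hl, hc.2.1 h, Finsupp.mapDomain_zero],
      fun h => by
        change Finsupp.mapDomain (act g) c = 0
        rw [hc.2.2 h, Finsupp.mapDomain_zero]⟩
  have hdW : ∀ k, ∀ c ∈ cd2_W deg lam (k + 1), d c ∈ cd2_W deg lam k := fun k c hc =>
    ⟨hdh k c hc.1, fun h => by rw [hc.2.2 (by omega), map_zero, map_zero],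
      fun h => by rw [hc.2.2 (by omega), map_zero]⟩
  have hcorr : ∀ c, Hom deg 2 c → c - d (lam c) ∈ cd2_W deg lam 2 := fun c hc =>
    ⟨(cd2_hom_iff _ _ _).2 (Submodule.sub_mem _ ((cd2_hom_iff _ _ _).1 hc)
      ((cd2_hom_iff _ _ _).1 (hdh 2 _ (hlh c hc)))),
      fun _ => by rw [map_sub, hsplit _ (hlh c hc), sub_self], fun h => by omega⟩
  let P : ℕ → Rep ℤ G := fun k => F.subrepresentation (cd2_W deg lam k) (hW k)
  refine cd2_of_complex P
    (fun k => Rep.ofHom ⟨d.restrict (hdW k), fun g => LinearMap.ext fun c => Subtype.ext (hd g c.1)⟩)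
    (Rep.ofHom ⟨Finsupp.linearCombination ℤ (fun _ : X => (1 : ℤ)) ∘ₗ (cd2_W deg lam 0).subtype,
      fun g => LinearMap.ext fun c => ?_⟩) (fun k => ?_) (fun k c => Subtype.ext (hdd c.1))
    (fun c => (cd2_aug _).symm.trans (haug c.1 c.2.1)) (fun m => ?_) (fun c hc => ?_)
    (fun k c hc => ?_) A n ?_
  · change Finsupp.linearCombination ℤ (fun _ : X => (1 : ℤ)) (Finsupp.mapDomain (act g) c.1) =
      Finsupp.linearCombination ℤ (fun _ : X => (1 : ℤ)) c.1
    rw [Finsupp.linearCombination_mapDomain]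
    rfl
  · rcases Nat.lt_trichotomy k 2 with h | rfl | h
    · exact cd2_projective_sub F hF _ _ (cd2_pr deg k) (fun g c => cd2_pr_map deg k _ (hdeg g) c)
        (fun c => ⟨cd2_pr_hom deg k c, fun h' => by omega, fun h' => by omega⟩)
        fun c hc => cd2_pr_id deg k c hc.1
    · refine cd2_projective_sub F hF _ _ (cd2_pr deg 2 - d ∘ₗ lam ∘ₗ cd2_pr deg 2) (fun g c => ?_)
        (fun c => hcorr _ (cd2_pr_hom deg 2 c)) fun c hc => ?_
      · change cd2_pr deg 2 (Finsupp.mapDomain (act g) c)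
            - d (lam (cd2_pr deg 2 (Finsupp.mapDomain (act g) c))) =
          cd2_rho ℤ act g (cd2_pr deg 2 c - d (lam (cd2_pr deg 2 c)))
        rw [cd2_pr_map deg 2 _ (hdeg g), hl, hd, map_sub]
        rfl
      · change cd2_pr deg 2 c - d (lam (cd2_pr deg 2 c)) = c
        rw [cd2_pr_id deg 2 c hc.1, hc.2.1 le_rfl, map_zero, sub_zero]
    · exact cd2_projective_sub F hF _ _ 0 (fun g c => by simp) (fun c => Submodule.zero_mem _)
        fun c hc => (hc.2.2 h).symm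
  · obtain ⟨x, hx⟩ := hne
    refine ⟨⟨Finsupp.single x m, Finsupp.single_mem_supported ℤ m hx, fun h => by omega,
      fun h => by omega⟩, ?_⟩
    change Finsupp.linearCombination ℤ (fun _ : X => (1 : ℤ)) (Finsupp.single x m) = m
    simp
  · obtain ⟨c', h1, h2⟩ := ex0 c.1 c.2.1 ((cd2_aug _).trans hc)
    exact ⟨⟨c', h1, fun h => by omega, fun h => by omega⟩, Subtype.ext h2⟩
  · have hc' : d c.1 = 0 := congrArg Subtype.val hc
    rcases Nat.lt_trichotomy k 1 with h | rfl | h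
    · obtain rfl : k = 0 := by omega
      obtain ⟨c', h1, h2⟩ := ex1 c.1 c.2.1 hc'
      refine ⟨⟨c' - d (lam c'), hcorr c' h1⟩, Subtype.ext ?_⟩
      change d (c' - d (lam c')) = c.1
      rw [map_sub, hdd, sub_zero, h2]
    · obtain ⟨c', h1, h2⟩ := ex2 c.1 c.2.1 hc'
      have h3 : c' = 0 := by rw [← hsplit c' h1, h2, c.2.2.1 le_rfl]
      refine ⟨0, Subtype.ext ?_⟩
      change d 0 = c.1
      rw [← h2, h3]
    · refine ⟨0, Subtype.ext ?_⟩
      change d 0 = c.1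
      rw [map_zero, c.2.2.2 (by omega)]
  · rw [Rep.isZero_iff]
    exact ⟨fun a b => Subtype.ext ((a.2.2.2 hn).trans (b.2.2.2 hn).symm)⟩

end Crest.Agent.R197
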