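import Crest.Agent.R197.Defs

/-! Row 197: definitions for the core argument. -/

set_option autoImplicit false

namespace Crest.Agent.R197

open Quaternion

section

variable {G Q S R X Y Z : Type} [Group G] [Group Q]

/-- A product of conjugates of relators and their inverses. -/
def cprod (ρ : R → FreeGroup S) (l : List (FreeGroup S × R × Bool)) : FreeGroup S :=
  (l.map fun x => x.1 * (if x.2.2 then ρ x.2.1 else (ρ x.2.1)⁻¹) * x.1⁻¹).prod

/-- The 2-chain of a product of conjugates of relators. -/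
noncomputable def cchain (φ : S → G) (l : List (FreeGroup S × R × Bool)) : G × R →₀ ℤ :=
  (l.map fun x => Finsupp.single (FreeGroup.lift φ x.1, x.2.1) (if x.2.2 then (1 : ℤ) else -1)).sum

theorem exists_cprod (ρ : R → FreeGroup S) {w : FreeGroup S}
    (hw : w ∈ Subgroup.normalClosure (Set.range ρ)) : ∃ l, w = cprod ρ l := by
  let N : Subgroup (FreeGroup S) :=
    { carrier := {w | ∃ l, w = cprod ρ l}
      one_mem' := ⟨[], rfl⟩
      mul_mem' := by
        rintro _ _ ⟨l, rfl⟩ ⟨l', rfl⟩
        exact ⟨l ++ l', by simp [cprod]⟩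
      inv_mem' := by
        rintro _ ⟨l, rfl⟩
        induction l with
        | nil => exact ⟨[], by simp [cprod]⟩
        | cons x l ih =>
          obtain ⟨l', hl'⟩ := ih
          refine ⟨l' ++ [(x.1, x.2.1, !x.2.2)], ?_⟩
          simp only [cprod, List.map_cons, List.prod_cons, mul_inv_rev, List.map_append,
            List.prod_append, List.map_nil, List.prod_nil, mul_one] at hl' ⊢
          rw [hl']
          obtain ⟨v, r, _ | _⟩ := x <;> simp [mul_assoc] }
  have : N.Normal := ⟨by
    rintro _ ⟨l, rfl⟩ g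
    refine ⟨l.map fun x => (g * x.1, x.2), ?_⟩
    induction l with
    | nil => simp [cprod]
    | cons x l ih =>
      simp only [cprod, List.map_cons, List.prod_cons] at ih ⊢
      rw [← ih]
      group⟩
  refine Subgroup.normalClosure_le_normal (N := N) ?_ hw
  rintro _ ⟨r, rfl⟩
  exact ⟨[(1, r, true)], by simp [cprod]⟩

/-- Translate a chain by `q` after pushing it along `π`. -/
noncomputable def push (π : G →* Q) (q : Q) (c : G × Y →₀ ℤ) : Q × Y →₀ ℤ :=
  Finsupp.mapDomain (fun e => (q * π e.1, e.2)) c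

/-- The map of chains over `Q` given by an equivariant kernel over `G`. -/
noncomputable def ext (π : G →* Q) (K : X → (G × Y →₀ ℤ)) : (Q × X →₀ ℤ) →ₗ[ℤ] (Q × Y →₀ ℤ) :=
  Finsupp.linearCombination ℤ fun x => push π x.1 (K x.2)

theorem push_chain (π : G →* Q) (φ : S → G) (w : FreeGroup S) (q : Q) (g : G) :
    push π q (chain φ w g) = chain (fun s => π (φ s)) w (q * π g) :=
  chain_comap φ (fun s => π (φ s)) (fun g => q * π g) (fun g s => by simp [mul_assoc]) w g

theorem lift_comp (π : G →* Q) (φ : S → G) (w : FreeGroup S) :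
    FreeGroup.lift (fun s => π (φ s)) w = π (FreeGroup.lift φ w) := by
  induction w using FreeGroup.induction_on with
  | C1 => simp
  | of s => simp
  | inv_of s ih => simp
  | mul x y hx hy => simp [hx, hy]

@[simp] theorem ext_single (π : G →* Q) (K : X → (G × Y →₀ ℤ)) (q : Q) (x : X) (n : ℤ) :
    ext π K (Finsupp.single (q, x) n) = n • push π q (K x) := by
  simp [ext]

theorem push_add (π : G →* Q) (q : Q) (c c' : G × Y →₀ ℤ) :
    push π q (c + c') = push π q c + push π q c' := Finsupp.mapDomain_add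

@[simp] theorem push_zero (π : G →* Q) (q : Q) : push π q (0 : G × Y →₀ ℤ) = 0 :=
  Finsupp.mapDomain_zero

@[simp] theorem push_single (π : G →* Q) (q : Q) (g : G) (y : Y) (n : ℤ) :
    push π q (Finsupp.single (g, y) n) = Finsupp.single (q * π g, y) n :=
  Finsupp.mapDomain_single

theorem push_smul (π : G →* Q) (q : Q) (n : ℤ) (c : G × Y →₀ ℤ) :
    push π q (n • c) = n • push π q c := Finsupp.mapDomain_smul _ _

theorem push_sub (π : G →* Q) (q : Q) (c c' : G × Y →₀ ℤ) :
    push π q (c - c') = push π q c - push π q c' := by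
  rw [eq_sub_iff_add_eq, ← push_add, sub_add_cancel]

theorem push_push (π : G →* Q) (q : Q) (g : G) (c : G × Y →₀ ℤ) :
    push π q (push (MonoidHom.id G) g c) = push π (q * π g) c := by
  unfold push
  rw [← Finsupp.mapDomain_comp]
  congr 1
  funext e
  simp [mul_assoc]

/-- Kernels commute with pushing. -/
theorem ext_push (π : G →* Q) (K : X → (G × Y →₀ ℤ)) (q : Q) (c : G × X →₀ ℤ) :
    ext π K (push π q c) = push π q (ext (MonoidHom.id G) K c) := by
  induction c using Finsupp.induction_linear with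
  | zero => simp
  | add c c' h h' => simp [push_add, h, h']
  | single e n =>
    obtain ⟨g, x⟩ := e
    simp [push_smul, push_push]

theorem bd2_eq_ext (φ : S → G) (ρ : R → FreeGroup S) :
    bd2 φ ρ = ext (MonoidHom.id G) fun r => chain φ (ρ r) 1 := by
  unfold bd2 ext
  congr 1
  funext x
  simpa using (push_chain (MonoidHom.id G) φ (ρ x.2) x.1 1).symm

theorem chain_cprod (φ : S → G) (ρ : R → FreeGroup S) (hρ : ∀ r, FreeGroup.lift φ (ρ r) = 1)
    (l : List (FreeGroup S × R × Bool)) :
    FreeGroup.lift φ (cprod ρ l) = 1 ∧ chain φ (cprod ρ l) 1 = bd2 φ ρ (cchain φ l) := by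
  induction l with
  | nil => simp [cprod, cchain]
  | cons x l ih =>
    obtain ⟨v, r, s⟩ := x
    have h1 : FreeGroup.lift φ (v * (if s then ρ r else (ρ r)⁻¹) * v⁻¹) = 1 := by
      cases s <;> simp [hρ]
    have h2 : chain φ (v * (if s then ρ r else (ρ r)⁻¹) * v⁻¹) 1 =
        (if s then (1 : ℤ) else -1) • chain φ (ρ r) (FreeGroup.lift φ v) := by
      cases s <;> simp [chain_mul, chain_inv, hρ]
    simp only [cprod, cchain, List.map_cons, List.prod_cons, List.sum_cons] at ih ⊢
    refine ⟨by rw [map_mul, h1, ih.1, one_mul], ?_⟩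
    rw [chain_mul, h1, h2, map_add, one_mul, ih.2]
    simp [bd2]

end

section

variable {G A T R B : Type} [Group G]

/-- The generator map of a presentation in normal form: the extra letters are trivial. -/
def nf (φ : A → G) (T : Type) : A ⊕ T → G := Sum.elim φ fun _ => 1

/-- The part of a 1-chain on the extra letters. -/
noncomputable def tpart {Q : Type} : (Q × (A ⊕ T) →₀ ℤ) →ₗ[ℤ] (Q × T →₀ ℤ) :=
  Finsupp.linearCombination ℤ fun e =>
    Sum.elim (fun _ => 0) (fun t => Finsupp.single (e.1, t) 1) e.2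

/-- Labelling of all edges from a labelling of the `A`-edges and of the `T`-edges. -/
def lab {Q U : Type} (a : Q × A → U) (x : Q × T → U) : Q × (A ⊕ T) → U :=
  fun e => Sum.elim (fun s => a (e.1, s)) (fun t => x (e.1, t)) e.2

/-- Imaginary parts of the relators. -/
noncomputable def xi {Q S : Type} [Group Q] (ψ : S → Q) (ρ : R → FreeGroup S) (l : Q × S → S3) :
    Q × R → ℍ[ℝ] := fun e => imS (hol ψ l (ρ e.2) e.1)

/-- The fixed data of the core argument: a finite set `Rin` of relators, an idempotent kernel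
`P` onto the relation module, a splitting `σ`, and the constants of the a priori estimate. -/
structure Setup (φ : A → G) (ρ : R → FreeGroup (A ⊕ T)) (b : B → FreeGroup A)
    (Rin : Finset R) (P : R → (G × R →₀ ℤ)) (σ : T → (G × R →₀ ℤ)) (S0 : Finset G) (C : ℝ) :
    Prop where
  out : ∀ r, r ∉ Rin → P r = 0
  supp : ∀ r, ∀ e ∈ (P r).support, e.2 ∈ Rin
  idem : ∀ r, ext (MonoidHom.id G) P (P r) = P r
  split : ∀ r, ext (MonoidHom.id G) σ (tpart (chain (nf φ T) (ρ r) 1)) =
    Finsupp.single (1, r) 1 - P r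
  one_mem : 1 ∈ S0
  C_nonneg : 0 ≤ C
  est : ∀ (Q : Type) [Group Q] (π : G →* Q) (a : Q × A → S3) (x : Q × T → S3) (ε δ : ℝ),
    0 ≤ ε → 0 ≤ δ → δ ≤ 1 → (∀ e, dev (a e) ≤ ε) →
    (∀ q, ∀ r ∈ Rin, dev (hol (fun s => π (nf φ T s)) (lab a x) (ρ r) q) ≤ δ) →
    ∀ q, ∀ r ∈ Rin,
      xi (fun s => π (nf φ T s)) ρ (lab a x) (q, r) = Finsupp.linearCombination ℤ
        (xi (fun s => π (nf φ T s)) ρ (lab a x)) (push π q (P r)) →
      ∀ ζ η : ℝ,
        (∀ g ∈ S0, ∀ j, dev (hol (fun s => π (φ s)) a (b j) (q * π g)) ≤ ζ) →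
        (∀ g ∈ S0, ∀ r' ∈ Rin,
          dev (hol (fun s => π (nf φ T s)) (lab a x) (ρ r') (q * π g)) ≤ η) →
        0 ≤ ζ → 0 ≤ η →
        dev (hol (fun s => π (nf φ T s)) (lab a x) (ρ r) q) ≤ C * ζ + C * (δ + ε) * η

/-- Abelianised evaluation of a word. -/
def abev {k M : Type} [AddCommGroup M] (v : k → M) (w : FreeGroup k) : M :=
  Multiplicative.toAdd (FreeGroup.lift (fun i => Multiplicative.ofAdd (v i)) w)

/-- The square system over a finite quotient: `f i` are the equations, and the `T`-labels are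
the words `W` in the unknowns. -/
structure Square {Q : Type} [Group Q] (π : G →* Q) (φ : A → G) (ρ : R → FreeGroup (A ⊕ T))
    (P : R → (G × R →₀ ℤ)) (R0 : Finset R) (k : ℕ) (f : Fin k → (Q × R →₀ ℤ))
    (W : Q × T → FreeGroup (Fin k)) : Prop where
  supp : ∀ i, ∀ e ∈ (f i).support, e.2 ∈ R0
  unimod : ∀ (M : Type) [AddCommGroup M] (v : Fin k → M) (i : Fin k),
    Finsupp.linearCombination ℤ (fun e : Q × R =>
      Finsupp.linearCombination ℤ (lab (fun _ => 0) fun t => abev v (W t))
        (chain (fun s => π (nf φ T s)) (ρ e.2) e.1)) (f i) = v i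
  span : ∀ (M : Type) [AddCommGroup M] (ξ : Q × R → M),
    (∀ i, Finsupp.linearCombination ℤ ξ (f i) = 0) →
    ∀ q, ∀ r ∈ R0, ξ (q, r) = Finsupp.linearCombination ℤ ξ (push π q (P r))

end

end Crest.Agent.R197
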