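import Crest.Agent.R197.TDefs

/-! Point-set facts on two-dimensional CW complexes. -/

set_option autoImplicit false

namespace Crest.Agent.R197

open Set Metric Topology unitInterval

variable {X : Type} [TopologicalSpace X] [CWComplex (univ : Set X)] [T2Space X]

omit [T2Space X] in
theorem cw1_exists (x : X) : ∃ n, ∃ j : Cell X n, x ∈ oc n j := by
  have h : x ∈ ⋃ (n : ℕ) (j : Cell X n), oc n j := by
    rw [CWComplex.iUnion_openCell_eq_complex (C := (univ : Set X))]
    trivial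
  simpa only [mem_iUnion] using h

omit [T2Space X] in
theorem cw1_eq {n m : ℕ} {i : Cell X n} {j : Cell X m} {x : X} (hi : x ∈ oc n i)
    (hj : x ∈ oc m j) : (⟨n, i⟩ : Σ n, Cell X n) = ⟨m, j⟩ :=
  RelCWComplex.eq_of_not_disjoint_openCell (Set.not_disjoint_iff.2 ⟨x, hi, hj⟩)

omit [T2Space X] in
theorem cw1_le (h : Dim2 X) {n : ℕ} (j : Cell X n) : n ≤ 2 := by
  by_contra hn
  exact (h n (by omega)).false j

omit [T2Space X] in
theorem cw1_oc_zero {v : Cell X 0} {x : X} : x ∈ oc 0 v ↔ x = chm 0 v 0 := by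
  constructor
  · rintro ⟨z, -, rfl⟩
    rw [Subsingleton.elim z 0]
  · rintro rfl
    exact RelCWComplex.map_zero_mem_openCell 0 v

theorem cw1_disjoint {n m : ℕ} {j : Cell X n} {d : Cell X m} (hnm : n ≤ m)
    (hne : (⟨n, j⟩ : Σ n, Cell X n) ≠ ⟨m, d⟩) :
    Disjoint (RelCWComplex.closedCell n j) (oc m d) := by
  rw [← RelCWComplex.cellFrontier_union_openCell_eq_closedCell, disjoint_union_left]
  exact ⟨(RelCWComplex.disjoint_skeletonLT_openCell (by exact_mod_cast hnm)).mono_left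
    (RelCWComplex.cellFrontier_subset_skeletonLT n j), RelCWComplex.disjoint_openCell_of_ne hne⟩

theorem cw1_isClosed {A : Set X} (h : ∀ n (j : Cell X n),
    Disjoint A (oc n j) ∨ RelCWComplex.closedCell n j ⊆ A) : IsClosed A :=
  CWComplex.isClosed_of_disjoint_openCell_or_isClosed_inter_closedCell (C := (univ : Set X))
    (subset_univ A) fun n _ j => (h n j).imp id fun h' => by
      rw [inter_eq_right.2 h']
      exact RelCWComplex.isClosed_closedCell

theorem cw1_centres (m : ℕ) (s : Set (Cell X m)) : IsClosed ((fun v => chm m v 0) '' s) := by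
  refine CWComplex.isClosed_of_isClosed_inter_openCell_or_isClosed_inter_closedCell
    (C := (univ : Set X)) (subset_univ _) fun n _ j => Or.inl (Set.Subsingleton.isClosed ?_)
  rintro _ ⟨⟨v, -, rfl⟩, hv⟩ _ ⟨⟨w, -, rfl⟩, hw⟩
  have h1 := cw1_eq (RelCWComplex.map_zero_mem_openCell m v) hv
  have h2 := cw1_eq (RelCWComplex.map_zero_mem_openCell m w) hw
  have h3 : v = w := eq_of_heq (Sigma.mk.inj (h1.trans h2.symm)).2
  rw [h3]

theorem exists_cell (h : Dim2 X) (x : X) : (∃ v : Cell X 0, x = chm 0 v 0) ∨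
    (∃ e : Cell X 1, x ∈ oc 1 e) ∨ ∃ d : Cell X 2, x ∈ oc 2 d := by
  obtain ⟨n, j, hj⟩ := cw1_exists x
  have hn := cw1_le h j
  interval_cases n
  · exact Or.inl ⟨j, cw1_oc_zero.1 hj⟩
  · exact Or.inr (Or.inl ⟨j, hj⟩)
  · exact Or.inr (Or.inr ⟨j, hj⟩)

theorem mem_X1_iff (h : Dim2 X) {x : X} :
    x ∈ X1 X ↔ (∃ v : Cell X 0, x = chm 0 v 0) ∨ ∃ e : Cell X 1, x ∈ oc 1 e := by
  constructor
  · intro hx
    rcases exists_cell h x with h | h | ⟨d, hd⟩
    · exact Or.inl h
    · exact Or.inr h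
    · exact absurd hd (hx d)
  · rintro (⟨v, rfl⟩ | ⟨e, z, hz, rfl⟩)
    · exact chm_mem_X1 (by omega) v (by simp)
    · exact chm_mem_X1 le_rfl e (ball_subset_closedBall hz)

theorem isOpen_oc2 (h : Dim2 X) (d : Cell X 2) : IsOpen (oc 2 d) := by
  rw [← isClosed_compl_iff]
  refine cw1_isClosed fun n j => ?_
  by_cases hne : (⟨n, j⟩ : Σ n, Cell X n) = ⟨2, d⟩
  · cases hne
    exact Or.inl disjoint_compl_left
  · exact Or.inr (cw1_disjoint (cw1_le h j) hne).subset_compl_right

theorem isClosed_X1 (h : Dim2 X) : IsClosed (X1 X) := by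
  have : X1 X = ⋂ d : Cell X 2, (oc 2 d)ᶜ := by
    ext x
    simp [X1]
  rw [this]
  exact isClosed_iInter fun d => (isOpen_oc2 h d).isClosed_compl

theorem isOpen_Yset (h : Dim2 X) : IsOpen (Yset X) := by
  have : Yset X = ((fun v => chm 2 v 0) '' (univ : Set (Cell X 2)))ᶜ := by
    ext x
    simp [Yset]
  rw [this]
  exact (cw1_centres 2 univ).isOpen_compl

theorem isClosed_Mid : IsClosed (Mid X) := by
  have : Mid X = (fun v => chm 1 v 0) '' (univ : Set (Cell X 1)) := by
    ext x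
    simp [Mid]
  rw [this]
  exact cw1_centres 1 univ

theorem cw1_disjoint_X1 (h : Dim2 X) {n : ℕ} (hn : ¬ n ≤ 1) (j : Cell X n) :
    Disjoint (X1 X) (oc n j) := by
  have := cw1_le h j
  obtain rfl : n = 2 := by omega
  exact Set.disjoint_left.2 fun x hx => hx j

/-- Open 1-cells are open in the 1-skeleton. -/
theorem isClosed_X1_diff (h : Dim2 X) (e : Cell X 1) : IsClosed (X1 X \ oc 1 e) := by
  refine cw1_isClosed fun n j => ?_
  by_cases hn : n ≤ 1
  · by_cases hne : (⟨n, j⟩ : Σ n, Cell X n) = ⟨1, e⟩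
    · cases hne
      exact Or.inl disjoint_sdiff_left
    · refine Or.inr (subset_diff.2 ⟨?_, cw1_disjoint hn hne⟩)
      rintro _ ⟨z, hz, rfl⟩
      exact chm_mem_X1 hn j hz
  · exact Or.inl ((cw1_disjoint_X1 h hn j).mono_left diff_subset)

/-- Any set of vertices is closed. -/
theorem isClosed_vertices (s : Set (Cell X 0)) : IsClosed ((fun v => chm 0 v 0) '' s) :=
  cw1_centres 0 s

theorem nonempty_Yset (h : Dim2 X) [Nonempty X] : (Yset X).Nonempty := by
  obtain ⟨x⟩ := ‹Nonempty X›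
  by_cases hx : x ∈ X1 X
  · exact ⟨x, X1_subset_Yset hx⟩
  · simp only [X1, mem_ofPred_eq, not_forall] at hx
    obtain ⟨d, -⟩ := hx
    exact ⟨_, (bpt d).2⟩

/-- The weak topology on an open subset of a subcomplex. -/
theorem cw1_isOpen (P : ℕ → Prop) {Z O : Set X} (hO : IsClosed (Z \ O))
    (hP : ∀ n, P n → ∀ (j : Cell X n), ∀ z ∈ closedBall (0 : Fin n → ℝ) 1, chm n j z ∈ Z)
    (hP' : ∀ n, ¬ P n → ∀ j : Cell X n, Disjoint Z (oc n j)) (hOZ : O ⊆ Z) {U : Set O}
    (hU : ∀ n, P n → ∀ j : Cell X n, IsOpen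
      {z : {z : Fin n → ℝ // z ∈ closedBall (0 : Fin n → ℝ) 1 ∧ chm n j z ∈ O} |
        (⟨chm n j z.1, z.2.2⟩ : O) ∈ U}) : IsOpen U := by
  have hB : IsClosed (Z \ Subtype.val '' U) := by
    refine CWComplex.isClosed_of_disjoint_openCell_or_isClosed_inter_closedCell
      (C := (univ : Set X)) (subset_univ _) fun n _ j => ?_
    by_cases hn : P n
    swap
    · exact Or.inl ((hP' n hn j).mono_left diff_subset)
    right
    let f : closedBall (0 : Fin n → ℝ) 1 → X := fun z => chm n j z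
    have hf : Continuous f := (RelCWComplex.continuousOn n j).restrict
    have hsub : {z : Fin n → ℝ | z ∈ closedBall (0 : Fin n → ℝ) 1 ∧ chm n j z ∈ O} ⊆
        closedBall (0 : Fin n → ℝ) 1 := fun z hz => hz.1
    have hop : IsOpenEmbedding (Set.inclusion hsub) := by
      refine IsOpenEmbedding.inclusion hsub ?_
      convert (hO.preimage hf).isOpen_compl using 1
      ext z
      simp only [mem_preimage, mem_ofPred_eq, mem_compl_iff, mem_diff, not_and, not_not]
      exact ⟨fun h _ => h.2, fun h => ⟨z.2, h (hP n hn j z z.2)⟩⟩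
    have h1 := (hop.isOpenMap _ (hU n hn j)).isClosed_compl
    have h2 := (h1.isCompact.image hf).isClosed
    convert h2 using 1
    ext x
    constructor
    · rintro ⟨⟨-, hx⟩, z, hz, rfl⟩
      refine ⟨⟨z, hz⟩, ?_, rfl⟩
      rintro ⟨w, hw, hwz⟩
      refine hx ⟨_, hw, ?_⟩
      have : w.1 = z := congrArg Subtype.val hwz
      simp only [this]
    · rintro ⟨z, hz, rfl⟩
      refine ⟨⟨hP n hn j z z.2, ?_⟩, z, z.2, rfl⟩
      rintro ⟨y, hy, hyz⟩
      have hO' : chm n j z ∈ O := by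
        have := y.2
        rwa [hyz] at this
      refine hz ⟨⟨z, z.2, hO'⟩, ?_, rfl⟩
      have : (⟨chm n j z, hO'⟩ : O) = y := Subtype.ext hyz.symm
      change (⟨chm n j z, hO'⟩ : O) ∈ U
      rwa [this]
  have h3 := (hB.preimage (continuous_subtype_val (p := fun x => x ∈ O))).isOpen_compl
  convert h3 using 1
  ext y
  simp only [mem_compl_iff, mem_preimage, mem_diff, not_and, not_not]
  exact ⟨fun h _ => ⟨y, h, rfl⟩, fun h => by
    obtain ⟨y', hy', e⟩ := h (hOZ y.2)
    rwa [← Subtype.ext e]⟩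

theorem cw1_continuous (P : ℕ → Prop) {W : Type} [TopologicalSpace W] {Z O : Set X}
    (hO : IsClosed (Z \ O))
    (hP : ∀ n, P n → ∀ (j : Cell X n), ∀ z ∈ closedBall (0 : Fin n → ℝ) 1, chm n j z ∈ Z)
    (hP' : ∀ n, ¬ P n → ∀ j : Cell X n, Disjoint Z (oc n j)) (hOZ : O ⊆ Z) (F : O × I → W)
    (hF : ∀ n, P n → ∀ j : Cell X n, Continuous fun p :
      {z : Fin n → ℝ // z ∈ closedBall (0 : Fin n → ℝ) 1 ∧ chm n j z ∈ O} × I =>
        F (⟨chm n j p.1.1, p.1.2.2⟩, p.2)) : Continuous F := by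
  have h1 : ∀ x : O, Continuous fun t : I => F (x, t) := by
    rintro ⟨x, hx⟩
    obtain ⟨n, j, hj⟩ := cw1_exists x
    have hn : P n := by
      by_contra hn
      exact Set.disjoint_left.1 (hP' n hn j) (hOZ hx) hj
    obtain ⟨z, hz, rfl⟩ := hj
    exact (hF n hn j).comp (Continuous.prodMk_right ⟨z, ball_subset_closedBall hz, hx⟩)
  let G : O → C(I, W) := fun x => ⟨fun t => F (x, t), h1 x⟩
  have hG : Continuous G := by
    rw [continuous_def]
    intro V hV
    refine cw1_isOpen P hO hP hP' hOZ fun n hn j => ?_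
    have h2 : Continuous fun
        z : {z : Fin n → ℝ // z ∈ closedBall (0 : Fin n → ℝ) 1 ∧ chm n j z ∈ O} =>
          G ⟨chm n j z.1, z.2.2⟩ :=
      ContinuousMap.continuous_of_continuous_uncurry _ (hF n hn j)
    exact hV.preimage h2
  exact ContinuousMap.continuous_uncurry_of_continuous ⟨G, hG⟩

/-- Continuity criterion for homotopies on an open subset. -/
theorem continuous_of_cells {W : Type} [TopologicalSpace W] {O : Set X} (hO : IsOpen O)
    (F : O × I → W)
    (hF : ∀ n (j : Cell X n), Continuous fun p :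
      {z : Fin n → ℝ // z ∈ closedBall (0 : Fin n → ℝ) 1 ∧ chm n j z ∈ O} × I =>
        F (⟨chm n j p.1.1, p.1.2.2⟩, p.2)) : Continuous F :=
  cw1_continuous (fun _ => True) (Z := univ)
    (by rw [← compl_eq_univ_diff]; exact hO.isClosed_compl) (fun _ _ _ _ _ => trivial)
    (fun _ h => absurd trivial h) (subset_univ _) F fun n _ j => hF n j

/-- Continuity criterion for homotopies on an open subset of the 1-skeleton. -/
theorem continuous_of_cells_X1 (h : Dim2 X) {W : Type} [TopologicalSpace W] {O : Set X}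
    (hO1 : O ⊆ X1 X) (hO : IsClosed (X1 X \ O)) (F : O × I → W)
    (hF : ∀ n, n ≤ 1 → ∀ j : Cell X n, Continuous fun p :
      {z : Fin n → ℝ // z ∈ closedBall (0 : Fin n → ℝ) 1 ∧ chm n j z ∈ O} × I =>
        F (⟨chm n j p.1.1, p.1.2.2⟩, p.2)) : Continuous F :=
  cw1_continuous (fun n => n ≤ 1) hO (fun _ hn j _ hz => chm_mem_X1 hn j hz)
    (fun _ hn j => cw1_disjoint_X1 h hn j) hO1 F hF

end Crest.Agent.R197
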