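import Crest.Agent.R197.CW1

/-! Radial deformations. -/

set_option autoImplicit false

namespace Crest.Agent.R197

open Set Metric Topology unitInterval

variable {X : Type} [TopologicalSpace X] [CWComplex (univ : Set X)] [T2Space X]

/-- radial deformation of a cube -/
noncomputable def cw2_rad {n : ℕ} (z : Fin n → ℝ) (t : ℝ) : Fin n → ℝ :=
  (1 - t) • ‖z‖⁻¹ • z + t • z

theorem cw2_rad_one {n : ℕ} (z : Fin n → ℝ) : cw2_rad z 1 = z := by simp [cw2_rad]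

theorem cw2_rad_sphere {n : ℕ} {z : Fin n → ℝ} (hz : ‖z‖ = 1) (t : ℝ) : cw2_rad z t = z := by
  rw [cw2_rad, hz, inv_one, one_smul, ← add_smul, sub_add_cancel, one_smul]

theorem cw2_norm_rad {n : ℕ} {z : Fin n → ℝ} (hz : z ≠ 0) (t : I) :
    ‖cw2_rad z t‖ = 1 - t + t * ‖z‖ := by
  have h0 := t.2.1
  have h1 : (0 : ℝ) ≤ 1 - t := sub_nonneg.2 t.2.2
  have h2 : ‖z‖ ≠ 0 := norm_ne_zero_iff.2 hz
  rw [cw2_rad, smul_smul, ← add_smul, norm_smul, Real.norm_of_nonneg (by positivity)]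
  field_simp

theorem cw2_rad_mem {n : ℕ} {z : Fin n → ℝ} (hz : z ∈ closedBall (0 : Fin n → ℝ) 1) (h0 : z ≠ 0)
    (t : I) : cw2_rad z t ∈ closedBall (0 : Fin n → ℝ) 1 ∧ cw2_rad z t ≠ 0 := by
  have h1 := t.2.1
  have h2 := t.2.2
  have h3 : 0 < ‖z‖ := norm_pos_iff.2 h0
  rw [mem_closedBall_zero_iff] at hz ⊢
  rw [← norm_pos_iff, cw2_norm_rad h0]
  constructor <;> nlinarith

omit [T2Space X] in
theorem cw2_inj {n : ℕ} {d d' : Cell X n} {z z' : Fin n → ℝ} (hz : z ∈ ball (0 : Fin n → ℝ) 1)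
    (hz' : z' ∈ ball (0 : Fin n → ℝ) 1) (h : chm n d z = chm n d' z') : d = d' ∧ z = z' := by
  have h1 : d = d' := by
    by_contra hne
    exact Set.disjoint_left.1 (RelCWComplex.disjoint_openCell_of_ne (i := d) (j := d')
      fun e => hne (eq_of_heq (Sigma.mk.inj e).2)) ⟨z, hz, rfl⟩ ⟨z', hz', h.symm⟩
  subst h1
  refine ⟨rfl, (chm n d).injOn ?_ ?_ h⟩ <;> rwa [RelCWComplex.source_eq]

theorem cw2_sphere_not {n : ℕ} (d d' : Cell X n) {z : Fin n → ℝ} (hz : ‖z‖ = 1) :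
    chm n d z ∉ oc n d' :=
  Set.disjoint_left.1 (RelCWComplex.disjoint_skeletonLT_openCell (j := d') le_rfl)
    (RelCWComplex.cellFrontier_subset_skeletonLT n d ⟨z, mem_sphere_zero_iff_norm.2 hz, rfl⟩)

theorem cw2_centre {n : ℕ} (d d' : Cell X n) {z : Fin n → ℝ}
    (hz : z ∈ closedBall (0 : Fin n → ℝ) 1) (h0 : z ≠ 0) : chm n d' 0 ≠ chm n d z := by
  intro e
  rcases (mem_closedBall_zero_iff.1 hz).eq_or_lt with h | h
  · exact cw2_sphere_not d d' h (e ▸ RelCWComplex.map_zero_mem_openCell n d')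
  · exact h0 (cw2_inj (mem_ball_self one_pos) (mem_ball_zero_iff.2 h) e).2.symm

theorem cw2_vertex_not (v : Cell X 0) (z : Fin 0 → ℝ) (e : Cell X 1) : chm 0 v z ∉ oc 1 e :=
  Set.disjoint_left.1 (RelCWComplex.disjoint_skeleton_openCell (n := (0 : ℕ)) (j := e) (by simp))
    (RelCWComplex.closedCell_subset_skeleton 0 v ⟨z, by simp [Subsingleton.elim z 0], rfl⟩)

open Classical in
/-- radial deformation of the `n`-cells -/
noncomputable def cw2_G (n : ℕ) (x : X) (t : ℝ) : X :=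
  if h : ∃ p : Cell X n × (Fin n → ℝ), p.2 ∈ ball (0 : Fin n → ℝ) 1 ∧ chm n p.1 p.2 = x then
    chm n h.choose.1 (cw2_rad h.choose.2 t) else x

omit [T2Space X] in
theorem cw2_G_of_not {n : ℕ} {x : X} (h : ∀ d, x ∉ oc n d) (t : ℝ) : cw2_G n x t = x :=
  dif_neg fun ⟨p, h1, h2⟩ => h p.1 ⟨p.2, h1, h2⟩

theorem cw2_G_chm {n : ℕ} (d : Cell X n) {z : Fin n → ℝ} (hz : z ∈ closedBall (0 : Fin n → ℝ) 1)
    (t : ℝ) : cw2_G n (chm n d z) t = chm n d (cw2_rad z t) := by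
  rcases (mem_closedBall_zero_iff.1 hz).eq_or_lt with h | h
  · rw [cw2_G_of_not fun d' => cw2_sphere_not d d' h, cw2_rad_sphere h]
  · have h1 : ∃ p : Cell X n × (Fin n → ℝ), p.2 ∈ ball (0 : Fin n → ℝ) 1 ∧
        chm n p.1 p.2 = chm n d z := ⟨(d, z), mem_ball_zero_iff.2 h, rfl⟩
    obtain ⟨e1, e2⟩ := cw2_inj h1.choose_spec.1 (mem_ball_zero_iff.2 h) h1.choose_spec.2
    rw [cw2_G, dif_pos h1, e1, e2]

theorem cw2_G_one (n : ℕ) (x : X) : cw2_G n x 1 = x := by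
  by_cases h : ∀ d, x ∉ oc n d
  · exact cw2_G_of_not h 1
  · push Not at h
    obtain ⟨d, z, hz, rfl⟩ := h
    rw [cw2_G_chm d (ball_subset_closedBall hz), cw2_rad_one]

omit [T2Space X] in
theorem cw2_cont_id {n m : ℕ} (j : Cell X m) (O : Set X)
    (h : ∀ z ∈ closedBall (0 : Fin m → ℝ) 1, ∀ d, chm m j z ∉ oc n d) :
    Continuous fun p : {z : Fin m → ℝ // z ∈ closedBall (0 : Fin m → ℝ) 1 ∧ chm m j z ∈ O} × I =>
      cw2_G n (chm m j p.1.1) p.2 := by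
  refine Continuous.congr ?_ fun p => (cw2_G_of_not (h _ p.1.2.1) _).symm
  exact (RelCWComplex.continuousOn m j).comp_continuous (by fun_prop) fun p => p.1.2.1

theorem cw2_cont_rad {n : ℕ} (j : Cell X n) {O : Set X} (h : chm n j 0 ∉ O) :
    Continuous fun p : {z : Fin n → ℝ // z ∈ closedBall (0 : Fin n → ℝ) 1 ∧ chm n j z ∈ O} × I =>
      cw2_G n (chm n j p.1.1) p.2 := by
  refine Continuous.congr ?_ fun p => (cw2_G_chm j p.1.2.1 _).symm
  have h0 : ∀ p : {z : Fin n → ℝ // z ∈ closedBall (0 : Fin n → ℝ) 1 ∧ chm n j z ∈ O} × I,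
      p.1.1 ≠ 0 := fun p e => h (e ▸ p.1.2.2)
  refine (RelCWComplex.continuousOn n j).comp_continuous ?_ fun p =>
    (cw2_rad_mem p.1.2.1 (h0 p) p.2).1
  unfold cw2_rad
  have h1 : Continuous fun p : {z : Fin n → ℝ // z ∈ closedBall (0 : Fin n → ℝ) 1 ∧
      chm n j z ∈ O} × I => ‖p.1.1‖⁻¹ :=
    Continuous.inv₀ (by fun_prop) fun p => norm_ne_zero_iff.2 (h0 p)
  fun_prop

/-- `Yset X` deformation retracts onto the 1-skeleton. -/
theorem exists_radial2 (h : Dim2 X) : ∃ F : Yset X × I → Yset X, Continuous F ∧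
    (∀ y, F (y, 1) = y) ∧ (∀ y, (F (y, 0) : X) ∈ X1 X) ∧
    (∀ (y : Yset X) t, (y : X) ∈ X1 X → F (y, t) = y) ∧
    ∀ (d : Cell X 2) (z : Fin 2 → ℝ), z ∈ closedBall (0 : Fin 2 → ℝ) 1 → z ≠ 0 →
      ∀ (y : Yset X) (t : I), (y : X) = chm 2 d z →
        (F (y, t) : X) = chm 2 d ((1 - (t : ℝ)) • ‖z‖⁻¹ • z + (t : ℝ) • z) := by
  have hc : ∀ y : Yset X, (y : X) ∈ X1 X ∨ ∃ d z, z ∈ closedBall (0 : Fin 2 → ℝ) 1 ∧ z ≠ 0 ∧
      (y : X) = chm 2 d z := by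
    intro y
    by_cases hy : (y : X) ∈ X1 X
    · exact Or.inl hy
    · obtain ⟨d, z, hz, e⟩ : ∃ d, (y : X) ∈ oc 2 d := by
        by_contra hne
        exact hy fun d hd => hne ⟨d, hd⟩
      exact Or.inr ⟨d, z, ball_subset_closedBall hz, fun h0 => y.2 d (h0 ▸ e), e.symm⟩
  have hm : ∀ p : Yset X × I, cw2_G 2 (p.1 : X) p.2 ∈ Yset X := by
    intro p
    rcases hc p.1 with hy | ⟨d, z, hz, h0, e⟩
    · rw [cw2_G_of_not hy]
      exact p.1.2
    · rw [e, cw2_G_chm d hz]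
      exact fun d' => cw2_centre d d' (cw2_rad_mem hz h0 p.2).1 (cw2_rad_mem hz h0 p.2).2
  refine ⟨fun p => ⟨_, hm p⟩, Continuous.subtype_mk ?_ _, fun y => Subtype.ext (cw2_G_one 2 _),
    fun y => ?_, fun y t hy => Subtype.ext (cw2_G_of_not hy _), fun d z hz _ y t e => ?_⟩
  · refine continuous_of_cells (isOpen_Yset h) _ fun n j => ?_
    rcases lt_trichotomy n 2 with hn | rfl | hn
    · exact cw2_cont_id j _ fun z hz => chm_mem_X1 (by omega) j hz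
    · exact cw2_cont_rad j fun h0 => h0 j rfl
    · exact (h n hn).elim j
  · change cw2_G 2 (y : X) (0 : I) ∈ X1 X
    rcases hc y with hy | ⟨d, z, hz, h0, e⟩
    · rwa [cw2_G_of_not hy]
    · rw [e, cw2_G_chm d hz]
      exact chm_sphere_mem_X1 d (mem_sphere_zero_iff_norm.2 (by rw [cw2_norm_rad h0]; simp))
  · change cw2_G 2 (y : X) t = _
    rw [e, cw2_G_chm d hz]
    rfl

/-- The 1-skeleton without the midpoints deformation retracts onto the vertices. -/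
theorem exists_radial1 (h : Dim2 X) :
    ∃ (F : ↥(X1 X \ Mid X) × I → X) (vx : ↥(X1 X \ Mid X) → Cell X 0), Continuous F ∧
    IsLocallyConstant vx ∧ (∀ p, F p ∈ X1 X \ Mid X) ∧
    (∀ y, F (y, 1) = y) ∧ (∀ y, F (y, 0) = chm 0 (vx y) 0) ∧
    (∀ (y : ↥(X1 X \ Mid X)) (v : Cell X 0), (y : X) = chm 0 v 0 → vx y = v ∧ ∀ t, F (y, t) = y) ∧
    ∀ (e : Cell X 1) (c : ℝ) (y : ↥(X1 X \ Mid X)), (y : X) = chm 1 e (fun _ => c) →
      (-1 ≤ c → c < 0 → vx y = esrc e ∧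
        ∀ t : I, F (y, t) = chm 1 e fun _ => (1 - (t : ℝ)) * (-1) + t * c) ∧
      (0 < c → c ≤ 1 → vx y = etgt e ∧
        ∀ t : I, F (y, t) = chm 1 e fun _ => (1 - (t : ℝ)) * 1 + t * c) := by
  have hc : ∀ y : ↥(X1 X \ Mid X), (∃ v : Cell X 0, (y : X) = chm 0 v 0) ∨
      ∃ e z, z ∈ closedBall (0 : Fin 1 → ℝ) 1 ∧ z ≠ 0 ∧ (y : X) = chm 1 e z := by
    intro y
    rcases (mem_X1_iff h).1 y.2.1 with hy | ⟨e, z, hz, he⟩
    · exact Or.inl hy
    · exact Or.inr ⟨e, z, ball_subset_closedBall hz, fun h0 => y.2.2 ⟨e, h0 ▸ he⟩, he.symm⟩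
  have hv : ∀ (v : Cell X 0) t, cw2_G 1 (chm 0 v 0) t = chm 0 v 0 := fun v t =>
    cw2_G_of_not (cw2_vertex_not v 0) t
  have h0 : ∀ y : ↥(X1 X \ Mid X), ∃ v : Cell X 0, cw2_G 1 (y : X) (0 : I) = chm 0 v 0 := by
    intro y
    rcases hc y with ⟨v, hy⟩ | ⟨e, z, hz, h0, he⟩
    · exact ⟨v, by rw [hy, hv]⟩
    · rw [he, cw2_G_chm e hz]
      have h1 : ‖cw2_rad z (0 : I)‖ = 1 := by rw [cw2_norm_rad h0]; simp
      have h2 : cw2_rad z (0 : I) = fun _ => cw2_rad z (0 : I) 0 :=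
        funext fun i => congrArg _ (Subsingleton.elim _ _)
      rw [h2] at h1 ⊢
      exact exists_end e (by simpa using h1)
  choose vx hvx using h0
  have hinj : ∀ {v w : Cell X 0}, chm 0 v 0 = chm 0 w 0 → v = w := fun e =>
    (cw2_inj (mem_ball_self one_pos) (mem_ball_self one_pos) e).1
  have hcont : Continuous fun p : ↥(X1 X \ Mid X) × I => cw2_G 1 (p.1 : X) p.2 := by
    refine continuous_of_cells_X1 h sdiff_subset ?_ _ fun n hn j => ?_
    · rw [sdiff_sdiff_right_self]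
      exact (isClosed_X1 h).inter isClosed_Mid
    · rcases hn.eq_or_lt with rfl | hn
      · exact cw2_cont_rad j fun h0 => h0.2 ⟨j, rfl⟩
      · obtain rfl : n = 0 := by omega
        exact cw2_cont_id j _ fun z _ => cw2_vertex_not j z
  have hform : ∀ (e : Cell X 1) (c s : ℝ) (y : ↥(X1 X \ Mid X)), (y : X) = chm 1 e (fun _ => c) →
      |c| ≤ 1 → |c|⁻¹ * c = s →
      ∀ t : I, cw2_G 1 (y : X) t = chm 1 e fun _ => (1 - (t : ℝ)) * s + t * c := by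
    intro e c s y hy hc hs t
    rw [hy, cw2_G_chm e (by simpa using hc)]
    congr 1
    funext i
    simp [cw2_rad, hs]
  refine ⟨fun p => cw2_G 1 (p.1 : X) p.2, vx, hcont, fun s => ?_, fun p => ?_,
    fun y => cw2_G_one 1 _, hvx, fun y v hy => ⟨hinj ?_, fun t => ?_⟩,
    fun e c y hy => ⟨fun h1 h2 => ?_, fun h1 h2 => ?_⟩⟩
  · have h1 := (isClosed_vertices sᶜ).preimage (hcont.comp (Continuous.prodMk_left (0 : I)))
    rw [← isClosed_compl_iff]
    convert h1 using 1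
    ext y
    constructor
    · intro hy
      exact ⟨vx y, hy, (hvx y).symm⟩
    · rintro ⟨v, hv, e⟩
      have : v = vx y := hinj (e.trans (hvx y))
      rw [this] at hv
      exact hv
  · rcases hc p.1 with ⟨v, hy⟩ | ⟨e, z, hz, h0, he⟩
    · have := p.1.2
      rw [hy] at this
      simpa only [hy, hv] using this
    · obtain ⟨h1, h2⟩ := cw2_rad_mem hz h0 p.2
      simp only [he, cw2_G_chm e hz]
      exact ⟨chm_mem_X1 le_rfl e h1, fun ⟨e', he'⟩ => cw2_centre e e' h1 h2 he'⟩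
  · rw [← hvx, hy, hv]
  · simp only [hy, hv]
  · have := hform e c (-1) y hy (abs_le.2 ⟨h1, by linarith⟩) (by
      rw [abs_of_neg h2, inv_neg, neg_mul, inv_mul_cancel₀ h2.ne])
    refine ⟨hinj ?_, this⟩
    rw [← hvx, this, ← chm_esrc]
    simp
  · have := hform e c 1 y hy (abs_le.2 ⟨by linarith, h2⟩) (by
      rw [abs_of_pos h1, inv_mul_cancel₀ h1.ne'])
    refine ⟨hinj ?_, this⟩
    rw [← hvx, this, ← chm_etgt]
    simp

end Crest.Agent.R197
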