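import Crest.Agent.R197.TDefs

/-! Path induction over open covers and holonomy of local systems. -/

set_option autoImplicit false

namespace Crest.Agent.R197

open Set Metric Topology unitInterval

variable {Y U : Type} [TopologicalSpace Y] [Group U]

/-- Induction principle for paths: subdivide along an open cover. -/
theorem path_induction {ι : Type} (O : ι → Set Y) (hO : ∀ i, IsOpen (O i))
    (hc : ∀ y, ∃ i, y ∈ O i) (P : ∀ {x y : Y}, Path x y → Prop)
    (hh : ∀ {x y : Y} (p q : Path x y), p.Homotopic q → P p → P q)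
    (ht : ∀ {x y z : Y} (p : Path x y) (q : Path y z), P p → P q → P (p.trans q))
    (hl : ∀ i {x y : Y} (p : Path x y), (∀ t, p t ∈ O i) → P p) {x y : Y} (p : Path x y) :
    P p := by
  obtain ⟨t, t0, tm, ⟨n, tn⟩, ts⟩ := exists_monotone_Icc_subset_open_cover_unitInterval
    (c := fun i => p ⁻¹' O i) (fun i => (hO i).preimage p.continuous)
    (fun s _ => mem_iUnion.2 (hc (p s)))
  have hcast : ∀ {x y x' y' : Y} (q : Path x y) (hx : x' = x) (hy : y' = y),
      P (q.cast hx hy) → P q := by
    intro x y x' y' q hx hy h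
    subst hx hy
    exact h
  have key : ∀ k, P (p.subpath (t 0) (t k)) := by
    intro k
    induction k with
    | zero =>
      obtain ⟨i, hi⟩ := hc (p (t 0))
      rw [Path.subpath_self]
      exact hl i _ fun _ => hi
    | succ k ih =>
      obtain ⟨i, hi⟩ := ts k
      refine hh _ _ ⟨Path.Homotopy.subpathTransSubpath p (t 0) (t k) (t (k + 1))⟩
        (ht _ _ ih (hl i _ fun s => ?_))
      have h1 : p.subpath (t k) (t (k + 1)) s ∈ range (p.subpath (t k) (t (k + 1))) :=
        mem_range_self s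
      rw [Path.range_subpath_of_le _ _ _ (tm k.le_succ)] at h1
      obtain ⟨u, hu, hu'⟩ := h1
      rw [← hu']
      exact hi hu
  have h := key n
  rw [t0, tn n le_rfl, Path.subpath_zero_one] at h
  exact hcast p _ _ h

/-- The covering space of a local system. -/
theorem LocSys.hol_cover (L : LocSys Y U) :
    ∃ (E : Type) (_ : TopologicalSpace E) (π : E → Y) (pt : Y → U → E), IsCoveringMap π ∧
      (∀ y g, π (pt y g) = y) ∧ (∀ y g g', pt y g = pt y g' → g = g') ∧
      ∀ i c, ContinuousOn (fun y => pt y (c * (L.f i y)⁻¹)) (L.O i) := by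
  letI : TopologicalSpace U := ⊥
  haveI : DiscreteTopology U := ⟨rfl⟩
  choose idx hidx using L.cover
  let Z : FiberBundleCore L.ι Y U :=
    { baseSet := L.O
      isOpen_baseSet := L.isOpen
      indexAt := idx
      mem_baseSet_at := hidx
      coordChange := fun i j y g => g * ((L.f i y)⁻¹ * L.f j y)
      coordChange_self := fun i y _ g => by simp
      continuousOn_coordChange := fun i j q hq => by
        refine ContinuousAt.continuousWithinAt ?_
        refine (continuousAt_const (y := q.2 * ((L.f i q.1)⁻¹ * L.f j q.1))).congr ?_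
        have h1 : ∀ᶠ z in 𝓝 q, (L.f i z.1)⁻¹ * L.f j z.1 = (L.f i q.1)⁻¹ * L.f j q.1 :=
          continuous_fst.continuousAt.eventually (L.lc i j q.1 hq.1)
        have h2 : ∀ᶠ z : Y × U in 𝓝 q, z.2 = q.2 :=
          continuous_snd.continuousAt.eventually
            ((isOpen_discrete {q.2}).mem_nhds (mem_singleton _))
        filter_upwards [h1, h2] with z e1 e2
        rw [e1, e2]
      coordChange_comp := fun i j k y _ g => by simp [mul_assoc] }
  refine ⟨Z.TotalSpace, inferInstance, Z.proj, fun y g => ⟨y, (g * L.f (idx y) y : U)⟩,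
    IsFiberBundle.isCoveringMap fun y => ⟨Z.localTriv (idx y), hidx y⟩, fun _ _ => rfl,
    fun y g g' h => ?_, fun i c => ?_⟩
  · have h1 : (g * L.f (idx y) y : U) = g' * L.f (idx y) y :=
      congrArg (fun e : Z.TotalSpace => (e.2 : U)) h
    exact mul_right_cancel h1
  · have h1 := (Z.localTriv i).toOpenPartialHomeomorph.continuousOn_symm.comp
      (Continuous.prodMk_left c).continuousOn (s := L.O i)
      (fun y hy => (Z.mem_localTriv_target i (y, c)).2 hy)
    refine h1.congr fun y _ => ?_
    rw [Function.comp_apply, Z.localTriv_symm_apply]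
    exact congrArg (fun u : U => (⟨y, u⟩ : Z.TotalSpace)) (mul_assoc _ _ _)

theorem LocSys.exists_hol (L : LocSys Y U) : ∃ H : PHol Y U, L.IsHol H := by
  obtain ⟨E, _, π, pt, cov, hπ, hinj, hcont⟩ := L.hol_cover
  have hloc : ∀ i {x y : Y} (p : Path x y), (∀ t, p t ∈ L.O i) → ∀ g,
      cov.monodromy (.mk p) ⟨pt x g, hπ x g⟩
        = ⟨pt y (g * (L.f i x * (L.f i y)⁻¹)), hπ _ _⟩ := by
    intro i x y p hp g
    have h1 : (fun t => pt (p t) (g * L.f i x * (L.f i (p t))⁻¹))
        = cov.liftPath p (pt x g) (p.source.trans (hπ x g).symm) :=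
      (cov.eq_liftPath_iff _).2 ⟨(hcont i _).comp_continuous p.continuous hp,
        funext fun t => hπ _ _, by simp⟩
    have h2 := congrFun h1 1
    rw [p.target, mul_assoc] at h2
    exact Subtype.ext h2.symm
  have htr : ∀ {x y z : Y} (p : Path x y) (q : Path y z) (e : π ⁻¹' {x}),
      cov.monodromy (.mk (p.trans q)) e = cov.monodromy (.mk q) (cov.monodromy (.mk p) e) :=
    fun p q e => cov.monodromy_trans_apply (.mk p) (.mk q) e
  have hex : ∀ {x y : Y} (p : Path x y), ∃ u : U, ∀ g,
      cov.monodromy (.mk p) ⟨pt x g, hπ x g⟩ = ⟨pt y (g * u), hπ _ _⟩ := by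
    intro x y p
    refine path_induction L.O L.isOpen L.cover (fun {x y} p => ∃ u : U, ∀ g,
      cov.monodromy (.mk p) ⟨pt x g, hπ x g⟩ = ⟨pt y (g * u), hπ _ _⟩) ?_ ?_ ?_ p
    · intro x y p q h hp
      rwa [← Path.Homotopic.Quotient.eq.2 h]
    · rintro x y z p q ⟨u, hu⟩ ⟨v, hv⟩
      exact ⟨u * v, fun g => by rw [htr, hu, hv, mul_assoc]⟩
    · intro i x y p hp
      exact ⟨_, hloc i p hp⟩
  choose h hh using @hex
  have huniq : ∀ {x y : Y} (p : Path x y) (u : U),
      cov.monodromy (.mk p) ⟨pt x 1, hπ x 1⟩ = ⟨pt y (1 * u), hπ _ _⟩ → h p = u := by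
    intro x y p u hu
    rw [hh] at hu
    simpa using hinj _ _ _ (congrArg Subtype.val hu)
  refine ⟨⟨fun p => h p, fun {x y p q} hpq => huniq _ _ ?_, fun p q => huniq _ _ ?_⟩,
    fun i x y p hp => huniq _ _ (hloc i p hp 1)⟩
  · rw [Path.Homotopic.Quotient.eq.2 hpq, hh]
  · rw [htr, hh, hh, mul_assoc]

theorem LocSys.hol_unique (L : LocSys Y U) {H H' : PHol Y U} (h : L.IsHol H) (h' : L.IsHol H')
    {x y : Y} (p : Path x y) : H.h p = H'.h p := by
  refine path_induction L.O L.isOpen L.cover (fun p => H.h p = H'.h p) ?_ ?_ ?_ p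
  · intro x y p q hpq hp
    rw [← H.homotopic hpq, ← H'.homotopic hpq, hp]
  · intro x y z p q hp hq
    rw [H.trans, H'.trans, hp, hq]
  · intro i x y p hp
    rw [h i x y p hp, h' i x y p hp]

/-- In a convex subset of a normed space all paths with the same ends are homotopic; stated
after composing with a map that is continuous on the convex set. -/
theorem homotopic_of_convex {E : Type} [NormedAddCommGroup E] [NormedSpace ℝ E] {C : Set E}
    (hC : Convex ℝ C) (F : E → Y) (hF : ContinuousOn F C) {x y : Y} (p q : Path x y)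
    (a b : I → E) (ha : Continuous a) (hb : Continuous b) (haC : ∀ t, a t ∈ C)
    (hbC : ∀ t, b t ∈ C) (h0 : a 0 = b 0) (h1 : a 1 = b 1) (hp : ∀ t, p t = F (a t))
    (hq : ∀ t, q t = F (b t)) : p.Homotopic q := by
  refine ⟨⟨⟨⟨fun z => F (a z.2 + (z.1 : ℝ) • (b z.2 - a z.2)), ?_⟩, fun t => ?_, fun t => ?_⟩,
    fun s t ht => ?_⟩⟩
  · exact hF.comp_continuous (by fun_prop) fun z =>
      hC.add_smul_sub_mem (haC z.2) (hbC z.2) z.1.2
  · simp [hp]
  · simp [hq]
  · rcases ht with rfl | rfl
    · simp [← hp, h0.symm]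
    · simp [← hp, h1.symm]

/-- The two ways around a square are homotopic. -/
theorem homotopic_of_square {a b c d : Y} (p : Path a b) (q : Path b d) (r : Path a c)
    (s : Path c d) (F : I × I → Y) (hF : Continuous F) (hp : ∀ t, p t = F (t, 0))
    (hq : ∀ t, q t = F (1, t)) (hr : ∀ t, r t = F (0, t)) (hs : ∀ t, s t = F (t, 1)) :
    (p.trans q).Homotopic (r.trans s) := by
  let e : I × I → ℝ × ℝ := fun z => (z.1, z.2)
  let G : ℝ × ℝ → Y := fun z => F (projIcc 0 1 zero_le_one z.1, projIcc 0 1 zero_le_one z.2)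
  have he : Continuous e := by fun_prop
  have hG : Continuous G := hF.comp
    ((continuous_projIcc.comp continuous_fst).prodMk (continuous_projIcc.comp continuous_snd))
  have hGe : ∀ z, G (e z) = F z := fun z => by simp [G, e]
  let p' : Path ((0, 0) : I × I) (1, 0) := ⟨⟨fun t => (t, 0), by fun_prop⟩, rfl, rfl⟩
  let q' : Path ((1, 0) : I × I) (1, 1) := ⟨⟨fun t => (1, t), by fun_prop⟩, rfl, rfl⟩
  let r' : Path ((0, 0) : I × I) (0, 1) := ⟨⟨fun t => (0, t), by fun_prop⟩, rfl, rfl⟩
  let s' : Path ((0, 1) : I × I) (1, 1) := ⟨⟨fun t => (t, 1), by fun_prop⟩, rfl, rfl⟩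
  refine homotopic_of_convex convex_univ G hG.continuousOn _ _ (fun t => e (p'.trans q' t))
    (fun t => e (r'.trans s' t)) (he.comp (p'.trans q').continuous)
    (he.comp (r'.trans s').continuous) (fun _ => mem_univ _) (fun _ => mem_univ _)
    (by simp) (by simp) (fun t => ?_) fun t => ?_
  · rw [hGe, Path.trans_apply, Path.trans_apply]
    split_ifs
    exacts [hp _, hq _]
  · rw [hGe, Path.trans_apply, Path.trans_apply]
    split_ifs
    exacts [hr _, hs _]

end Crest.Agent.R197
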