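import Crest.Agent.R197.CW2
import Crest.Agent.R197.Hol

/-! Paths between vertices are homotopic to edge paths. -/

set_option autoImplicit false

namespace Crest.Agent.R197

open Set Metric Topology unitInterval

variable {X : Type} [TopologicalSpace X] [CWComplex (univ : Set X)] [T2Space X]

/-- The path `p` is the image of a path from `a₀` to `a₁` in the closed interval under the
characteristic map of the edge `e`. -/
def CW3Lift (e : Cell X 1) {y y' : Yset X} (p : Path y y') (a₀ a₁ : Fin 1 → ℝ) : Prop :=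
  ∃ a : Path a₀ a₁, (∀ t, a t ∈ closedBall (0 : Fin 1 → ℝ) 1) ∧ ∀ t, (p t : X) = chm 1 e (a t)

omit [T2Space X] in
theorem CW3Lift.trans {e : Cell X 1} {y y' y'' : Yset X} {p : Path y y'} {q : Path y' y''}
    {a₀ a₁ a₂ : Fin 1 → ℝ} (hp : CW3Lift e p a₀ a₁) (hq : CW3Lift e q a₁ a₂) :
    CW3Lift e (p.trans q) a₀ a₂ := by
  obtain ⟨a, ha, ha'⟩ := hp
  obtain ⟨b, hb, hb'⟩ := hq
  refine ⟨a.trans b, fun t => ?_, fun t => ?_⟩
  · rw [Path.trans_apply]
    split_ifs
    · exact ha _
    · exact hb _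
  · rw [Path.trans_apply, Path.trans_apply]
    split_ifs
    · exact ha' _
    · exact hb' _

omit [T2Space X] in
theorem CW3Lift.symm {e : Cell X 1} {y y' : Yset X} {p : Path y y'}
    {a₀ a₁ : Fin 1 → ℝ} (hp : CW3Lift e p a₀ a₁) : CW3Lift e p.symm a₁ a₀ := by
  obtain ⟨a, ha, ha'⟩ := hp
  exact ⟨a.symm, fun t => ha _, fun t => ha' _⟩

theorem CW3Lift.homotopic {e : Cell X 1} {y y' : Yset X} {p q : Path y y'}
    {a₀ a₁ : Fin 1 → ℝ} (hp : CW3Lift e p a₀ a₁) (hq : CW3Lift e q a₀ a₁) : p.Homotopic q := by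
  classical
  obtain ⟨a, ha, ha'⟩ := hp
  obtain ⟨b, hb, hb'⟩ := hq
  let F : (Fin 1 → ℝ) → Yset X := fun z =>
    if hz : z ∈ closedBall (0 : Fin 1 → ℝ) 1 then
      ⟨chm 1 e z, X1_subset_Yset (chm_mem_X1 le_rfl e hz)⟩ else y
  have hF : ContinuousOn F (closedBall (0 : Fin 1 → ℝ) 1) := by
    rw [continuousOn_iff_continuous_domRestrict]
    have : (closedBall (0 : Fin 1 → ℝ) 1).domRestrict F = fun z =>
        ⟨chm 1 e z.1, X1_subset_Yset (chm_mem_X1 le_rfl e z.2)⟩ := by
      funext z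
      simp only [Set.domRestrict_apply, F, dif_pos z.2]
    rw [this]
    exact Continuous.subtype_mk
      (continuousOn_iff_continuous_domRestrict.1 (RelCWComplex.continuousOn 1 e)) _
  refine homotopic_of_convex (convex_closedBall _ _) F hF p q a b a.continuous b.continuous ha hb
    (by simp) (by simp) (fun t => Subtype.ext ?_) (fun t => Subtype.ext ?_)
  · simp only [F, dif_pos (ha t)]
    exact ha' t
  · simp only [F, dif_pos (hb t)]
    exact hb' t

theorem cw3Lift_edge (e : Cell X 1) : CW3Lift e (edge e) (fun _ => -1) (fun _ => 1) :=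
  ⟨⟨⟨fun t _ => 2 * (t : ℝ) - 1, by fun_prop⟩, by funext; simp, by funext; norm_num⟩,
    edge_aux, fun _ => rfl⟩

theorem cw3Lift_src (e : Cell X 1) :
    CW3Lift e (Path.refl (vpt (esrc e))) (fun _ => -1) (fun _ => -1) :=
  ⟨Path.refl _, fun _ => by simp, fun _ => (chm_esrc e).symm⟩

theorem cw3Lift_tgt (e : Cell X 1) :
    CW3Lift e (Path.refl (vpt (etgt e))) (fun _ => 1) (fun _ => 1) :=
  ⟨Path.refl _, fun _ => by simp, fun _ => (chm_etgt e).symm⟩

theorem cw3_cell (e : Cell X 1) {a b : Cell X 0} {y y' : Yset X} (r : Path (vpt a) y)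
    (r' : Path (vpt b) y') (q : Path y y') {c c' : Fin 1 → ℝ} (hq : CW3Lift e q c c')
    (hr : (a = esrc e ∧ CW3Lift e r (fun _ => -1) c) ∨ (a = etgt e ∧ CW3Lift e r (fun _ => 1) c))
    (hr' : (b = esrc e ∧ CW3Lift e r' (fun _ => -1) c') ∨
      (b = etgt e ∧ CW3Lift e r' (fun _ => 1) c')) :
    ∃ l : CP a b, (r.trans q).Homotopic ((l.path edge).trans r') := by
  rcases hr with ⟨rfl, hr⟩ | ⟨rfl, hr⟩ <;> rcases hr' with ⟨rfl, hr'⟩ | ⟨rfl, hr'⟩
  · exact ⟨EP.nil _, (hr.trans hq).homotopic ((cw3Lift_src e).trans hr')⟩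
  · exact ⟨EP.fwd e (EP.nil _),
      (hr.trans hq).homotopic (((cw3Lift_edge e).trans (cw3Lift_tgt e)).trans hr')⟩
  · exact ⟨EP.bwd e (EP.nil _),
      (hr.trans hq).homotopic (((cw3Lift_edge e).symm.trans (cw3Lift_src e)).trans hr')⟩
  · exact ⟨EP.nil _, (hr.trans hq).homotopic ((cw3Lift_tgt e).trans hr')⟩

theorem cw3_square {a b : Cell X 0} (hab : a = b) {y y' : Yset X} (r : Path (vpt a) y)
    (r' : Path (vpt b) y') (q : Path y y') (F : I × I → Yset X) (hF : Continuous F)
    (hr : ∀ s, r s = F (s, 0)) (hq : ∀ t, q t = F (1, t)) (h0 : ∀ t, vpt a = F (0, t))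
    (hr' : ∀ s, r' s = F (s, 1)) :
    ∃ l : CP a b, (r.trans q).Homotopic ((l.path edge).trans r') := by
  subst hab
  exact ⟨EP.nil _, homotopic_of_square r q (Path.refl _) r' F hF hr hq h0 hr'⟩

theorem cw3_final {a a' b b' : Cell X 0} (ha : a = a') (hb : b = b') (r : Path (vpt a) (vpt a'))
    (r' : Path (vpt b) (vpt b')) (hr : ∀ t, r t = vpt a') (hr' : ∀ t, r' t = vpt b')
    (q : Path (vpt a') (vpt b'))
    (h : ∃ l : CP a b, (r.trans q).Homotopic ((l.path edge).trans r')) :
    ∃ l : CP a' b', q.Homotopic (l.path edge) := by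
  subst ha hb
  obtain ⟨l, hl⟩ := h
  obtain rfl : r = Path.refl _ := Path.ext (funext hr)
  obtain rfl : r' = Path.refl _ := Path.ext (funext hr')
  exact ⟨l, (Path.Homotopic.symm ⟨Path.Homotopy.reflTrans q⟩).trans
    (hl.trans ⟨Path.Homotopy.transRefl _⟩)⟩

/-- The inclusion of the 1-skeleton. -/
def cw3Inc (z : X1 X) : Yset X := ⟨z.1, X1_subset_Yset z.2⟩

omit [T2Space X] in
theorem cw3Inc_cont : Continuous (cw3Inc (X := X)) :=
  Continuous.subtype_mk continuous_subtype_val _

omit [T2Space X] in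
theorem cw3_vertex_not_mid (v : Cell X 0) : chm 0 v 0 ∉ Mid X := by
  rintro ⟨e, he⟩
  have h := RelCWComplex.disjoint_openCell_of_ne (C := (univ : Set X)) (i := e) (j := v)
    (by simp)
  exact Set.disjoint_left.1 h (RelCWComplex.map_zero_mem_openCell 1 e)
    (he ▸ RelCWComplex.map_zero_mem_openCell 0 v)

omit [T2Space X] in
theorem cw3_mid {e e' : Cell X 1} {c : Fin 1 → ℝ} (hc : c ∈ ball (0 : Fin 1 → ℝ) 1)
    (h : chm 1 e' 0 = chm 1 e c) : e' = e ∧ c = 0 := by
  have he : e' = e := by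
    by_contra hne
    have h' := RelCWComplex.disjoint_openCell_of_ne (C := (univ : Set X)) (i := e') (j := e)
      (by simpa using hne)
    exact Set.disjoint_left.1 h' (RelCWComplex.map_zero_mem_openCell 1 e') (h ▸ ⟨c, hc, rfl⟩)
  subst he
  refine ⟨rfl, ((chm 1 e').injOn ?_ ?_ h).symm⟩
  · rw [RelCWComplex.source_eq]; simp
  · rw [RelCWComplex.source_eq]; exact hc

/-- Radial paths from the vertices to the points of the 1-skeleton. -/
theorem cw3_rad (h : Dim2 X) :
    ∃ (v : X1 X → Cell X 0) (rad : ∀ z, Path (vpt (v z)) (cw3Inc z)),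
      (∀ (w : Cell X 0) (z : X1 X), (z : X) = chm 0 w 0 → v z = w ∧ ∀ t, rad z t = vpt w) ∧
      ∀ {z z' : X1 X} (p : Path z z'), ∃ l : CP (v z) (v z'),
        ((rad z).trans (p.map cw3Inc_cont)).Homotopic ((l.path edge).trans (rad z')) := by
  obtain ⟨F, vx, hF, hvx, hFm, hF1, hF0, hFv, hFe⟩ := exists_radial1 h
  have key : ∀ z : X1 X, ∃ (v : Cell X 0) (r : Path (vpt v) (cw3Inc z)),
      (∀ hz : (z : X) ∉ Mid X, v = vx ⟨z, z.2, hz⟩ ∧ ∀ t, (r t : X) = F (⟨z, z.2, hz⟩, t)) ∧
      ∀ (e : Cell X 1) (c : Fin 1 → ℝ), c ∈ ball (0 : Fin 1 → ℝ) 1 → (z : X) = chm 1 e c →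
        (v = esrc e ∧ CW3Lift e r (fun _ => -1) c) ∨
          (v = etgt e ∧ CW3Lift e r (fun _ => 1) c) := by
    intro z
    by_cases hz : (z : X) ∈ Mid X
    · obtain ⟨e₀, he₀⟩ := id hz
      have hm : ∀ t : I, (fun _ => (t : ℝ) - 1) ∈ closedBall (0 : Fin 1 → ℝ) 1 := by
        intro t
        have h0 := t.2.1
        have h1 := t.2.2
        simp only [mem_closedBall, dist_zero_right, pi_norm_const, Real.norm_eq_abs, abs_le]
        constructor <;> linarith
      let r : Path (vpt (esrc e₀)) (cw3Inc z) :=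
        { toFun := fun t => ⟨chm 1 e₀ fun _ => (t : ℝ) - 1,
            X1_subset_Yset (chm_mem_X1 le_rfl e₀ (hm t))⟩
          continuous_toFun := Continuous.subtype_mk
            ((RelCWComplex.continuousOn 1 e₀).comp_continuous (by fun_prop) hm) _
          source' := Subtype.ext (by simpa [vpt] using chm_esrc e₀)
          target' := Subtype.ext (by
            show chm 1 e₀ (fun _ => ((1 : I) : ℝ) - 1) = z
            rw [← he₀]
            congr 1
            funext
            simp) }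
      refine ⟨esrc e₀, r, fun hz' => absurd hz hz', fun e c hc hzc => ?_⟩
      obtain ⟨rfl, rfl⟩ := cw3_mid hc (he₀.trans hzc)
      exact Or.inl ⟨rfl, ⟨⟨fun t _ => (t : ℝ) - 1, by fun_prop⟩, by funext; simp, by funext; simp⟩,
        hm, fun _ => rfl⟩
    · let r : Path (vpt (vx ⟨z, z.2, hz⟩)) (cw3Inc z) :=
        { toFun := fun t => ⟨F (⟨z, z.2, hz⟩, t), X1_subset_Yset (hFm _).1⟩
          continuous_toFun := Continuous.subtype_mk (by fun_prop) _
          source' := Subtype.ext (hF0 _)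
          target' := Subtype.ext (hF1 _) }
      refine ⟨_, r, fun _ => ⟨rfl, fun _ => rfl⟩, fun e c hc hzc => ?_⟩
      obtain ⟨c, rfl⟩ : ∃ c' : ℝ, c = fun _ => c' :=
        ⟨c 0, funext fun i => by rw [Subsingleton.elim i 0]⟩
      have hc' : |c| < 1 := by simpa using hc
      rw [abs_lt] at hc'
      have hc0 : c ≠ 0 := by
        rintro rfl
        exact hz ⟨e, hzc.symm⟩
      obtain ⟨h1, h2⟩ := hFe e c ⟨z, z.2, hz⟩ hzc
      rcases lt_or_gt_of_ne hc0 with hlt | hgt
      · obtain ⟨h3, h4⟩ := h1 hc'.1.le hlt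
        refine Or.inl ⟨h3, ⟨⟨fun t _ => (1 - (t : ℝ)) * (-1) + t * c, by fun_prop⟩,
          by funext; simp, by funext; simp⟩, fun t => ?_, fun t => h4 t⟩
        have h0 := t.2.1
        have h1 := t.2.2
        show (fun _ => (1 - (t : ℝ)) * (-1) + t * c) ∈ closedBall (0 : Fin 1 → ℝ) 1
        simp only [mem_closedBall, dist_zero_right, pi_norm_const, Real.norm_eq_abs, abs_le]
        constructor <;> nlinarith
      · obtain ⟨h3, h4⟩ := h2 hgt hc'.2.le
        refine Or.inr ⟨h3, ⟨⟨fun t _ => (1 - (t : ℝ)) * 1 + t * c, by fun_prop⟩,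
          by funext; simp, by funext; simp⟩, fun t => ?_, fun t => h4 t⟩
        have h0 := t.2.1
        have h1 := t.2.2
        show (fun _ => (1 - (t : ℝ)) * 1 + t * c) ∈ closedBall (0 : Fin 1 → ℝ) 1
        simp only [mem_closedBall, dist_zero_right, pi_norm_const, Real.norm_eq_abs, abs_le]
        constructor <;> nlinarith
  choose v rad hoff hcell using key
  refine ⟨v, rad, fun w z hz => ?_, fun {z z'} p => ?_⟩
  · have hz' : (z : X) ∉ Mid X := hz ▸ cw3_vertex_not_mid w
    obtain ⟨h1, h2⟩ := hoff z hz'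
    obtain ⟨h3, h4⟩ := hFv ⟨z, z.2, hz'⟩ w hz
    exact ⟨h1.trans h3, fun t => Subtype.ext ((h2 t).trans ((h4 t).trans hz))⟩
  · let O : Option (Cell X 1) → Set (X1 X) := fun i =>
      match i with
      | none => {z | (z : X) ∉ Mid X}
      | some e => {z | (z : X) ∈ oc 1 e}
    refine path_induction O ?_ ?_ (fun {z z'} p => ∃ l : CP (v z) (v z'),
        ((rad z).trans (p.map cw3Inc_cont)).Homotopic ((l.path edge).trans (rad z')))
      ?_ ?_ ?_ p
    · rintro (_ | e)
      · exact (isClosed_Mid.preimage continuous_subtype_val).isOpen_compl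
      · have := ((isClosed_X1_diff h e).preimage
          (continuous_subtype_val (p := (· ∈ X1 X)))).isOpen_compl
        convert this using 1
        ext z
        simp [O]
    · intro z
      by_cases hz : (z : X) ∈ Mid X
      · obtain ⟨e, he⟩ := hz
        refine ⟨some e, ?_⟩
        show (z : X) ∈ oc 1 e
        exact he ▸ RelCWComplex.map_zero_mem_openCell 1 e
      · exact ⟨none, hz⟩
    · rintro x y p q hpq ⟨l, hl⟩
      exact ⟨l, ((Path.Homotopic.refl _).hcomp (hpq.map ⟨_, cw3Inc_cont⟩)).symm.trans hl⟩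
    · rintro x y z p q ⟨l, hl⟩ ⟨m, hm⟩
      refine ⟨l.append m, ?_⟩
      rw [Path.map_trans]
      refine (Path.Homotopic.symm ⟨Path.Homotopy.transAssoc _ _ _⟩).trans ?_
      refine (hl.hcomp (Path.Homotopic.refl _)).trans ?_
      refine Path.Homotopic.trans ⟨Path.Homotopy.transAssoc _ _ _⟩ ?_
      refine ((Path.Homotopic.refl _).hcomp hm).trans ?_
      refine (Path.Homotopic.symm ⟨Path.Homotopy.transAssoc _ _ _⟩).trans ?_
      exact (EP.path_append edge l m).hcomp (Path.Homotopic.refl _)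
    · rintro (_ | e) x y p hp
      · have hp' : ∀ t, (p t : X) ∉ Mid X := hp
        have hx : (x : X) ∉ Mid X := by simpa using hp' 0
        have hy : (y : X) ∉ Mid X := by simpa using hp' 1
        let pt : I → ↥(X1 X \ Mid X) := fun t => ⟨p t, (p t).2, hp' t⟩
        have hpt : Continuous pt := Continuous.subtype_mk (by fun_prop) _
        have e0 : pt 0 = ⟨x, x.2, hx⟩ := Subtype.ext (by simp [pt])
        have e1 : pt 1 = ⟨y, y.2, hy⟩ := Subtype.ext (by simp [pt])
        have hc : ∀ t, vx (pt t) = vx (pt 0) := fun t =>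
          (hvx.comp_continuous hpt).apply_eq_of_preconnectedSpace t 0
        obtain ⟨hx1, hx2⟩ := hoff x hx
        obtain ⟨hy1, hy2⟩ := hoff y hy
        refine cw3_square (by rw [hx1, hy1, ← e0, ← e1, hc 1]) _ _ _
          (fun q => ⟨F (pt q.2, q.1), X1_subset_Yset (hFm _).1⟩)
          (Continuous.subtype_mk (by fun_prop) _) (fun s => Subtype.ext ?_)
          (fun t => Subtype.ext ?_) (fun t => Subtype.ext ?_) (fun s => Subtype.ext ?_)
        · simp only [e0]
          exact hx2 s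
        · exact (hF1 (pt t)).symm
        · show chm 0 (v x) 0 = F (pt t, 0)
          rw [hF0, hc, e0, hx1]
        · simp only [e1]
          exact hy2 s
      · have hp' : ∀ t, (p t : X) ∈ (chm 1 e).target := by
          intro t
          obtain ⟨c, hc, hc'⟩ := hp t
          rw [← hc']
          exact (chm 1 e).map_source (by rw [RelCWComplex.source_eq]; exact hc)
        have hb : ∀ t, (chm 1 e).symm (p t) ∈ ball (0 : Fin 1 → ℝ) 1 := by
          intro t
          rw [← RelCWComplex.source_eq (C := (univ : Set X)) 1 e]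
          exact (chm 1 e).map_target (hp' t)
        have hr : ∀ t, (p t : X) = chm 1 e ((chm 1 e).symm (p t)) := fun t =>
          ((chm 1 e).right_inv (hp' t)).symm
        have hcont : Continuous fun t => (chm 1 e).symm (p t) :=
          (RelCWComplex.continuousOn_symm 1 e).comp_continuous (by fun_prop) hp'
        refine cw3_cell e _ _ _ (c := (chm 1 e).symm (p 0)) (c' := (chm 1 e).symm (p 1))
          ⟨⟨⟨_, hcont⟩, rfl, rfl⟩, fun t => ball_subset_closedBall (hb t), hr⟩
          (hcell x e _ (hb 0) ?_) (hcell y e _ (hb 1) ?_)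
        · rw [← hr 0]; simp
        · rw [← hr 1]; simp

theorem exists_edgePath (h : Dim2 X) {v w : Cell X 0} (p : Path (vpt v) (vpt w)) :
    ∃ l : CP v w, p.Homotopic (l.path edge) := by
  obtain ⟨G, hG, hG1, hG0, hGX, -⟩ := exists_radial2 h
  obtain ⟨vt, rad, hv, hP⟩ := cw3_rad h
  let zv : X1 X := ⟨chm 0 v 0, chm_mem_X1 (by omega) v (by simp)⟩
  let zw : X1 X := ⟨chm 0 w 0, chm_mem_X1 (by omega) w (by simp)⟩
  let p' : Path zv zw :=
    { toFun := fun t => ⟨G (p t, 0), hG0 _⟩
      continuous_toFun := Continuous.subtype_mk (by fun_prop) _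
      source' := Subtype.ext (by
        show (G (p 0, 0) : X) = chm 0 v 0
        rw [p.source, hGX _ _ zv.2]; rfl)
      target' := Subtype.ext (by
        show (G (p 1, 0) : X) = chm 0 w 0
        rw [p.target, hGX _ _ zw.2]; rfl) }
  let q : Path (vpt v) (vpt w) := p'.map cw3Inc_cont
  have hq : q.Homotopic p :=
    ⟨{ toFun := fun s => G (p s.2, s.1)
       continuous_toFun := by fun_prop
       map_zero_left := fun t => rfl
       map_one_left := fun t => hG1 _
       prop' := by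
         intro s t ht
         rcases ht with rfl | rfl
         · show G (p 0, s) = q 0
           rw [p.source, q.source]
           exact hGX _ _ zv.2
         · show G (p 1, s) = q 1
           rw [p.target, q.target]
           exact hGX _ _ zw.2 }⟩
  obtain ⟨h1, h2⟩ := hv v zv rfl
  obtain ⟨h3, h4⟩ := hv w zw rfl
  obtain ⟨l, hl⟩ := cw3_final h1 h3 (rad zv) (rad zw) h2 h4 q (hP p')
  exact ⟨l, hq.symm.trans hl⟩

theorem exists_vertex_path (h : Dim2 X) (y : Yset X) :
    ∃ v : Cell X 0, Nonempty (Path (vpt v) y) := by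
  obtain ⟨G, hG, hG1, hG0, -, -⟩ := exists_radial2 h
  obtain ⟨vt, rad, -, -⟩ := cw3_rad h
  let z : X1 X := ⟨G (y, 0), hG0 y⟩
  let q : Path (cw3Inc z) y :=
    { toFun := fun t => G (y, t)
      continuous_toFun := by fun_prop
      source' := rfl
      target' := hG1 y }
  exact ⟨vt z, ⟨(rad z).trans q⟩⟩

theorem nonempty_att (h : Dim2 X) (d : Cell X 2) : Nonempty (Att d) := by
  obtain ⟨v, ⟨δ⟩⟩ := exists_vertex_path h (bpt d)
  obtain ⟨l, hl⟩ := exists_edgePath h ((δ.trans (bloop d)).trans δ.symm)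
  exact ⟨⟨v, δ, l, hl⟩⟩

end Crest.Agent.R197
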