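import Crest.Agent.R197.CW1
import Crest.Agent.R197.Hol

/-! Pushing paths off the centres of the 2-cells; boundary loops are null-homotopic. -/

set_option autoImplicit false

namespace Crest.Agent.R197

open Set Metric Topology unitInterval

theorem cw4_ball : IsPathConnected (ball (0 : Fin 2 → ℝ) 1 \ {0}) := by
  have h0 : IsPathConnected ({0}ᶜ : Set (Fin 2 → ℝ)) :=
    isPathConnected_compl_singleton_of_one_lt_rank (by simp) 0
  have hc : Continuous fun z : Fin 2 → ℝ => (1 + ‖z‖)⁻¹ • z :=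
    ((continuous_const.add continuous_norm).inv₀ fun z =>
      (add_pos_of_pos_of_nonneg one_pos (norm_nonneg z)).ne').smul continuous_id
  convert h0.image hc using 1
  ext a
  constructor
  · rintro ⟨h1, h2⟩
    rw [mem_ball_zero_iff] at h1
    have h3 : 0 < 1 - ‖a‖ := by linarith
    refine ⟨(1 - ‖a‖)⁻¹ • a, smul_ne_zero (inv_ne_zero h3.ne') h2, ?_⟩
    simp only [norm_smul, norm_inv, Real.norm_of_nonneg h3.le, smul_smul]
    have : (1 + (1 - ‖a‖)⁻¹ * ‖a‖)⁻¹ * (1 - ‖a‖)⁻¹ = 1 := by
      field_simp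
      ring
    rw [this, one_smul]
  · rintro ⟨z, hz, rfl⟩
    have h3 : 0 < 1 + ‖z‖ := by positivity
    refine ⟨?_, smul_ne_zero (inv_ne_zero h3.ne') hz⟩
    rw [mem_ball_zero_iff, norm_smul, norm_inv, Real.norm_of_nonneg h3.le, inv_mul_lt_iff₀ h3]
    linarith

variable {X : Type} [TopologicalSpace X] [CWComplex (univ : Set X)] [T2Space X]

omit [T2Space X] in
theorem cw4_oc (d : Cell X 2) : oc 2 d = (chm 2 d).target := by
  rw [← PartialEquiv.image_source_eq_target, RelCWComplex.source_eq]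
  rfl

omit [T2Space X] in
/-- paths inside an open cell are homotopic -/
theorem cw4_cell (d : Cell X 2) {x y : X} (p q : Path x y) (hp : ∀ t, p t ∈ oc 2 d)
    (hq : ∀ t, q t ∈ oc 2 d) : p.Homotopic q := by
  rw [cw4_oc] at hp hq
  have hs : (chm 2 d).source = ball 0 1 := RelCWComplex.source_eq 2 d
  refine homotopic_of_convex (convex_ball (0 : Fin 2 → ℝ) 1) (chm 2 d)
    ((RelCWComplex.continuousOn 2 d).mono ball_subset_closedBall) p q
    (fun t => (chm 2 d).symm (p t)) (fun t => (chm 2 d).symm (q t))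
    ((RelCWComplex.continuousOn_symm 2 d).comp_continuous p.continuous hp)
    ((RelCWComplex.continuousOn_symm 2 d).comp_continuous q.continuous hq)
    (fun t => hs ▸ (chm 2 d).map_target (hp t)) (fun t => hs ▸ (chm 2 d).map_target (hq t))
    (by simp) (by simp) (fun t => ((chm 2 d).right_inv (hp t)).symm)
    (fun t => ((chm 2 d).right_inv (hq t)).symm)

omit [T2Space X] in
theorem cw4_centre {d d' : Cell X 2} (h : chm 2 d' 0 ∈ oc 2 d) : d' = d := by
  by_contra hne
  have hd : Disjoint (oc 2 d') (oc 2 d) :=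
    RelCWComplex.disjoint_openCell_of_ne (by simpa using hne)
  exact Set.disjoint_left.1 hd (RelCWComplex.map_zero_mem_openCell 2 d') h

omit [T2Space X] in
theorem cw4_punct (d : Cell X 2) : oc 2 d ∩ Yset X = chm 2 d '' (ball 0 1 \ {0}) := by
  have hs : (chm 2 d).source = ball 0 1 := RelCWComplex.source_eq 2 d
  ext x
  constructor
  · rintro ⟨⟨z, hz, rfl⟩, h2⟩
    exact ⟨z, ⟨hz, fun h => h2 d (by rw [mem_singleton_iff.1 h])⟩, rfl⟩
  · rintro ⟨z, ⟨hz, hz0⟩, rfl⟩
    refine ⟨⟨z, hz, rfl⟩, fun d' hd' => hz0 ?_⟩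
    obtain rfl : d' = d := cw4_centre ⟨z, hz, hd'.symm⟩
    exact ((chm 2 d').injOn (hs ▸ mem_ball_self one_pos) (hs ▸ hz) hd').symm

omit [T2Space X] in
theorem cw4_join (d : Cell X 2) {y y' : Yset X} (hy : (y : X) ∈ oc 2 d) (hy' : (y' : X) ∈ oc 2 d) :
    ∃ q : Path y y', ∀ t, (q t : X) ∈ oc 2 d := by
  have hpc : IsPathConnected (oc 2 d ∩ Yset X) := by
    rw [cw4_punct]
    exact cw4_ball.image' ((RelCWComplex.continuousOn 2 d).mono
      (sdiff_subset.trans ball_subset_closedBall))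
  obtain ⟨γ, hγ⟩ := hpc.joinedIn _ ⟨hy, y.2⟩ _ ⟨hy', y'.2⟩
  exact ⟨⟨⟨fun t => ⟨γ t, (hγ t).2⟩, γ.continuous.subtype_mk _⟩, Subtype.ext γ.source,
    Subtype.ext γ.target⟩, fun t => (hγ t).1⟩

omit [T2Space X] in
theorem cw4_conn (x : X) : ∃ (y : Yset X) (δ : Path x y), (x ∈ Yset X → ∀ t, δ t = x) ∧
    ∀ d : Cell X 2, x ∈ oc 2 d → ∀ t, δ t ∈ oc 2 d := by
  by_cases hx : x ∈ Yset X
  · exact ⟨⟨x, hx⟩, Path.refl x, fun _ _ => rfl, fun d hd _ => hd⟩
  · obtain ⟨d, rfl⟩ : ∃ d : Cell X 2, chm 2 d 0 = x := by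
      by_contra h
      exact hx fun d hd => h ⟨d, hd⟩
    obtain ⟨z, hz⟩ := cw4_ball.nonempty
    have hy : chm 2 d z ∈ oc 2 d ∩ Yset X := by
      rw [cw4_punct]; exact mem_image_of_mem _ hz
    have hpc : IsPathConnected (oc 2 d) :=
      (isPathConnected_ball one_pos).image' ((RelCWComplex.continuousOn 2 d).mono
        ball_subset_closedBall)
    obtain ⟨γ, hγ⟩ := hpc.joinedIn _ (RelCWComplex.map_zero_mem_openCell 2 d) _ hy.1
    refine ⟨⟨_, hy.2⟩, γ, fun h => absurd h hx, fun d' hd' => ?_⟩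
    obtain rfl : d = d' := cw4_centre hd'
    exact hγ

theorem cw4_trans_mem {Y : Type} [TopologicalSpace Y] {a b c : Y} {p : Path a b} {q : Path b c}
    {s : Set Y} (hp : ∀ t, p t ∈ s) (hq : ∀ t, q t ∈ s) (t : I) : (p.trans q) t ∈ s := by
  rw [Path.trans_apply]
  split_ifs
  · exact hp _
  · exact hq _

theorem exists_push (h : Dim2 X) {y y' : Yset X} (p : Path (y : X) (y' : X)) :
    ∃ q : Path y y', p.Homotopic (q.map continuous_subtype_val) := by
  choose st del h1 h2 using cw4_conn (X := X)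
  have main : ∃ q : Path (st y) (st y'),
      (p.trans (del y')).Homotopic ((del y).trans (q.map continuous_subtype_val)) := by
    refine path_induction (ι := Option (Cell X 2)) (fun o => o.elim (Yset X) (oc 2)) ?_ ?_
      (fun {x x'} p => ∃ q : Path (st x) (st x'),
        (p.trans (del x')).Homotopic ((del x).trans (q.map continuous_subtype_val))) ?_ ?_ ?_ p
    · rintro (_ | d)
      · exact isOpen_Yset h
      · exact isOpen_oc2 h d
    · intro x
      by_cases hx : x ∈ Yset X
      · exact ⟨none, hx⟩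
      · obtain ⟨d, rfl⟩ : ∃ d : Cell X 2, chm 2 d 0 = x := by
          by_contra h
          exact hx fun d hd => h ⟨d, hd⟩
        exact ⟨some d, RelCWComplex.map_zero_mem_openCell 2 d⟩
    · rintro x x' p p' hp ⟨q, hq⟩
      exact ⟨q, (hp.symm.hcomp (Path.Homotopic.refl _)).trans hq⟩
    · rintro x x' x'' p p' ⟨q, hq⟩ ⟨q', hq'⟩
      refine ⟨q.trans q', ?_⟩
      rw [Path.map_trans]
      refine Path.Homotopic.trans ⟨Path.Homotopy.transAssoc _ _ _⟩ ?_
      refine ((Path.Homotopic.refl _).hcomp hq').trans ?_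
      refine Path.Homotopic.trans ⟨(Path.Homotopy.transAssoc _ _ _).symm⟩ ?_
      refine (hq.hcomp (Path.Homotopic.refl _)).trans ?_
      exact ⟨Path.Homotopy.transAssoc _ _ _⟩
    · rintro (_ | d) x x' p hp
      · have hx : x ∈ Yset X := p.source ▸ hp 0
        have hx' : x' ∈ Yset X := p.target ▸ hp 1
        have e : (st x : X) = x := (del x).target.symm.trans (h1 x hx 1)
        have e' : (st x' : X) = x' := (del x').target.symm.trans (h1 x' hx' 1)
        refine ⟨⟨⟨fun t => ⟨p t, hp t⟩, p.continuous.subtype_mk _⟩,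
          Subtype.ext (p.source.trans e.symm), Subtype.ext (p.target.trans e'.symm)⟩, ?_⟩
        exact homotopic_of_square _ _ _ _ (fun z => p z.1) (p.continuous.comp continuous_fst)
          (fun _ => rfl) (fun t => (h1 x' hx' t).trans p.target.symm)
          (fun t => (h1 x hx t).trans p.source.symm) (fun _ => rfl)
      · have hx : x ∈ oc 2 d := p.source ▸ hp 0
        have hx' : x' ∈ oc 2 d := p.target ▸ hp 1
        obtain ⟨q, hq⟩ := cw4_join d (y := st x) (y' := st x') ((del x).target ▸ h2 x d hx 1)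
          ((del x').target ▸ h2 x' d hx' 1)
        exact ⟨q, cw4_cell d _ _ (cw4_trans_mem hp (h2 x' d hx'))
          (cw4_trans_mem (h2 x d hx) hq)⟩
  have key : ∀ (z z' : Yset X) (δ : Path (y : X) z) (δ' : Path (y' : X) z') (q : Path z z'),
      (∀ t, δ t = y) → (∀ t, δ' t = y') →
      (p.trans δ').Homotopic (δ.trans (q.map continuous_subtype_val)) →
      ∃ q : Path y y', p.Homotopic (q.map continuous_subtype_val) := by
    intro z z' δ δ' q a1 a2 hq
    obtain rfl : y = z := Subtype.ext (by rw [← a1 1, δ.target])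
    obtain rfl : y' = z' := Subtype.ext (by rw [← a2 1, δ'.target])
    obtain rfl : δ = Path.refl _ := Path.ext (funext a1)
    obtain rfl : δ' = Path.refl _ := Path.ext (funext a2)
    refine ⟨q, Path.Homotopic.trans ⟨(Path.Homotopy.transRefl p).symm⟩ (hq.trans ?_)⟩
    exact ⟨Path.Homotopy.reflTrans _⟩
  obtain ⟨q, hq⟩ := main
  exact key _ _ _ _ q (h1 y y.2) (h1 y' y'.2) hq

theorem bloop_null (d : Cell X 2) :
    ((bloop d).map continuous_subtype_val).Homotopic (Path.refl (bpt d : X)) := by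
  have e : bet 1 = bet 0 := by simpa using bet_add_one 0
  exact homotopic_of_convex (convex_closedBall (0 : Fin 2 → ℝ) 1) (chm 2 d)
    (RelCWComplex.continuousOn 2 d) _ _ (fun t => bet t) (fun _ => bet 0)
    (continuous_bet.comp continuous_subtype_val) continuous_const
    (fun t => sphere_subset_closedBall (bet_mem t)) (fun _ => sphere_subset_closedBall (bet_mem 0))
    rfl e (fun _ => rfl) (fun _ => rfl)

end Crest.Agent.R197
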