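import Crest.Agent.R197.CW2
import Crest.Agent.R197.Hol

/-! The local system on `Yset X` defined by a labelling of the edges. -/

set_option autoImplicit false

namespace Crest.Agent.R197

open Set Metric Topology unitInterval

variable {X : Type} [TopologicalSpace X] [CWComplex (univ : Set X)] [T2Space X]

omit [T2Space X] in
theorem cw5_target {n : ℕ} (e : Cell X n) : (chm n e).target = oc n e := by
  rw [← PartialEquiv.image_source_eq_target, RelCWComplex.source_eq]
  rfl

omit [T2Space X] in
theorem cw5_eq {e e' : Cell X 1} {x : X} (h : x ∈ oc 1 e) (h' : x ∈ oc 1 e') : e = e' := by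
  have := RelCWComplex.eq_of_not_disjoint_openCell (C := (univ : Set X)) (j := e) (i := e')
    (Set.not_disjoint_iff.2 ⟨x, h, h'⟩)
  exact eq_of_heq (Sigma.mk.inj this).2

omit [T2Space X] in
theorem cw5_ball {c : ℝ} (hc : |c| < 1) : (fun _ => c) ∈ ball (0 : Fin 1 → ℝ) 1 := by
  simpa using hc

omit [T2Space X] in
theorem cw5_symm (e : Cell X 1) {c : ℝ} (hc : |c| < 1) :
    (chm 1 e).symm (chm 1 e fun _ => c) = fun _ => c :=
  (chm 1 e).left_inv (by rw [RelCWComplex.source_eq]; exact cw5_ball hc)

omit [T2Space X] in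
theorem cw5_vertex (v : Cell X 0) : chm 0 v 0 ∉ Mid X := by
  rintro ⟨e, he⟩
  have h1 : chm 0 v 0 ∈ oc 0 v := RelCWComplex.map_zero_mem_openCell 0 v
  have h2 : chm 0 v 0 ∈ oc 1 e := he ▸ RelCWComplex.map_zero_mem_openCell 1 e
  have := RelCWComplex.eq_of_not_disjoint_openCell (C := (univ : Set X)) (j := v) (i := e)
    (Set.not_disjoint_iff.2 ⟨_, h1, h2⟩)
  exact zero_ne_one (Sigma.mk.inj this).1

omit [T2Space X] in
theorem cw5_notMid (e : Cell X 1) {c : ℝ} (hc : |c| ≤ 1) (h0 : c ≠ 0) :
    chm 1 e (fun _ => c) ∉ Mid X := by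
  rcases hc.eq_or_lt with h1 | h1
  · obtain ⟨v, hv⟩ := exists_end e h1
    rw [hv]
    exact cw5_vertex v
  · rintro ⟨e', he⟩
    have h2 : chm 1 e (fun _ => c) ∈ oc 1 e := ⟨_, cw5_ball h1, rfl⟩
    obtain rfl := cw5_eq h2 (he ▸ RelCWComplex.map_zero_mem_openCell 1 e')
    have h3 := cw5_symm e h1
    rw [← he] at h3
    have h4 := cw5_symm e (c := 0) (by simp)
    exact h0 (congrFun (h3.symm.trans h4) 0)

theorem exists_locSys (h : Dim2 X) {U : Type} [Group U] (lam : Cell X 1 → U) :
    ∃ L : LocSys (Yset X) U, ∀ H, L.IsHol H → ∀ e, H.h (edge e) = lam e := by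
  classical
  obtain ⟨F, hF, -, hF0, hF1, -⟩ := exists_radial2 h
  let r : Yset X → X := fun y => F (y, 0)
  have hr : Continuous r := continuous_subtype_val.comp (hF.comp (Continuous.prodMk_left 0))
  let O : Option (Cell X 1) → Set (Yset X) := fun i =>
    match i with
    | none => {y | r y ∉ Mid X}
    | some e => {y | r y ∈ oc 1 e}
  let f : Option (Cell X 1) → Yset X → U := fun i y =>
    match i with
    | none => 1
    | some e => if (chm 1 e).symm (r y) 0 < 0 then 1 else (lam e)⁻¹
  have hO : ∀ i, IsOpen (O i) := by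
    rintro (_ | e)
    · exact isClosed_Mid.isOpen_compl.preimage hr
    · have : O (some e) = r ⁻¹' (X1 X \ oc 1 e)ᶜ := by
        ext y
        have := hF0 y
        simp only [O, mem_setOf_eq, mem_preimage, mem_compl_iff, mem_diff, not_and, not_not]
        exact ⟨fun h _ => h, fun h => h this⟩
      rw [this]
      exact (isClosed_X1_diff h e).isOpen_compl.preimage hr
  have key : ∀ e, ∀ y ∈ O none, y ∈ O (some e) → ∀ᶠ z in 𝓝 y, f (some e) z = f (some e) y := by
    intro e y h1 h2
    have hc : ContinuousAt (fun z => (chm 1 e).symm (r z) 0) y := by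
      have a1 : ContinuousOn (fun z => (chm 1 e).symm (r z)) (O (some e)) :=
        (RelCWComplex.continuousOn_symm 1 e).comp hr.continuousOn fun z hz =>
          (cw5_target e).symm ▸ hz
      exact (continuous_apply 0).continuousAt.comp (a1.continuousAt ((hO (some e)).mem_nhds h2))
    have hne : (chm 1 e).symm (r y) 0 ≠ 0 := by
      intro h0
      have a1 : (chm 1 e).symm (r y) = 0 := funext fun i => by rw [Subsingleton.elim i 0, h0]; rfl
      have a2 := (chm 1 e).right_inv (x := r y) ((cw5_target e).symm ▸ h2)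
      exact h1 ⟨e, by rw [← a1, a2]⟩
    rcases hne.lt_or_gt with h3 | h3
    · filter_upwards [hc.eventually (gt_mem_nhds h3)] with z hz
      simp only [f, if_pos hz, if_pos h3]
    · filter_upwards [hc.eventually (lt_mem_nhds h3)] with z hz
      simp only [f, if_neg hz.not_gt, if_neg h3.not_gt]
  refine ⟨⟨Option (Cell X 1), O, f, hO, fun y => ?_, ?_⟩, fun H hH e => ?_⟩
  · by_cases hy : r y ∈ Mid X
    · obtain ⟨e, he⟩ := hy
      exact ⟨some e, show r y ∈ oc 1 e from he ▸ RelCWComplex.map_zero_mem_openCell 1 e⟩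
    · exact ⟨none, hy⟩
  · rintro (_ | e) (_ | e') y ⟨h1, h2⟩
    · exact Filter.Eventually.of_forall fun _ => rfl
    · filter_upwards [key e' y h1 h2] with z hz
      rw [hz]
    · filter_upwards [key e y h2 h1] with z hz
      rw [hz]
    · obtain rfl := cw5_eq h1 h2
      exact Filter.Eventually.of_forall fun _ => by simp
  · have hre : ∀ t : I, r (edge e t) = chm 1 e fun _ => 2 * (t : ℝ) - 1 := fun t =>
      congrArg Subtype.val (hF1 (edge e t) 0 (chm_mem_X1 le_rfl e (edge_aux t)))
    let a : I := ⟨1 / 4, by norm_num, by norm_num⟩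
    let b : I := ⟨3 / 4, by norm_num, by norm_num⟩
    have hsub : ∀ (i : Option (Cell X 1)) (s t : I), s ≤ t → (∀ u : I, s ≤ u → u ≤ t → edge e u ∈ O i) →
        H.h ((edge e).subpath s t) = f i (edge e s) * (f i (edge e t))⁻¹ := by
      intro i s t hst hu
      refine hH i _ _ _ fun u => ?_
      obtain ⟨w, hw, e1⟩ : ((edge e).subpath s t) u ∈ edge e '' Icc s t := by
        rw [← Path.range_subpath_of_le _ _ _ hst]
        exact ⟨u, rfl⟩
      rw [← e1]
      exact hu w hw.1 hw.2
    have hab : ∀ u : I, |2 * (u : ℝ) - 1| ≤ 1 := fun u => by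
      have := u.2.1
      have := u.2.2
      rw [abs_le]
      constructor <;> linarith
    have h1 := hsub none 0 a bot_le fun u _ hu => by
      change r (edge e u) ∉ Mid X
      rw [hre]
      have : (u : ℝ) ≤ 1 / 4 := hu
      exact cw5_notMid e (hab u) (by linarith)
    have h2 := hsub (some e) a b (by change (1 / 4 : ℝ) ≤ 3 / 4; norm_num) fun u h1 h2 => by
      change r (edge e u) ∈ oc 1 e
      rw [hre]
      have : (1 / 4 : ℝ) ≤ u := h1
      have : (u : ℝ) ≤ 3 / 4 := h2
      exact ⟨_, cw5_ball (by rw [abs_lt]; constructor <;> linarith), rfl⟩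
    have h3 := hsub none b 1 le_top fun u hu _ => by
      change r (edge e u) ∉ Mid X
      rw [hre]
      have : (3 / 4 : ℝ) ≤ u := hu
      exact cw5_notMid e (hab u) (by linarith)
    have fa : f (some e) (edge e a) = 1 := by
      simp only [f]
      rw [hre, cw5_symm e (by norm_num [a, abs_lt]), if_pos (by norm_num [a])]
    have fb : f (some e) (edge e b) = (lam e)⁻¹ := by
      simp only [f]
      rw [hre, cw5_symm e (by norm_num [b, abs_lt]), if_neg (by norm_num [b])]
    rw [← H.cast (edge e) (edge e).source (edge e).target, ← Path.subpath_zero_one,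
      ← H.homotopic ⟨Path.Homotopy.subpathTransSubpath (edge e) 0 a 1⟩, H.trans,
      ← H.homotopic ⟨Path.Homotopy.subpathTransSubpath (edge e) a b 1⟩, H.trans, h1, h2, h3, fa, fb]
    simp [f]

end Crest.Agent.R197
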