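import Crest.Agent.R197.CW1
import Crest.Agent.R197.Hol

/-! Extending a local system over the centres of the 2-cells. -/

set_option autoImplicit false

namespace Crest.Agent.R197

open Set Metric Topology unitInterval

theorem cw6_congr {Y U : Type} [TopologicalSpace Y] [Group U] (H : PHol Y U) {x y x' y' : Y}
    (p : Path x y) (q : Path x' y') (h : ∀ t, p t = q t) : H.h p = H.h q := by
  have hx : x = x' := by rw [← p.source, ← q.source, h]
  have hy : y = y' := by rw [← p.target, ← q.target, h]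
  subst hx hy
  rw [show p = q from Path.ext (funext h)]

theorem cw6_potential {E U : Type} [TopologicalSpace E] [SimplyConnectedSpace E] [Group U]
    (G : PHol E U) (b : E) : ∃ T : E → U, ∀ a a' (p : Path a a'), G.h p = T a * (T a')⁻¹ := by
  refine ⟨fun a => G.h (PathConnectedSpace.somePath a b), fun a a' p => ?_⟩
  rw [eq_mul_inv_iff_mul_eq, ← G.trans]
  exact G.homotopic (SimplyConnectedSpace.paths_homotopic _ _)

/-- the plane as the complex line -/
noncomputable def cw6Z (z : Fin 2 → ℝ) : ℂ := (z 0 : ℂ) + (z 1 : ℂ) * Complex.I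

theorem cw6Z_ne {z : Fin 2 → ℝ} (hz : z ≠ 0) : cw6Z z ≠ 0 := by
  intro h
  apply hz
  have h0 := congrArg Complex.re h
  have h1 := congrArg Complex.im h
  simp [cw6Z] at h0 h1
  funext i
  fin_cases i
  · exact h0
  · exact h1

/-- the angle -/
noncomputable def cw6A (z : Fin 2 → ℝ) : ℝ := Complex.arg (cw6Z z) / (2 * Real.pi)

theorem cw6_bet_A {z : Fin 2 → ℝ} (hz : z ≠ 0) : ‖z‖ • bet (cw6A z) = z := by
  have hζ := cw6Z_ne hz
  have hn : 0 < ‖cw6Z z‖ := norm_pos_iff.2 hζ
  have hn' : ‖z‖ ≠ 0 := norm_ne_zero_iff.2 hz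
  have e : 2 * Real.pi * cw6A z = Complex.arg (cw6Z z) := by
    unfold cw6A
    field_simp
  have e2 : (![Real.cos (2 * Real.pi * cw6A z), Real.sin (2 * Real.pi * cw6A z)] : Fin 2 → ℝ) =
      ‖cw6Z z‖⁻¹ • z := by
    rw [e, Complex.cos_arg hζ, Complex.sin_arg]
    funext i
    fin_cases i <;> simp [cw6Z, div_eq_inv_mul]
  unfold bet
  rw [e2, norm_smul, norm_inv, norm_norm, smul_smul, smul_smul]
  have : ‖z‖ * (‖cw6Z z‖⁻¹ * ‖z‖)⁻¹ * ‖cw6Z z‖⁻¹ = 1 := by field_simp
  rw [this, one_smul]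

theorem cw6_branch {z₀ : Fin 2 → ℝ} (h₀ : z₀ ≠ 0) : ∃ s : (Fin 2 → ℝ) → ℝ, ContinuousAt s z₀ ∧
    ∀ z, z ≠ 0 → ∃ k : ℤ, s z = cw6A z + k := by
  have hζ := cw6Z_ne h₀
  refine ⟨fun z => (Complex.arg (cw6Z z₀) + Complex.arg (cw6Z z / cw6Z z₀)) / (2 * Real.pi), ?_,
    fun z hz => ?_⟩
  · refine (continuousAt_const.add ?_).div_const _
    refine ContinuousAt.comp (g := Complex.arg) (f := fun z => cw6Z z / cw6Z z₀)
      (Complex.continuousAt_arg ?_) ?_
    · rw [div_self hζ]
      exact Complex.one_mem_slitPlane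
    · unfold cw6Z
      fun_prop
  · have h1 := Complex.arg_mul_coe_angle hζ (div_ne_zero (cw6Z_ne hz) hζ)
    rw [mul_div_cancel₀ _ hζ, ← Real.Angle.coe_add, eq_comm,
      Real.Angle.angle_eq_iff_two_pi_dvd_sub] at h1
    obtain ⟨k, hk⟩ := h1
    refine ⟨k, ?_⟩
    unfold cw6A
    field_simp
    linarith

variable {X : Type} [TopologicalSpace X] [CWComplex (univ : Set X)] [T2Space X]

omit [T2Space X] in
theorem cw6_cell_eq {d d' : Cell X 2} {x : X} (h : x ∈ oc 2 d) (h' : x ∈ oc 2 d') : d = d' := by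
  by_contra hne
  exact Set.disjoint_left.1 (RelCWComplex.disjoint_openCell_of_ne (C := (univ : Set X))
    (i := d) (j := d') (by simpa using hne)) h h'

theorem cw6_mem (d : Cell X 2) {z : Fin 2 → ℝ} (hz : ‖z‖ ≤ 1) (h0 : z ≠ 0) :
    chm 2 d z ∈ Yset X := by
  rcases hz.eq_or_lt with hz | hz
  · exact X1_subset_Yset (chm_sphere_mem_X1 d (by simpa using hz))
  · intro d' hd
    have hz' : z ∈ ball (0 : Fin 2 → ℝ) 1 := by simpa using hz
    obtain rfl : d' = d :=
      cw6_cell_eq (RelCWComplex.map_zero_mem_openCell 2 d') (hd ▸ ⟨z, hz', rfl⟩)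
    refine h0 ((chm 2 d').injOn ?_ ?_ hd).symm
    · rw [RelCWComplex.source_eq]
      simp
    · rw [RelCWComplex.source_eq]
      exact hz'

/-- polar coordinates -/
noncomputable def cw6P (w : ℝ × ℝ) : Fin 2 → ℝ := Real.exp (-max w.2 0) • bet w.1

theorem cw6P_norm (w : ℝ × ℝ) : ‖cw6P w‖ = Real.exp (-max w.2 0) := by
  rw [cw6P, norm_smul, norm_bet, mul_one, Real.norm_eq_abs, abs_of_pos (Real.exp_pos _)]

theorem cw6P_le (w : ℝ × ℝ) : ‖cw6P w‖ ≤ 1 := by
  rw [cw6P_norm, Real.exp_le_one_iff, neg_nonpos]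
  exact le_max_right _ _

theorem cw6P_ne (w : ℝ × ℝ) : cw6P w ≠ 0 := by
  rw [← norm_pos_iff, cw6P_norm]
  exact Real.exp_pos _

theorem cw6P_cont : Continuous cw6P :=
  (Real.continuous_exp.comp (continuous_snd.max continuous_const).neg).smul
    (continuous_bet.comp continuous_fst)

/-- the universal cover of the punctured cell -/
noncomputable def cw6Psi (d : Cell X 2) (w : ℝ × ℝ) : Yset X :=
  ⟨chm 2 d (cw6P w), cw6_mem d (cw6P_le w) (cw6P_ne w)⟩

theorem cw6Psi_cont (d : Cell X 2) : Continuous (cw6Psi d) :=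
  Continuous.subtype_mk ((RelCWComplex.continuousOn 2 d).comp_continuous cw6P_cont
    fun w => by simpa using cw6P_le w) _

theorem cw6_exists_T {U : Type} [Group U] (L : LocSys (Yset X) U) (H : PHol (Yset X) U)
    (hH : L.IsHol H) (d : Cell X 2) (hb : H.h (bloop d) = 1) : ∃ T : ℝ × ℝ → U,
      (∀ (θ ρ : ℝ) (k : ℤ), T (θ + k, ρ) = T (θ, ρ)) ∧ ∀ i a, cw6Psi d a ∈ L.O i →
        ∀ᶠ a' in 𝓝 a, (L.f i (cw6Psi d a'))⁻¹ * T a' = (L.f i (cw6Psi d a))⁻¹ * T a := by
  obtain ⟨T, hT⟩ := cw6_potential (H.comap (cw6Psi_cont d)) (0, 0)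
  refine ⟨T, ?_, fun i a ha => ?_⟩
  · have hτ : Continuous fun w : ℝ × ℝ => (w.1 + 1, w.2) := by fun_prop
    have h1 : T (0, 0) = T (0 + 1, 0) := by
      let p : Path ((0, 0) : ℝ × ℝ) (0 + 1, 0) :=
        { toFun := fun t => (t, 0)
          continuous_toFun := by fun_prop
          source' := by simp
          target' := by simp }
      have e := hT _ _ p
      have e' : (H.comap (cw6Psi_cont d)).h p = H.h (bloop d) := by
        refine cw6_congr H _ _ fun t => Subtype.ext ?_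
        change chm 2 d (cw6P (t, 0)) = chm 2 d (bet t)
        simp [cw6P]
      rw [e', hb] at e
      exact mul_inv_eq_one.1 e.symm
    have h2 : ∀ ρ, Function.Periodic (fun θ => T (θ, ρ)) 1 := by
      intro ρ θ
      let p := PathConnectedSpace.somePath ((θ, ρ) : ℝ × ℝ) (0, 0)
      have e1 := hT _ _ p
      have e2 := hT _ _ (p.map hτ)
      have e3 : (H.comap (cw6Psi_cont d)).h (p.map hτ) = (H.comap (cw6Psi_cont d)).h p := by
        refine cw6_congr H _ _ fun t => Subtype.ext ?_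
        change chm 2 d (cw6P ((p t).1 + 1, (p t).2)) = chm 2 d (cw6P (p t))
        simp only [cw6P, bet_add_one]
      rw [e3, e1, ← h1] at e2
      exact (mul_right_cancel e2).symm
    intro θ ρ k
    simpa using (h2 ρ).int_mul k θ
  · have hn : cw6Psi d ⁻¹' L.O i ∈ 𝓝 a := ((L.isOpen i).preimage (cw6Psi_cont d)).mem_nhds ha
    filter_upwards [pathComponentIn_mem_nhds hn] with a' ha'
    obtain ⟨p, hp⟩ := ha'
    have e1 := hT _ _ p
    have e2 : (H.comap (cw6Psi_cont d)).h p = _ := hH i _ _ (p.map (cw6Psi_cont d)) hp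
    rw [e1] at e2
    rw [mul_inv_eq_iff_eq_mul.1 e2]
    group

theorem cw6_exists_f (h : Dim2 X) {U : Type} [Group U] (L : LocSys (Yset X) U)
    (H : PHol (Yset X) U) (hH : L.IsHol H) (d : Cell X 2) (hb : H.h (bloop d) = 1) :
    ∃ g : X → U, ∀ i, ∀ y ∈ L.O i, (y : X) ∈ oc 2 d →
      ∀ᶠ z in 𝓝 y, (L.f i z)⁻¹ * g z = (L.f i y)⁻¹ * g y := by
  obtain ⟨T, hT1, hT2⟩ := cw6_exists_T L H hH d hb
  refine ⟨fun x => T (cw6A ((chm 2 d).symm x), -Real.log ‖(chm 2 d).symm x‖), fun i y hy hd => ?_⟩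
  have htar : (chm 2 d).target = oc 2 d := by
    rw [← (chm 2 d).image_source_eq_target, RelCWComplex.source_eq]
    rfl
  have hne : ∀ z : Yset X, (z : X) ∈ oc 2 d → (chm 2 d).symm z ≠ 0 := by
    intro z hz h0
    refine z.2 d ?_
    rw [← h0]
    exact (chm 2 d).right_inv (htar ▸ hz)
  obtain ⟨s, hs, hs'⟩ := cw6_branch (hne y hd)
  have key : ∀ z : Yset X, (z : X) ∈ oc 2 d →
      cw6Psi d (s ((chm 2 d).symm z), -Real.log ‖(chm 2 d).symm z‖) = z ∧
      T (s ((chm 2 d).symm z), -Real.log ‖(chm 2 d).symm z‖) =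
        T (cw6A ((chm 2 d).symm z), -Real.log ‖(chm 2 d).symm z‖) := by
    intro z hz
    obtain ⟨k, hk⟩ := hs' _ (hne z hz)
    rw [hk]
    refine ⟨Subtype.ext ?_, hT1 _ _ _⟩
    have hlt : ‖(chm 2 d).symm z‖ < 1 := by
      have := (chm 2 d).map_target (htar ▸ hz)
      rw [RelCWComplex.source_eq] at this
      simpa using this
    have hpos : 0 < ‖(chm 2 d).symm z‖ := norm_pos_iff.2 (hne z hz)
    have hper : Function.Periodic bet 1 := bet_add_one
    have e : bet (cw6A ((chm 2 d).symm z) + k) = bet (cw6A ((chm 2 d).symm z)) := by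
      simpa using hper.int_mul k _
    change chm 2 d (cw6P _) = z
    unfold cw6P
    rw [e, max_eq_left (neg_nonneg.2 (Real.log_nonpos hpos.le hlt.le)), neg_neg, Real.exp_log hpos,
      cw6_bet_A (hne z hz)]
    exact (chm 2 d).right_inv (htar ▸ hz)
  have hc0 : ContinuousAt (fun z : Yset X => (chm 2 d).symm z) y := by
    refine ContinuousAt.comp (g := (chm 2 d).symm) (f := Subtype.val) ?_
      continuous_subtype_val.continuousAt
    refine (RelCWComplex.continuousOn_symm 2 d).continuousAt ?_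
    exact htar ▸ (isOpen_oc2 h d).mem_nhds hd
  have hc : ContinuousAt
      (fun z : Yset X => (s ((chm 2 d).symm z), -Real.log ‖(chm 2 d).symm z‖)) y :=
    (ContinuousAt.comp (g := s) (f := fun z : Yset X => (chm 2 d).symm z) hs hc0).prodMk
      (hc0.norm.log (norm_ne_zero_iff.2 (hne y hd))).neg
  have hev := hc.eventually (hT2 i _ ((key y hd).1.symm ▸ hy))
  filter_upwards [hev, ((isOpen_oc2 h d).preimage continuous_subtype_val).mem_nhds hd]
    with z h1 h2
  rw [(key z h2).1, (key z h2).2, (key y hd).1, (key y hd).2] at h1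
  exact h1

theorem exists_extension (h : Dim2 X) {U : Type} [Group U] (L : LocSys (Yset X) U)
    (H : PHol (Yset X) U) (hH : L.IsHol H) (hb : ∀ d, H.h (bloop d) = 1) :
    ∃ H' : PHol X U, ∀ {y y' : Yset X} (p : Path y y'),
      H'.h (p.map continuous_subtype_val) = H.h p := by
  classical
  choose g hg using fun d => cw6_exists_f h L H hH d (hb d)
  have hemb := (isOpen_Yset h).isOpenEmbedding_subtypeVal
  let F : L.ι → X → U := fun i x => if hx : x ∈ Yset X then L.f i ⟨x, hx⟩ else 1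
  have hF : ∀ i (y : Yset X), F i y = L.f i y := fun i y => dif_pos y.2
  have hmix : ∀ i d, ∀ x ∈ Subtype.val '' L.O i, x ∈ oc 2 d →
      ∀ᶠ z in 𝓝 x, (F i z)⁻¹ * g d z = (F i x)⁻¹ * g d x := by
    rintro i d _ ⟨y, hy, rfl⟩ hd
    rw [← hemb.map_nhds_eq, Filter.eventually_map]
    simp only [hF]
    exact hg d i y hy hd
  let L' : LocSys X U :=
    { ι := L.ι ⊕ Cell X 2
      O := Sum.elim (fun i => Subtype.val '' L.O i) fun d => oc 2 d
      f := Sum.elim F g
      isOpen := by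
        rintro (i | d)
        · exact hemb.isOpenMap _ (L.isOpen i)
        · exact isOpen_oc2 h d
      cover := by
        intro x
        by_cases hx : x ∈ Yset X
        · obtain ⟨i, hi⟩ := L.cover ⟨x, hx⟩
          exact ⟨Sum.inl i, ⟨x, hx⟩, hi, rfl⟩
        · obtain ⟨d, hd⟩ := not_forall.1 hx
          exact ⟨Sum.inr d, not_not.1 hd ▸ RelCWComplex.map_zero_mem_openCell 2 d⟩
      lc := by
        rintro (i | d) (j | d') x ⟨h1, h2⟩
        · obtain ⟨y, hy, rfl⟩ := h1
          obtain ⟨y', hy', e⟩ := h2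
          obtain rfl : y' = y := Subtype.ext e
          rw [← hemb.map_nhds_eq, Filter.eventually_map]
          simp only [Sum.elim_inl, hF]
          exact L.lc i j y' ⟨hy, hy'⟩
        · exact hmix i d' x h1 h2
        · filter_upwards [hmix j d x h2 h1] with z hz
          simpa using congrArg Inv.inv hz
        · obtain rfl : d = d' := cw6_cell_eq h1 h2
          simp }
  obtain ⟨H', hH'⟩ := L'.exists_hol
  refine ⟨H', fun p => L.hol_unique (H := H'.comap continuous_subtype_val) ?_ hH p⟩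
  intro i x y q hq
  rw [← hF, ← hF]
  exact hH' (Sum.inl i) _ _ (q.map continuous_subtype_val) fun t => ⟨q t, hq t, rfl⟩

end Crest.Agent.R197
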