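import Crest.Agent.R197.Wind

/-! In a contractible space a top-dimensional 2-cell is detected by a winding number. -/

set_option autoImplicit false

namespace Crest.Agent.R197

open Set Metric Topology unitInterval

theorem unif_param {K Y : Type} [TopologicalSpace K] [CompactSpace K] [MetricSpace Y]
    (P : K × I → Y) (hP : Continuous P) :
    ∃ δ > 0, ∀ t t' : I, dist t t' < δ → ∀ k, dist (P (k, t)) (P (k, t')) < 1 := by
  let Q : C(I × K, Y) := ⟨fun p => P (p.2, p.1), hP.comp continuous_swap⟩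
  have hu : UniformContinuous Q.curry := CompactSpace.uniformContinuous_of_continuous
    Q.curry.continuous
  obtain ⟨δ, hδ, hd⟩ := Metric.uniformContinuous_iff.1 hu 1 one_pos
  exact ⟨δ, hδ, fun t t' htt k =>
    (ContinuousMap.dist_apply_le_dist (f := Q.curry t) (g := Q.curry t') k).trans_lt (hd htt)⟩

/-- Sections of a family of projectors over a compact space, along a homotopy to a constant. -/
theorem exists_section {K V : Type} [TopologicalSpace K] [CompactSpace K] [NormedAddCommGroup V]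
    [NormedSpace ℂ V] (P : K × I → (V →L[ℂ] V)) (hP : Continuous P)
    (hi : ∀ p v, P p (P p v) = P p v) (v0 : V) (hv0 : v0 ≠ 0) (h0 : ∀ k, P (k, 0) v0 = v0) :
    ∃ s : K → V, Continuous s ∧ ∀ k, s k ≠ 0 ∧ P (k, 1) (s k) = s k := by
  obtain ⟨δ, hδ, hd⟩ := unif_param P hP
  have step : ∀ t t' : I, dist t t' < δ →
      (∃ s : K → V, Continuous s ∧ ∀ k, s k ≠ 0 ∧ P (k, t) (s k) = s k) →
      ∃ s : K → V, Continuous s ∧ ∀ k, s k ≠ 0 ∧ P (k, t') (s k) = s k := by
    rintro t t' htt ⟨s, hs, hs'⟩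
    refine ⟨fun k => P (k, t') (s k), (hP.comp (by fun_prop)).clm_apply hs, fun k => ⟨?_, hi _ _⟩⟩
    intro hz
    have hz : P (k, t') (s k) = 0 := hz
    have h1 : ‖P (k, t) - P (k, t')‖ < 1 := by
      have := hd t t' htt k
      rwa [dist_eq_norm] at this
    have h2 : (P (k, t) - P (k, t')) (s k) = s k := by
      rw [sub_apply, (hs' k).2, hz, sub_zero]
    have h3 := (P (k, t) - P (k, t')).le_opNorm (s k)
    rw [h2] at h3
    have h4 := norm_pos_iff.2 (hs' k).1
    nlinarith
  have key : ∀ m : ℕ, ∃ s : K → V, Continuous s ∧ ∀ k, s k ≠ 0 ∧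
      P (k, projIcc 0 1 zero_le_one (m * (δ / 2))) (s k) = s k := by
    intro m
    induction m with
    | zero => exact ⟨fun _ => v0, continuous_const, fun k => ⟨hv0, by simpa using h0 k⟩⟩
    | succ m ih =>
      refine step _ _ ?_ ih
      have := (LipschitzWith.projIcc (zero_le_one' ℝ)).dist_le_mul (m * (δ / 2))
        (((m + 1 : ℕ) : ℝ) * (δ / 2))
      refine this.trans_lt ?_
      rw [Real.dist_eq]
      have e : (m : ℝ) * (δ / 2) - ((m + 1 : ℕ) : ℝ) * (δ / 2) = -(δ / 2) := by push_cast; ring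
      rw [e, abs_neg, abs_of_pos (by linarith)]
      simp; linarith
  obtain ⟨m, hm⟩ := exists_nat_ge (1 / (δ / 2))
  obtain ⟨s, hs, hs'⟩ := key m
  have : projIcc (0 : ℝ) 1 zero_le_one (m * (δ / 2)) = 1 := by
    apply projIcc_of_right_le
    rwa [div_le_iff₀ (by linarith)] at hm
  rw [this] at hs'
  exact ⟨s, hs, hs'⟩

/-- the complex coordinate of the disc -/
noncomputable def secC (z : Fin 2 → ℝ) : ℂ := (z 0 : ℂ) + (z 1 : ℂ) * Complex.I
noncomputable def secT (z : Fin 2 → ℝ) : ℂ := ((1 - ‖z‖ : ℝ) : ℂ)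
noncomputable def secN (z : Fin 2 → ℝ) : ℂ := (starRingEnd ℂ) (secC z) * secC z + secT z * secT z

theorem continuous_secC : Continuous secC := by unfold secC; fun_prop
theorem continuous_secT : Continuous secT := by unfold secT; fun_prop
theorem continuous_secN : Continuous secN := by
  unfold secN
  exact ((Complex.continuous_conj.comp continuous_secC).mul continuous_secC).add
    (continuous_secT.mul continuous_secT)

theorem secC_eq_zero {z : Fin 2 → ℝ} (h : secC z = 0) : z = 0 := by
  have h0 := congrArg Complex.re h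
  have h1 := congrArg Complex.im h
  simp [secC] at h0 h1
  funext i; fin_cases i <;> simpa

theorem secN_ne_zero (z : Fin 2 → ℝ) : secN z ≠ 0 := by
  intro h
  have e : secN z = ((Complex.normSq (secC z) + (1 - ‖z‖) * (1 - ‖z‖) : ℝ) : ℂ) := by
    unfold secN secT
    rw [← Complex.normSq_eq_conj_mul_self]; push_cast; ring
  rw [e] at h
  have h' : Complex.normSq (secC z) + (1 - ‖z‖) * (1 - ‖z‖) = 0 := by exact_mod_cast h
  have h1 := Complex.normSq_nonneg (secC z)
  have h2 := mul_self_nonneg (1 - ‖z‖)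
  have h3 : secC z = 0 := Complex.normSq_eq_zero.1 (by linarith)
  have h4 : (1 - ‖z‖) * (1 - ‖z‖) = 0 := by linarith
  rw [secC_eq_zero h3] at h4
  simp at h4

theorem secT_sphere {z : Fin 2 → ℝ} (hz : z ∈ sphere (0 : Fin 2 → ℝ) 1) : secT z = 0 := by
  have : ‖z‖ = 1 := by simpa using hz
  simp [secT, this]

/-- the operator `P0 + [[-a, b], [c, a]]` -/
noncomputable def secP (a b c : ℂ) : (ℂ × ℂ) →L[ℂ] (ℂ × ℂ) :=
  (ContinuousLinearMap.inl ℂ ℂ ℂ).comp (ContinuousLinearMap.fst ℂ ℂ ℂ)
    + (-a) • (ContinuousLinearMap.inl ℂ ℂ ℂ).comp (ContinuousLinearMap.fst ℂ ℂ ℂ)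
    + b • (ContinuousLinearMap.inl ℂ ℂ ℂ).comp (ContinuousLinearMap.snd ℂ ℂ ℂ)
    + c • (ContinuousLinearMap.inr ℂ ℂ ℂ).comp (ContinuousLinearMap.fst ℂ ℂ ℂ)
    + a • (ContinuousLinearMap.inr ℂ ℂ ℂ).comp (ContinuousLinearMap.snd ℂ ℂ ℂ)

theorem secP_apply (a b c : ℂ) (v : ℂ × ℂ) :
    secP a b c v = ((1 - a) * v.1 + b * v.2, c * v.1 + a * v.2) := by
  ext
  · simp [secP]; ring
  · simp [secP]

theorem secP_z (z : Fin 2 → ℝ) (v : ℂ × ℂ) :
    secP (secT z * secT z / secN z) (secC z * secT z / secN z)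
      ((starRingEnd ℂ) (secC z) * secT z / secN z) v
    = (((starRingEnd ℂ) (secC z) * v.1 + secT z * v.2) / secN z * secC z,
      ((starRingEnd ℂ) (secC z) * v.1 + secT z * v.2) / secN z * secT z) := by
  have := secN_ne_zero z
  rw [secP_apply]
  ext
  · simp only; field_simp; unfold secN; ring
  · simp only; field_simp

theorem exists_winding_fun {E : Type} [TopologicalSpace E] [ContractibleSpace E] (O : Set E)
    (ζ : E → Fin 2 → ℝ) (Φ : (Fin 2 → ℝ) → E) (hΦ : ContinuousOn Φ (closedBall 0 1))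
    (h1 : ∀ z ∈ ball (0 : Fin 2 → ℝ) 1, Φ z ∈ O ∧ ζ (Φ z) = z)
    (h2 : ∀ z ∈ sphere (0 : Fin 2 → ℝ) 1, Φ z ∉ O)
    (h3 : ∀ x ∈ O, ζ x ∈ ball (0 : Fin 2 → ℝ) 1)
    (hc : ∀ k : (Fin 2 → ℝ) → ℂ, ContinuousOn k (closedBall 0 1) →
      (∀ z ∈ sphere (0 : Fin 2 → ℝ) 1, k z = 0) → Continuous (O.indicator fun x => k (ζ x)))
    {K : Set E} (hK : IsCompact K) (hΦK : Φ '' closedBall 0 1 ⊆ K) :
    ∃ f : E → ℂ, ContinuousOn f K ∧ (∀ x ∈ K, (x ∈ O → ζ x ≠ 0) → f x ≠ 0) ∧
      wd (fun t => f (Φ (bet t))) = 2 * Real.pi * Complex.I := by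
  classical
  let ka : (Fin 2 → ℝ) → ℂ := fun z => secT z * secT z / secN z
  let kb : (Fin 2 → ℝ) → ℂ := fun z => secC z * secT z / secN z
  let kc : (Fin 2 → ℝ) → ℂ := fun z => (starRingEnd ℂ) (secC z) * secT z / secN z
  have ca : Continuous (O.indicator fun x => ka (ζ x)) :=
    hc ka ((continuous_secT.mul continuous_secT).div continuous_secN secN_ne_zero).continuousOn
      fun z hz => by simp [ka, secT_sphere hz]
  have cb : Continuous (O.indicator fun x => kb (ζ x)) :=
    hc kb ((continuous_secC.mul continuous_secT).div continuous_secN secN_ne_zero).continuousOn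
      fun z hz => by simp [kb, secT_sphere hz]
  have cc : Continuous (O.indicator fun x => kc (ζ x)) :=
    hc kc (((Complex.continuous_conj.comp continuous_secC).mul continuous_secT).div
      continuous_secN secN_ne_zero).continuousOn fun z hz => by simp [kc, secT_sphere hz]
  let P : E → (ℂ × ℂ) →L[ℂ] (ℂ × ℂ) := fun x =>
    secP (O.indicator (fun x => ka (ζ x)) x) (O.indicator (fun x => kb (ζ x)) x)
      (O.indicator (fun x => kc (ζ x)) x)
  have hP : Continuous P := by
    unfold P secP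
    exact (((continuous_const.add (ca.neg.smul continuous_const)).add
      (cb.smul continuous_const)).add (cc.smul continuous_const)).add (ca.smul continuous_const)
  have hPin : ∀ x ∈ O, ∀ v, P x v
      = (((starRingEnd ℂ) (secC (ζ x)) * v.1 + secT (ζ x) * v.2) / secN (ζ x) * secC (ζ x),
        ((starRingEnd ℂ) (secC (ζ x)) * v.1 + secT (ζ x) * v.2) / secN (ζ x) * secT (ζ x)) := by
    intro x hx v
    simp only [P, indicator_of_mem hx]
    exact secP_z _ v
  have hPout : ∀ x, x ∉ O → ∀ v, P x v = (v.1, 0) := by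
    intro x hx v
    simp only [P, indicator_of_notMem hx, secP_apply]
    simp
  have hidem : ∀ x v, P x (P x v) = P x v := by
    intro x v
    by_cases hx : x ∈ O
    · rw [hPin x hx, hPin x hx]
      have := secN_ne_zero (ζ x)
      ext
      · simp only; field_simp; unfold secN; ring
      · simp only; field_simp; unfold secN; ring
    · rw [hPout x hx, hPout x hx]
  obtain ⟨e, ⟨H⟩⟩ := id_nullhomotopic E
  obtain ⟨v0, hv0, hfix⟩ : ∃ v0 : ℂ × ℂ, v0 ≠ 0 ∧ P e v0 = v0 := by
    by_cases he : e ∈ O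
    · refine ⟨(secC (ζ e), secT (ζ e)), fun h => ?_, ?_⟩
      · have h1 : secC (ζ e) = 0 := congrArg Prod.fst h
        have h2 : secT (ζ e) = 0 := congrArg Prod.snd h
        exact secN_ne_zero (ζ e) (by simp [secN, h1, h2])
      · rw [hPin e he]
        have := secN_ne_zero (ζ e)
        ext
        · simp only; field_simp; unfold secN; ring
        · simp only; field_simp; unfold secN; ring
    · exact ⟨(1, 0), by simp, by rw [hPout e he]⟩
  have : CompactSpace K := isCompact_iff_compactSpace.1 hK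
  obtain ⟨s, hs, hs'⟩ := exists_section (K := K) (fun p => P (H.symm (p.2, p.1)))
    (hP.comp (H.symm.continuous.comp (by fun_prop))) (fun p v => hidem _ v) v0 hv0
    (fun k => by simpa using hfix)
  have hs2 : ∀ k : K, P k (s k) = s k := fun k => by simpa using (hs' k).2
  let S : E → ℂ × ℂ := fun x => if h : x ∈ K then s ⟨x, h⟩ else 0
  have hS : ContinuousOn S K := by
    rw [continuousOn_iff_continuous_domRestrict]
    refine hs.congr fun k => ?_
    simp [S, k.2]
  have hS0 : ∀ x ∈ K, S x ≠ 0 := fun x hx => by simpa [S, hx] using (hs' ⟨x, hx⟩).1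
  have hSP : ∀ x ∈ K, P x (S x) = S x := fun x hx => by simpa [S, hx] using hs2 ⟨x, hx⟩
  refine ⟨fun x => (S x).1, continuous_fst.comp_continuousOn hS, fun x hx hζ h0 => ?_, ?_⟩
  · have hp := hSP x hx
    by_cases hxO : x ∈ O
    · rw [hPin x hxO] at hp
      have e1 := congrArg Prod.fst hp
      have e2 := congrArg Prod.snd hp
      simp only at e1 e2 h0
      have hc0 : secC (ζ x) ≠ 0 := fun h => hζ hxO (secC_eq_zero h)
      have hl := (mul_eq_zero.1 (e1.trans h0)).resolve_right hc0
      rw [hl, zero_mul] at e2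
      exact hS0 x hx (Prod.ext h0 e2.symm)
    · rw [hPout x hxO] at hp
      exact hS0 x hx (Prod.ext h0 (congrArg Prod.snd hp).symm)
  · let lam : (Fin 2 → ℝ) → ℂ := fun z =>
      ((starRingEnd ℂ) (secC z) * (S (Φ z)).1 + secT z * (S (Φ z)).2) / secN z
    have hSΦ : ContinuousOn (fun z => S (Φ z)) (closedBall 0 1) :=
      hS.comp hΦ fun z hz => hΦK ⟨z, hz, rfl⟩
    have hlc : ContinuousOn lam (closedBall 0 1) :=
      (((Complex.continuous_conj.comp continuous_secC).continuousOn.mul
        (continuous_fst.comp_continuousOn hSΦ)).add (continuous_secT.continuousOn.mul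
        (continuous_snd.comp_continuousOn hSΦ))).div continuous_secN.continuousOn
        fun z _ => secN_ne_zero z
    have hrep : ∀ z ∈ closedBall (0 : Fin 2 → ℝ) 1,
        S (Φ z) = (lam z * secC z, lam z * secT z) := by
      intro z hz
      have hp := hSP _ (hΦK ⟨z, hz, rfl⟩)
      rcases (mem_closedBall.1 hz).lt_or_eq with h | h
      · obtain ⟨hO, hζ⟩ := h1 z h
        rw [hPin _ hO, hζ] at hp
        exact hp.symm
      · have hz' : z ∈ sphere (0 : Fin 2 → ℝ) 1 := h
        rw [hPout _ (h2 z hz')] at hp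
        have ht := secT_sphere hz'
        have hN := secN_ne_zero z
        rw [← hp]
        ext
        · simp only [lam]; field_simp; simp [secN, ht]; ring
        · simp [ht]
    have hl0 : ∀ z ∈ closedBall (0 : Fin 2 → ℝ) 1, lam z ≠ 0 := by
      intro z hz h0
      apply hS0 _ (hΦK ⟨z, hz, rfl⟩)
      rw [hrep z hz, h0]; simp
    rw [← wd_bet hlc hl0]
    congr 1
    funext t
    exact congrArg Prod.fst (hrep _ (sphere_subset_closedBall (bet_mem t)))

end Crest.Agent.R197
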