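import Crest.Agent.R197.CW1
import Crest.Agent.R197.Sec

/-! Lifted 2-cells in a contractible cover. -/

set_option autoImplicit false

namespace Crest.Agent.R197

open Set Metric Topology unitInterval

variable {X : Type} [TopologicalSpace X] [CWComplex (univ : Set X)] [T2Space X]

variable {E : Type} [TopologicalSpace E] {p : E → X}

theorem exists_cell_lift (hp : IsCoveringMap p) (d : Cell X 2) (e : E)
    (he : p e = chm 2 d (bet 0)) : ∃ Φ : (Fin 2 → ℝ) → E, ContinuousOn Φ (closedBall 0 1) ∧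
      (∀ z ∈ closedBall (0 : Fin 2 → ℝ) 1, p (Φ z) = chm 2 d z) ∧ Φ (bet 0) = e := by
  classical
  have hc : Convex ℝ (closedBall (0 : Fin 2 → ℝ) 1) := convex_closedBall _ _
  have hb : bet 0 ∈ closedBall (0 : Fin 2 → ℝ) 1 := sphere_subset_closedBall (bet_mem 0)
  have := hc.contractibleSpace ⟨_, hb⟩
  have := hc.locallyPathConnectedSpace
  obtain ⟨F, ⟨h0, hF⟩, -⟩ := hp.existsUnique_continuousMap_lifts
    (A := closedBall (0 : Fin 2 → ℝ) 1)
    ⟨fun z => chm 2 d z, (RelCWComplex.continuousOn 2 d).domRestrict⟩ ⟨_, hb⟩ e he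
  refine ⟨fun z => if hz : z ∈ closedBall (0 : Fin 2 → ℝ) 1 then F ⟨z, hz⟩ else e, ?_,
    fun z hz => ?_, ?_⟩
  · rw [continuousOn_iff_continuous_domRestrict]
    refine F.continuous.congr fun z => ?_
    simp only [domRestrict_apply, dif_pos z.2]
  · simp only [dif_pos hz]
    exact congrFun hF ⟨z, hz⟩
  · simp only [dif_pos hb]
    exact h0

theorem cell_lift_unique (hp : IsCoveringMap p) {Φ Ψ : (Fin 2 → ℝ) → E}
    (hΦ : ContinuousOn Φ (closedBall 0 1)) (hΨ : ContinuousOn Ψ (closedBall 0 1))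
    (h : ∀ z ∈ closedBall (0 : Fin 2 → ℝ) 1, p (Φ z) = p (Ψ z)) {z₀ : Fin 2 → ℝ}
    (hz₀ : z₀ ∈ closedBall (0 : Fin 2 → ℝ) 1) (h0 : Φ z₀ = Ψ z₀) :
    ∀ z ∈ closedBall (0 : Fin 2 → ℝ) 1, Φ z = Ψ z := by
  exact hp.eqOn_of_comp_eqOn (convex_closedBall _ _).isPreconnected hΦ hΨ h hz₀ h0

omit [CWComplex (univ : Set X)] in
theorem cw7_t2 (hp : IsCoveringMap p) : T2Space E := by
  refine ⟨fun x y hxy => ?_⟩
  by_cases h : p x = p y
  · exact hp.isSeparatedMap x y h hxy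
  · exact separated_by_continuous hp.continuous h

theorem cw7_continuousOn_image {A B C : Type*} [TopologicalSpace A] [TopologicalSpace B]
    [TopologicalSpace C] [T2Space A] [T2Space B] {s : Set A} (hs : IsCompact s) {f : A → B}
    (hf : ContinuousOn f s) {g : B → C} (hg : ContinuousOn (g ∘ f) s) :
    ContinuousOn g (f '' s) := by
  refine continuousOn_iff_isClosed.2 fun t ht => ⟨f '' (s ∩ (g ∘ f) ⁻¹' t), ?_, ?_⟩
  · exact ((hs.of_isClosed_subset (hg.preimage_isClosed_of_isClosed hs.isClosed ht)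
      inter_subset_left).image_of_continuousOn (hf.mono inter_subset_left)).isClosed
  · ext y
    constructor
    · rintro ⟨h1, a, ha, rfl⟩
      exact ⟨⟨a, ⟨ha, h1⟩, rfl⟩, a, ha, rfl⟩
    · rintro ⟨⟨a, ⟨ha, h1⟩, rfl⟩, -⟩
      exact ⟨h1, a, ha, rfl⟩

omit [T2Space X] in
theorem cw7_symm (d : Cell X 2) {z : Fin 2 → ℝ} (hz : z ∈ ball (0 : Fin 2 → ℝ) 1) :
    (chm 2 d).symm (chm 2 d z) = z :=
  (chm 2 d).left_inv (by rw [RelCWComplex.source_eq]; exact hz)

omit [T2Space X] in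
theorem cw7_target (d : Cell X 2) : (chm 2 d).target = oc 2 d := by
  rw [← (chm 2 d).image_source_eq_target, RelCWComplex.source_eq]
  rfl

theorem cw7_isOpen (h : Dim2 X) (hp : IsCoveringMap p) (d : Cell X 2) {Φ : (Fin 2 → ℝ) → E}
    (hΦ : ContinuousOn Φ (closedBall 0 1))
    (hl : ∀ z ∈ closedBall (0 : Fin 2 → ℝ) 1, p (Φ z) = chm 2 d z) :
    IsOpen (Φ '' ball 0 1) := by
  refine isOpen_iff_mem_nhds.2 ?_
  rintro _ ⟨z, hz, rfl⟩
  obtain ⟨U, hU, hzU, hinj⟩ := hp.isLocalHomeomorph.isLocallyInjective (Φ z)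
  have hpz : p (Φ z) = chm 2 d z := hl z (ball_subset_closedBall hz)
  have hoc : oc 2 d ∈ 𝓝 (p (Φ z)) := (isOpen_oc2 h d).mem_nhds (hpz ▸ ⟨z, hz, rfl⟩)
  have h1 : ContinuousAt (chm 2 d).symm (p (Φ z)) :=
    (RelCWComplex.continuousOn_symm 2 d).continuousAt (by rw [cw7_target]; exact hoc)
  have h2 : (chm 2 d).symm (p (Φ z)) = z := by rw [hpz, cw7_symm d hz]
  have h3 : ContinuousAt Φ ((chm 2 d).symm (p (Φ z))) := by
    rw [h2]
    exact hΦ.continuousAt (Filter.mem_of_superset (isOpen_ball.mem_nhds hz) ball_subset_closedBall)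
  have h4 : ContinuousAt (fun y => Φ ((chm 2 d).symm (p y))) (Φ z) :=
    ContinuousAt.comp (g := Φ) (f := fun y => (chm 2 d).symm (p y)) h3
      (ContinuousAt.comp (g := (chm 2 d).symm) h1 hp.continuous.continuousAt)
  have h5 : U ∈ 𝓝 (Φ ((chm 2 d).symm (p (Φ z)))) := by rw [h2]; exact hU.mem_nhds hzU
  filter_upwards [hU.mem_nhds hzU, hp.continuous.continuousAt hoc, h4 h5] with y hy1 hy2 hy3
  obtain ⟨w, hw, hw'⟩ := hy2
  have h6 : (chm 2 d).symm (p y) = w := by rw [← hw']; exact cw7_symm d hw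
  refine ⟨w, hw, hinj (h6 ▸ hy3) hy1 ?_⟩
  rw [hl w (ball_subset_closedBall hw)]
  exact hw'

/-- A function on a compact part of the cover that vanishes at most at the centre of a given
lifted cell and winds once around it. -/
theorem exists_cell_fun (h : Dim2 X) (hp : IsCoveringMap p) [ContractibleSpace E]
    (d : Cell X 2) (Φ : (Fin 2 → ℝ) → E) (hΦ : ContinuousOn Φ (closedBall 0 1))
    (hl : ∀ z ∈ closedBall (0 : Fin 2 → ℝ) 1, p (Φ z) = chm 2 d z) {K : Set E}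
    (hK : IsCompact K) (hΦK : Φ '' closedBall 0 1 ⊆ K) :
    ∃ f : E → ℂ, ContinuousOn f K ∧ (∀ x ∈ K, x ≠ Φ 0 → f x ≠ 0) ∧
      wd (fun t => f (Φ (bet t))) = 2 * Real.pi * Complex.I := by
  have := cw7_t2 hp
  have hζ : ∀ z ∈ ball (0 : Fin 2 → ℝ) 1, (chm 2 d).symm (p (Φ z)) = z := fun z hz => by
    rw [hl z (ball_subset_closedBall hz), cw7_symm d hz]
  have h2 : ∀ z ∈ sphere (0 : Fin 2 → ℝ) 1, Φ z ∉ Φ '' ball 0 1 := by
    rintro z hz ⟨w, hw, e⟩
    refine chm_sphere_mem_X1 d hz d ⟨w, hw, ?_⟩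
    rw [← hl w (ball_subset_closedBall hw), e]
    exact hl z (sphere_subset_closedBall hz)
  have hc : ∀ k : (Fin 2 → ℝ) → ℂ, ContinuousOn k (closedBall 0 1) →
      (∀ z ∈ sphere (0 : Fin 2 → ℝ) 1, k z = 0) →
      Continuous ((Φ '' ball 0 1).indicator fun x => k ((chm 2 d).symm (p x))) := by
    intro k hk hk0
    have hcov : Φ '' closedBall 0 1 ∪ (Φ '' ball 0 1)ᶜ = univ := by
      refine eq_univ_of_forall fun x => ?_
      by_cases hx : x ∈ Φ '' ball 0 1
      · exact Or.inl (image_mono ball_subset_closedBall hx)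
      · exact Or.inr hx
    rw [← continuousOn_univ, ← hcov]
    refine ContinuousOn.union_of_isClosed ?_ ?_
      ((isCompact_closedBall _ _).image_of_continuousOn hΦ).isClosed
      (cw7_isOpen h hp d hΦ hl).isClosed_compl
    · refine cw7_continuousOn_image (isCompact_closedBall _ _) hΦ (hk.congr fun z hz => ?_)
      rcases (mem_closedBall.1 hz).eq_or_lt with e | e
      · rw [Function.comp_apply, indicator_of_notMem (h2 z e), hk0 z e]
      · rw [Function.comp_apply, indicator_of_mem (mem_image_of_mem Φ (mem_ball.2 e)), hζ z e]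
    · exact continuousOn_const.congr fun x hx => indicator_of_notMem hx _
  obtain ⟨f, hf, h0, hw⟩ := exists_winding_fun (Φ '' ball 0 1) (fun x => (chm 2 d).symm (p x)) Φ hΦ
    (fun z hz => ⟨⟨z, hz, rfl⟩, hζ z hz⟩) h2
    (by rintro _ ⟨z, hz, rfl⟩; rw [hζ z hz]; exact hz) hc hK hΦK
  refine ⟨f, hf, fun x hx hne => h0 x hx ?_, hw⟩
  rintro ⟨z, hz, rfl⟩ e
  rw [hζ z hz] at e
  exact hne (by rw [e])

end Crest.Agent.R197
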