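import Crest.Agent.R197.CW7

/-! Injectivity of the cellular boundary map of a contractible cover. -/

set_option autoImplicit false

namespace Crest.Agent.R197

open Set Metric Topology unitInterval

variable {X : Type} [TopologicalSpace X] [CWComplex (univ : Set X)] [T2Space X]

theorem cw8_symm_trans {Y : Type} [TopologicalSpace Y] {x y z : Y} (γ : Path.Homotopic.Quotient x y)
    (δ : Path.Homotopic.Quotient y z) : γ.symm.trans (γ.trans δ) = δ := by
  rw [← Path.Homotopic.Quotient.trans_assoc, Path.Homotopic.Quotient.symm_trans,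
    Path.Homotopic.Quotient.refl_trans]

theorem cw8_trans_symm {Y : Type} [TopologicalSpace Y] {x y z : Y} (γ : Path.Homotopic.Quotient x y)
    (δ : Path.Homotopic.Quotient x z) : γ.trans (γ.symm.trans δ) = δ := by
  rw [← Path.Homotopic.Quotient.trans_assoc, Path.Homotopic.Quotient.trans_symm,
    Path.Homotopic.Quotient.refl_trans]

theorem lift_gphi_word {v0 : Cell X 0} (κ : ∀ v, Path (vpt v0) (vpt v)) {v w : Cell X 0}
    (l : CP v w) : FreeGroup.lift (gphi κ) l.word =
      cls (((κ v).trans (l.path edge)).trans (κ w).symm) := by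
  induction l with
  | nil v =>
    simp only [EP.word, EP.path, map_one, cls]
    rw [← MulOpposite.op_one]
    congr 1
    simp only [Path.map_trans, ← Path.map_symm, Path.Homotopic.Quotient.mk_trans,
      Path.Homotopic.Quotient.mk_symm, FundamentalGroup.one_def]
    have : (Path.refl (vpt v)).map continuous_subtype_val = Path.refl (vpt v : X) := rfl
    rw [this, Path.Homotopic.Quotient.mk_refl, Path.Homotopic.Quotient.trans_refl,
      Path.Homotopic.Quotient.trans_symm]
  | fwd e l ih =>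
    simp only [EP.word, EP.path, map_mul, FreeGroup.lift_apply_of, ih, gphi, cls]
    rw [← MulOpposite.op_mul, FundamentalGroup.mul_def]
    congr 1
    simp only [Path.map_trans, ← Path.map_symm, Path.Homotopic.Quotient.mk_trans,
      Path.Homotopic.Quotient.mk_symm, Path.Homotopic.Quotient.trans_assoc, cw8_symm_trans]
  | bwd e l ih =>
    simp only [EP.word, EP.path, map_mul, map_inv, FreeGroup.lift_apply_of, ih]
    rw [inv_mul_eq_iff_eq_mul]
    simp only [gphi, cls]
    rw [← MulOpposite.op_mul, FundamentalGroup.mul_def]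
    congr 1
    simp only [Path.map_trans, ← Path.map_symm, Path.Homotopic.Quotient.mk_trans,
      Path.Homotopic.Quotient.mk_symm, Path.Homotopic.Quotient.trans_assoc, cw8_symm_trans,
      cw8_trans_symm]

omit [CWComplex (univ : Set X)] [T2Space X] in
theorem cw8_mono_inj {E : Type} [TopologicalSpace E] [ContractibleSpace E] {p : E → X}
    (hp : IsCoveringMap p) {x y : X} (e : p ⁻¹' {x}) {γ γ' : Path.Homotopic.Quotient x y}
    (h : hp.monodromy γ e = hp.monodromy γ' e) : γ = γ' := by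
  obtain ⟨P, rfl⟩ := Path.Homotopic.Quotient.mk_surjective γ
  obtain ⟨P', rfl⟩ := Path.Homotopic.Quotient.mk_surjective γ'
  let Γ : Path (e : E) (hp.monodromy (.mk P) e : E) :=
    ⟨hp.liftPath P e (P.source.trans e.2.symm), hp.liftPath_zero .., rfl⟩
  let Γ' : Path (e : E) (hp.monodromy (.mk P) e : E) :=
    ⟨hp.liftPath P' e (P'.source.trans e.2.symm), hp.liftPath_zero .., by rw [h]; rfl⟩
  obtain ⟨F⟩ := SimplyConnectedSpace.paths_homotopic Γ Γ'
  refine Path.Homotopic.Quotient.eq.2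
    ⟨(ContinuousMap.HomotopyRel.compContinuousMap F ⟨p, hp.continuous⟩).cast ?_ ?_⟩
  · exact ContinuousMap.ext (congrFun (hp.liftPath_lifts P e (P.source.trans e.2.symm)))
  · exact ContinuousMap.ext (congrFun (hp.liftPath_lifts P' e (P'.source.trans e.2.symm)))

omit [T2Space X] in
theorem cw8_lift {E : Type} [TopologicalSpace E] {p : E → X} (hp : IsCoveringMap p)
    {y y' : Yset X} (γ : Path y y') (e : p ⁻¹' {(y : X)}) :
    ∃ Γ : Path (e : E) (hp.monodromy (.mk (γ.map continuous_subtype_val)) e : E),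
      ∀ t, p (Γ t) = γ t :=
  ⟨⟨hp.liftPath (γ.map continuous_subtype_val) e
    ((γ.map continuous_subtype_val).source.trans e.2.symm), hp.liftPath_zero .., rfl⟩,
    congrFun (hp.liftPath_lifts (γ.map continuous_subtype_val) e
      ((γ.map continuous_subtype_val).source.trans e.2.symm))⟩

theorem cw8_mem_trans {E : Type} [TopologicalSpace E] {K : Set E} {a b c : E} {P : Path a b}
    {Q : Path b c} (h : ∀ t, P.trans Q t ∈ K) : (∀ t, P t ∈ K) ∧ ∀ t, Q t ∈ K := by
  have h1 : range (P.trans Q) ⊆ K := range_subset_iff.2 h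
  rw [Path.trans_range, union_subset_iff, range_subset_iff, range_subset_iff] at h1
  exact h1

omit [T2Space X] in
theorem cw8_lifts_trans {E : Type} [TopologicalSpace E] {p : E → X} {a b c : E} {P : Path a b}
    {Q : Path b c} {x y z : Yset X} {γ : Path x y} {γ' : Path y z} (h : ∀ t, p (P t) = γ t)
    (h' : ∀ t, p (Q t) = γ' t) (t : I) : p (P.trans Q t) = γ.trans γ' t := by
  simp only [Path.trans_apply]
  split_ifs
  · exact h _
  · exact h' _

/-- winding along lifted edge paths -/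
theorem cw8_edge_path {E G : Type} [TopologicalSpace E] [Group G] {p : E → X}
    (φ : Cell X 1 → G) (vt : G → Cell X 0 → E)
    (le : ∀ g e, Path (vt g (esrc e)) (vt (g * φ e) (etgt e)))
    (hle : ∀ g e t, p (le g e t) = edge e t) (hvt : ∀ g v, p (vt g v) = vpt v)
    {v w : Cell X 0} (l : CP v w) : ∀ g, ∃ (b : E) (Γ : Path (vt g v) b),
      (∀ t, p (Γ t) = l.path edge t) ∧ ∀ (f : E → ℂ) (K : Set E), ContinuousOn f K →
        (∀ x ∈ K, f x ≠ 0) → (∀ t, Γ t ∈ K) → wd (fun t => f (Γ t)) =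
          Finsupp.linearCombination ℤ (fun x : G × Cell X 1 => wd fun t => f (le x.1 x.2 t))
            (chain φ l.word g) := by
  induction l with
  | nil v =>
    intro g
    refine ⟨_, Path.refl _, fun t => hvt g v, fun f K _ _ _ => ?_⟩
    simp only [EP.word, chain_one, map_zero]
    exact wd_const (f (vt g v))
  | fwd e l ih =>
    intro g
    obtain ⟨b, Γ, h1, h2⟩ := ih (g * φ e)
    refine ⟨b, (le g e).trans Γ, cw8_lifts_trans (hle g e) h1, fun f K hf h0 hK => ?_⟩
    obtain ⟨k1, k2⟩ := cw8_mem_trans hK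
    rw [wd_trans hf h0 _ _ k1 k2, h2 f K hf h0 k2]
    simp [EP.word, chain_mul]
  | bwd e l ih =>
    intro g
    obtain ⟨g, rfl⟩ : ∃ g', g = g' * φ e := ⟨g * (φ e)⁻¹, by simp⟩
    obtain ⟨b, Γ, h1, h2⟩ := ih g
    refine ⟨b, (le g e).symm.trans Γ,
      cw8_lifts_trans (γ := (edge e).symm) (fun t => hle g e _) h1, fun f K hf h0 hK => ?_⟩
    obtain ⟨k1, k2⟩ := cw8_mem_trans hK
    have k3 : ∀ t, le g e t ∈ K := fun t => by simpa using k1 (σ t)
    rw [wd_trans hf h0 _ _ k1 k2, h2 f K hf h0 k2, wd_symm hf h0 _ k3]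
    simp [EP.word, chain_mul, chain_inv]

/-- the boundary of a lifted cell is homotopic, over `Yset`, to the lifted attaching word -/
theorem cw8_cell {E : Type} [TopologicalSpace E] {p : E → X} (hp : IsCoveringMap p)
    {d : Cell X 2} (a : Att d) {e q b : E} (Δ : Path e q) (hΔ : ∀ t, p (Δ t) = a.δ t)
    (Γ : Path e b) (hΓ : ∀ t, p (Γ t) = a.l.path edge t) :
    ∃ (Φ : (Fin 2 → ℝ) → E) (C : Set E), ContinuousOn Φ (closedBall 0 1) ∧
      (∀ z ∈ closedBall (0 : Fin 2 → ℝ) 1, p (Φ z) = chm 2 d z) ∧ Φ (bet 0) = q ∧ IsCompact C ∧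
      (∀ x ∈ C, p x ∈ Yset X) ∧ (∀ t, Γ t ∈ C) ∧ ∀ (f : E → ℂ) (K : Set E), ContinuousOn f K →
        (∀ x ∈ K, f x ≠ 0) → C ⊆ K → wd (fun t => f (Φ (bet t))) = wd fun t => f (Γ t) := by
  have hq : p q = chm 2 d (bet 0) := by
    have := hΔ 1
    rw [Δ.target, a.δ.target] at this
    exact this
  obtain ⟨Φ, h1, h2, h3⟩ := exists_cell_lift hp d q hq
  let B : Path q q :=
    { toFun := fun t => Φ (bet t)
      continuous_toFun := h1.comp_continuous (f := fun t : I => bet t)
        (continuous_bet.comp continuous_subtype_val) fun t => sphere_subset_closedBall (bet_mem t)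
      source' := by simpa using h3
      target' := by
        have := bet_add_one 0
        rw [zero_add] at this
        simpa [this] using h3 }
  have hB : ∀ t, p (B t) = bloop d t := fun t => h2 _ (sphere_subset_closedBall (bet_mem t))
  have hL : ∀ t, p ((Δ.trans B).trans Δ.symm t) = (a.δ.trans (bloop d)).trans a.δ.symm t :=
    cw8_lifts_trans (cw8_lifts_trans hΔ hB) (γ' := a.δ.symm) fun t => hΔ _
  obtain ⟨H⟩ := a.hom
  let H' := ContinuousMap.HomotopyRel.compContinuousMap H ⟨Subtype.val, continuous_subtype_val⟩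
  let F := hp.liftHomotopyRel H' (f₀' := ((Δ.trans B).trans Δ.symm).toContinuousMap)
    (f₁' := Γ.toContinuousMap) ⟨0, Or.inl rfl, by simp⟩ (funext hL) (funext hΓ)
  have hF : ∀ z, p (F z) = H z := fun z =>
    congrFun (hp.liftHomotopy_lifts H'.toContinuousMap ((Δ.trans B).trans Δ.symm).toContinuousMap
      fun t => (H'.apply_zero t).trans (hL t).symm) z
  have F0 : ∀ t, F (0, t) = (Δ.trans B).trans Δ.symm t := fun t => F.apply_zero t
  have F1 : ∀ t, F (1, t) = Γ t := fun t => F.apply_one t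
  refine ⟨Φ, range F, h1, h2, h3, isCompact_range F.continuous, ?_, fun t => ⟨_, F1 t⟩, ?_⟩
  · rintro _ ⟨z, rfl⟩
    rw [hF]
    exact (H z).2
  · intro f K hf h0 hK
    have hK' : ∀ z, F z ∈ K := fun z => hK ⟨z, rfl⟩
    have h4 := wd_homotopy (F := fun z => f (F z)) (hf.comp_continuous F.continuous hK')
      (fun z => h0 _ (hK' z))
      (fun s => by rw [F.eq_fst s (Or.inl rfl), F.eq_fst 0 (Or.inl rfl)])
      (fun s => by rw [F.eq_fst s (Or.inr rfl), F.eq_fst 0 (Or.inr rfl)])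
    simp only [F0, F1] at h4
    obtain ⟨k1, k2⟩ := cw8_mem_trans (P := Δ.trans B) (Q := Δ.symm) fun t => F0 t ▸ hK' (0, t)
    obtain ⟨k3, k4⟩ := cw8_mem_trans k1
    rw [wd_trans hf h0 _ _ k1 k2, wd_trans hf h0 _ _ k3 k4, wd_symm hf h0 _ k3] at h4
    rw [← h4, add_comm (wd _), add_neg_cancel_right]
    rfl

theorem bd2_att_injective (h : Dim2 X) {E : Type} [TopologicalSpace E] [ContractibleSpace E]
    {p : E → X} (hp : IsCoveringMap p) (hs : Function.Surjective p) {v0 : Cell X 0}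
    (κ : ∀ v, Path (vpt v0) (vpt v)) (a : ∀ d : Cell X 2, Att d)
    (c : (FundamentalGroup X (vpt v0 : X))ᵐᵒᵖ × Cell X 2 →₀ ℤ)
    (hc : bd2 (gphi κ) (fun d => (a d).l.word) c = 0) : c = 0 := by
  classical
  obtain ⟨e0, he0⟩ := hs (vpt v0 : X)
  let vt : (FundamentalGroup X (vpt v0 : X))ᵐᵒᵖ → ∀ v : Cell X 0, p ⁻¹' {(vpt v : X)} := fun g v =>
    hp.monodromy (.mk ((κ v).map continuous_subtype_val)) (hp.monodromy g.unop ⟨e0, he0⟩)
  have hle : ∀ g e, ∃ Γ : Path (vt g (esrc e) : E) (vt (g * gphi κ e) (etgt e) : E),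
      ∀ t, p (Γ t) = edge e t := by
    intro g e
    obtain ⟨Γ, hΓ⟩ := cw8_lift hp (edge e) (vt g (esrc e))
    have h1 : vt (g * gphi κ e) (etgt e) =
        hp.monodromy (.mk ((edge e).map continuous_subtype_val)) (vt g (esrc e)) := by
      simp only [vt, gphi, cls, MulOpposite.unop_mul, MulOpposite.unop_op,
        FundamentalGroup.mul_def, ← hp.monodromy_trans_apply]
      congr 1
      simp only [Path.map_trans, ← Path.map_symm, Path.Homotopic.Quotient.mk_trans,
        Path.Homotopic.Quotient.mk_symm, Path.Homotopic.Quotient.trans_assoc,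
        Path.Homotopic.Quotient.symm_trans, Path.Homotopic.Quotient.trans_refl]
    exact ⟨Γ.cast rfl (congrArg Subtype.val h1), hΓ⟩
  choose le hle using hle
  have hcell : ∀ x : (FundamentalGroup X (vpt v0 : X))ᵐᵒᵖ × Cell X 2,
      ∃ (Φ : (Fin 2 → ℝ) → E) (C : Set E), ContinuousOn Φ (closedBall 0 1) ∧
      (∀ z ∈ closedBall (0 : Fin 2 → ℝ) 1, p (Φ z) = chm 2 x.2 z) ∧
      Φ (bet 0) = hp.monodromy (.mk ((a x.2).δ.map continuous_subtype_val)) (vt x.1 (a x.2).v) ∧
      IsCompact C ∧ (∀ y ∈ C, p y ∈ Yset X) ∧ ∀ (f : E → ℂ) (K : Set E), ContinuousOn f K →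
        (∀ y ∈ K, f y ≠ 0) → C ⊆ K → wd (fun t => f (Φ (bet t))) =
          Finsupp.linearCombination ℤ
            (fun y : (FundamentalGroup X (vpt v0 : X))ᵐᵒᵖ × Cell X 1 => wd fun t => f (le y.1 y.2 t))
            (chain (gphi κ) (a x.2).l.word x.1) := by
    rintro ⟨g, d⟩
    obtain ⟨Δ, hΔ⟩ := cw8_lift hp (a d).δ (vt g (a d).v)
    obtain ⟨b, Γ, h1, h2⟩ := cw8_edge_path (gphi κ) (fun g v => (vt g v : E)) le hle
      (fun g v => (vt g v).2) (a d).l g
    obtain ⟨Φ, C, a1, a2, a3, a4, a5, a6, a7⟩ := cw8_cell hp (a d) Δ hΔ Γ h1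
    exact ⟨Φ, C, a1, a2, a3, a4, a5, fun f K hf h0 hK =>
      (a7 f K hf h0 hK).trans (h2 f K hf h0 fun t => hK (a6 t))⟩
  choose Φ C hΦ1 hΦ2 hΦ3 hC1 hC2 hwd using hcell
  by_contra hne
  obtain ⟨x0, hx0⟩ := Finsupp.support_nonempty_iff.2 hne
  set K : Set E := ⋃ x ∈ c.support, (Φ x '' closedBall 0 1 ∪ C x) with hK
  have hKc : IsCompact K := c.support.isCompact_biUnion fun x _ =>
    ((isCompact_closedBall 0 1).image_of_continuousOn (hΦ1 x)).union (hC1 x)
  have hsub : ∀ x ∈ c.support, Φ x '' closedBall 0 1 ∪ C x ⊆ K := fun x hx =>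
    subset_biUnion_of_mem (u := fun x => Φ x '' closedBall 0 1 ∪ C x) hx
  obtain ⟨f, hf1, hf2, hf3⟩ := exists_cell_fun h hp x0.2 (Φ x0) (hΦ1 x0) (hΦ2 x0) hKc
    (subset_union_left.trans (hsub x0 hx0))
  have h00 : (0 : Fin 2 → ℝ) ∈ closedBall (0 : Fin 2 → ℝ) 1 := by simp
  have hY : ∀ y, p y ∈ Yset X → y ≠ Φ x0 0 := by
    rintro y hy rfl
    exact hy x0.2 (hΦ2 x0 0 h00).symm
  have hval : ∀ x ∈ c.support, Finsupp.linearCombination ℤ
      (fun y : (FundamentalGroup X (vpt v0 : X))ᵐᵒᵖ × Cell X 1 => wd fun t => f (le y.1 y.2 t))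
      (chain (gphi κ) (a x.2).l.word x.1) = wd fun t => f (Φ x (bet t)) := fun x hx =>
    (hwd x f (K \ {Φ x0 0}) (hf1.mono sdiff_subset) (fun y hy => hf2 y hy.1 hy.2)
      fun y hy => ⟨hsub x hx (Or.inr hy), hY y (hC2 x y hy)⟩).symm
  have hzero : ∀ x ∈ c.support, x ≠ x0 → (wd fun t => f (Φ x (bet t))) = 0 := by
    intro x hx hne
    refine wd_disc (g := fun z => f (Φ x z))
      (hf1.comp (hΦ1 x) fun z hz => hsub x hx (Or.inl ⟨z, hz, rfl⟩)) fun z hz => ?_
    refine hf2 _ (hsub x hx (Or.inl ⟨z, hz, rfl⟩)) fun heq => hne ?_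
    have h1 : chm 2 x.2 z = chm 2 x0.2 0 := by rw [← hΦ2 x z hz, heq, hΦ2 x0 0 h00]
    have h2 : z ∈ ball (0 : Fin 2 → ℝ) 1 := by
      rw [← ball_union_sphere] at hz
      refine hz.resolve_right fun hz' => ?_
      exact X1_subset_Yset (chm_sphere_mem_X1 x.2 hz') x0.2 h1.symm
    obtain ⟨g, d⟩ := x
    obtain ⟨g0, d0⟩ := x0
    have h3 : d = d0 := by
      by_contra h3
      refine Set.disjoint_left.1 (RelCWComplex.disjoint_openCell_of_ne (C := (univ : Set X))
        (i := d) (j := d0) (by simpa using h3)) ⟨z, h2, rfl⟩ ?_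
      exact ⟨0, by simp, h1.symm⟩
    subst h3
    have h4 : z = 0 := (chm 2 d).injOn (by rw [RelCWComplex.source_eq]; exact h2)
      (by rw [RelCWComplex.source_eq]; simp) h1
    subst h4
    have h5 := cell_lift_unique hp (hΦ1 (g, d)) (hΦ1 (g0, d))
      (fun z hz => (hΦ2 (g, d) z hz).trans (hΦ2 (g0, d) z hz).symm) h00 heq (bet 0)
      (sphere_subset_closedBall (bet_mem 0))
    rw [hΦ3, hΦ3] at h5
    have h6 := (hp.monodromy_bijective _).1 ((hp.monodromy_bijective _).1 (Subtype.ext h5))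
    exact Prod.ext (MulOpposite.unop_injective (cw8_mono_inj hp _ h6)) rfl
  have h7 := congrArg (Finsupp.linearCombination ℤ
    (fun y : (FundamentalGroup X (vpt v0 : X))ᵐᵒᵖ × Cell X 1 => wd fun t => f (le y.1 y.2 t))) hc
  rw [map_zero, bd2, Finsupp.linearCombination_apply ℤ c, Finsupp.sum, map_sum,
    Finset.sum_eq_single x0 (fun x hx hne => by rw [map_smul, hval x hx, hzero x hx hne, smul_zero])
      (fun h => absurd hx0 h), map_smul, hval x0 hx0, hf3, smul_eq_zero] at h7
  rcases h7 with h7 | h7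
  · exact Finsupp.mem_support_iff.1 hx0 h7
  · exact Complex.two_pi_I_ne_zero h7

end Crest.Agent.R197
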