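import Crest.Agent.R197.CDefs

/-! Normal form of aspherical presentations, transfer along isomorphisms. -/

set_option autoImplicit false

namespace Crest.Agent.R197

theorem nf_bd2_single {G S R : Type} [Group G] (φ : S → G) (ρ : R → FreeGroup S) (g : G) (r : R)
    (n : ℤ) : bd2 φ ρ (Finsupp.single (g, r) n) = n • chain φ (ρ r) g := by
  simp [bd2]

theorem nf_bd2_push {G Q S R : Type} [Group G] [Group Q] (π : G →* Q) (φ : S → G)
    (ρ : R → FreeGroup S) (q : Q) (c : G × R →₀ ℤ) :
    bd2 (fun s => π (φ s)) ρ (push π q c) = push π q (bd2 φ ρ c) := by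
  induction c using Finsupp.induction_linear with
  | zero => simp
  | add c c' h h' => simp [push_add, h, h']
  | single e n =>
    obtain ⟨g, r⟩ := e
    rw [push_single, nf_bd2_single, nf_bd2_single, push_smul, push_chain]

theorem nf_push_symm {G G' Y : Type} [Group G] [Group G'] (e : G ≃* G') (c : G' × Y →₀ ℤ) :
    push (e : G →* G') 1 (push (e.symm : G' →* G) 1 c) = c := by
  induction c using Finsupp.induction_linear with
  | zero => simp
  | add c c' h h' => simp [push_add, h, h']
  | single x n =>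
    obtain ⟨g, r⟩ := x
    simp

theorem AsphPres.of_mulEquiv {G G' : Type} [Group G] [Group G'] (e : G ≃* G')
    (h : AsphPres G) : AsphPres G' := by
  obtain ⟨S, R, φ, ρ, h⟩ := h
  refine ⟨S, R, fun s => (e : G →* G') (φ s), ρ, ?_, ?_, ?_⟩
  · intro g
    obtain ⟨w, hw⟩ := h.surj (e.symm g)
    exact ⟨w, by rw [lift_comp, hw]; simp⟩
  · rw [← h.ker]
    ext w
    rw [MonoidHom.mem_ker, MonoidHom.mem_ker, lift_comp]
    simp
  · intro c hc
    rw [← nf_push_symm e c, nf_bd2_push] at hc
    have h1 : bd2 φ ρ (push (e.symm : G' →* G) 1 c) = 0 := by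
      have h2 := nf_push_symm e.symm (bd2 φ ρ (push (e.symm : G' →* G) 1 c))
      rw [MulEquiv.symm_symm, hc, push_zero] at h2
      exact h2.symm
    rw [← nf_push_symm e c, h.inj _ h1, push_zero]

/-- chains of substituted words -/
theorem nf_chain_lift {Q S S' : Type} [Group Q] (ψ : S → Q) (θ : S' → FreeGroup S)
    (w : FreeGroup S') (q : Q) :
    chain ψ (FreeGroup.lift θ w) q =
      bd2 ψ θ (chain (fun s => FreeGroup.lift ψ (θ s)) w q) := by
  unfold bd2
  rw [linearCombination_chain]
  unfold chain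
  rw [hol_lift]
  rfl

theorem nf_lift_map {G A T : Type} [Group G] (φ : A → G) (w : FreeGroup A) :
    FreeGroup.lift (nf φ T) (FreeGroup.map Sum.inl w) = FreeGroup.lift φ w := by
  induction w using FreeGroup.induction_on with
  | C1 => simp
  | of s => simp [nf]
  | inv_of s ih => simp [nf]
  | mul x y hx hy => simp [hx, hy]

theorem nf_tpart_inl {Q A T : Type} (q : Q) (a : A) (n : ℤ) :
    tpart (Finsupp.single (q, (Sum.inl a : A ⊕ T)) n) = 0 := by
  simp [tpart]

theorem nf_tpart_inr {Q A T : Type} (q : Q) (t : T) (n : ℤ) :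
    tpart (Finsupp.single (q, (Sum.inr t : A ⊕ T)) n) = Finsupp.single (q, t) n := by
  simp [tpart]

theorem nf_tpart_map {Q A T : Type} [Group Q] (ψ : A ⊕ T → Q) (w : FreeGroup A) (q : Q) :
    tpart (chain ψ (FreeGroup.map Sum.inl w) q) = 0 := by
  induction w using FreeGroup.induction_on generalizing q with
  | C1 => simp
  | of s => rw [FreeGroup.map.of, chain_of, nf_tpart_inl]
  | inv_of s ih => rw [map_inv, chain_inv, map_neg, ih, neg_zero]
  | mul x y hx hy => rw [map_mul, chain_mul, map_add, hx, hy, add_zero]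

/-- Any aspherical presentation can be changed into one on the letters `A ⊕ T` with the
`T`-letters trivial. -/
theorem normal_form {G A : Type} [Group G] (φ : A → G)
    (hφ : Function.Surjective (FreeGroup.lift φ)) (h : AsphPres G) :
    ∃ (T R : Type) (ρ : R → FreeGroup (A ⊕ T)), IsAsph (nf φ T) ρ := by
  obtain ⟨S, R, φS, ρ, h⟩ := h
  choose v hv using fun s => hφ (φS s)
  choose u hu using fun a => h.surj (φ a)
  let θ0 : S → FreeGroup (A ⊕ S) := fun s =>
    FreeGroup.of (Sum.inr s) * FreeGroup.map Sum.inl (v s)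
  have hθ0 : ∀ s, FreeGroup.lift (nf φ S) (θ0 s) = φS s := fun s => by
    show FreeGroup.lift (nf φ S) (FreeGroup.of (Sum.inr s) * FreeGroup.map Sum.inl (v s)) = _
    rw [map_mul, nf_lift_map, hv]
    simp [nf]
  have hθ0' : (fun s => FreeGroup.lift (nf φ S) (θ0 s)) = φS := funext hθ0
  have hθ : ∀ y, FreeGroup.lift (nf φ S) (FreeGroup.lift θ0 y) = FreeGroup.lift φS y :=
    fun y => by rw [← lift_comp, hθ0']
  let ρ' : R ⊕ A → FreeGroup (A ⊕ S) := Sum.elim (fun r => FreeGroup.lift θ0 (ρ r))
    fun a => (FreeGroup.of (Sum.inl a))⁻¹ * FreeGroup.lift θ0 (u a)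
  have hρ : ∀ r, FreeGroup.lift φS (ρ r) = 1 := fun r => by
    rw [← MonoidHom.mem_ker, h.ker]
    exact Subgroup.subset_normalClosure ⟨r, rfl⟩
  refine ⟨S, R ⊕ A, ρ', ?_, ?_, ?_⟩
  · intro g
    obtain ⟨w, hw⟩ := hφ g
    exact ⟨FreeGroup.map Sum.inl w, by rw [nf_lift_map, hw]⟩
  · have hle : Subgroup.normalClosure (Set.range ρ') ≤ (FreeGroup.lift (nf φ S)).ker := by
      refine Subgroup.normalClosure_le_normal ?_
      rintro _ ⟨r | a, rfl⟩
      · show FreeGroup.lift (nf φ S) (FreeGroup.lift θ0 (ρ r)) = 1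
        rw [hθ, hρ]
      · show FreeGroup.lift (nf φ S)
          ((FreeGroup.of (Sum.inl a))⁻¹ * FreeGroup.lift θ0 (u a)) = 1
        rw [map_mul, hθ, hu]
        simp [nf]
    refine le_antisymm ?_ hle
    set N := Subgroup.normalClosure (Set.range ρ') with hN
    let f : FreeGroup S →* FreeGroup (A ⊕ S) ⧸ N :=
      (QuotientGroup.mk' N).comp (FreeGroup.lift θ0)
    have h1 : ∀ a, QuotientGroup.mk' N (FreeGroup.of (Sum.inl a)) ∈ f.range := fun a => by
      refine ⟨u a, ?_⟩
      show ((FreeGroup.lift θ0 (u a) : FreeGroup (A ⊕ S)) : FreeGroup (A ⊕ S) ⧸ N) =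
        (FreeGroup.of (Sum.inl a) : FreeGroup (A ⊕ S))
      rw [eq_comm, QuotientGroup.eq]
      exact Subgroup.subset_normalClosure ⟨Sum.inr a, rfl⟩
    have h2 : ∀ w : FreeGroup A, QuotientGroup.mk' N (FreeGroup.map Sum.inl w) ∈ f.range :=
      fun w => by
      induction w using FreeGroup.induction_on with
      | C1 => rw [map_one, map_one]; exact one_mem _
      | of a => rw [FreeGroup.map.of]; exact h1 a
      | inv_of a ih => rw [map_inv, map_inv]; exact inv_mem ih
      | mul x y hx hy => rw [map_mul, map_mul]; exact mul_mem hx hy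
    have h3 : ∀ s, QuotientGroup.mk' N (FreeGroup.of (Sum.inr s)) ∈ f.range := fun s => by
      have h4 : f (FreeGroup.of s) = QuotientGroup.mk' N (FreeGroup.of (Sum.inr s)) *
          QuotientGroup.mk' N (FreeGroup.map Sum.inl (v s)) := by
        rw [← map_mul]
        show QuotientGroup.mk' N (FreeGroup.lift θ0 (FreeGroup.of s)) = _
        rw [FreeGroup.lift_apply_of]
      rw [← mul_inv_eq_iff_eq_mul] at h4
      rw [← h4]
      exact mul_mem ⟨_, rfl⟩ (inv_mem (h2 _))
    have h4 : ∀ w : FreeGroup (A ⊕ S), QuotientGroup.mk' N w ∈ f.range := fun w => by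
      induction w using FreeGroup.induction_on with
      | C1 => rw [map_one]; exact one_mem _
      | of a =>
        rcases a with a | s
        · exact h1 a
        · exact h3 s
      | inv_of a ih => rw [map_inv]; exact inv_mem ih
      | mul x y hx hy => rw [map_mul]; exact mul_mem hx hy
    have h5 : Subgroup.normalClosure (Set.range ρ) ≤ N.comap (FreeGroup.lift θ0) := by
      refine Subgroup.normalClosure_le_normal ?_
      rintro _ ⟨r, rfl⟩
      exact Subgroup.subset_normalClosure ⟨Sum.inl r, rfl⟩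
    intro w hw
    obtain ⟨y, hy⟩ := h4 w
    have h6 : (FreeGroup.lift θ0 y)⁻¹ * w ∈ N := QuotientGroup.eq.1 hy
    have h7 : y ∈ (FreeGroup.lift φS).ker := by
      have h8 := hle h6
      rw [MonoidHom.mem_ker, map_mul, MonoidHom.mem_ker.1 hw, mul_one, map_inv, hθ,
        inv_eq_one] at h8
      exact h8
    rw [h.ker] at h7
    have h8 : FreeGroup.lift θ0 y ∈ N := h5 h7
    have h9 := mul_mem h8 h6
    rwa [mul_inv_cancel_left] at h9
  · have hch : ∀ y g, chain (nf φ S) (FreeGroup.lift θ0 y) g = bd2 (nf φ S) θ0 (chain φS y g) :=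
      fun y g => by rw [nf_chain_lift, hθ0']
    have htp : ∀ c, tpart (bd2 (nf φ S) θ0 c) = c := fun c => by
      induction c using Finsupp.induction_linear with
      | zero => simp
      | add c c' h h' => rw [map_add, map_add, h, h']
      | single x n =>
        obtain ⟨g, s⟩ := x
        rw [nf_bd2_single, map_smul]
        show n • tpart (chain (nf φ S)
          (FreeGroup.of (Sum.inr s) * FreeGroup.map Sum.inl (v s)) g) = _
        rw [chain_mul, map_add, nf_tpart_map, chain_of, nf_tpart_inr]
        simp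
    let Z : (G × (R ⊕ A) →₀ ℤ) →ₗ[ℤ] (G × (A ⊕ S) →₀ ℤ) := Finsupp.linearCombination ℤ
      fun e => Sum.elim (fun _ => 0) (fun a => Finsupp.single (e.1 * (φ a)⁻¹, Sum.inl a) 1) e.2
    let C : (G × (R ⊕ A) →₀ ℤ) →ₗ[ℤ] (G × R →₀ ℤ) := Finsupp.linearCombination ℤ
      fun e => Sum.elim (fun r => Finsupp.single (e.1, r) 1) (fun _ => 0) e.2
    let W : (G × (A ⊕ S) →₀ ℤ) →ₗ[ℤ] (G × S →₀ ℤ) := Finsupp.linearCombination ℤ
      fun e => Sum.elim (fun a => chain φS (u a) e.1) (fun _ => 0) e.2
    let I1 : (G × R →₀ ℤ) →ₗ[ℤ] (G × (R ⊕ A) →₀ ℤ) := Finsupp.linearCombination ℤ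
      fun e => Finsupp.single (e.1, Sum.inl e.2) 1
    let I2 : (G × (A ⊕ S) →₀ ℤ) →ₗ[ℤ] (G × (R ⊕ A) →₀ ℤ) := Finsupp.linearCombination ℤ
      fun e => Sum.elim (fun a => Finsupp.single (e.1 * φ a, Sum.inr a) 1) (fun _ => 0) e.2
    have e1 : ∀ c, bd2 (nf φ S) ρ' c = bd2 (nf φ S) θ0 (bd2 φS ρ (C c) + W (Z c)) - Z c := by
      intro c
      induction c using Finsupp.induction_linear with
      | zero => simp
      | add c c' h h' =>
        rw [map_add, h, h']
        simp only [map_add]
        abel
      | single x n =>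
        obtain ⟨g, r | a⟩ := x
        · have c1 : C (Finsupp.single (g, Sum.inl r) n) = Finsupp.single (g, r) n := by simp [C]
          have c2 : Z (Finsupp.single (g, Sum.inl r) n) = 0 := by simp [Z]
          rw [c1, c2, nf_bd2_single, nf_bd2_single, map_zero, add_zero, sub_zero, map_smul, ← hch]
          rfl
        · have c1 : C (Finsupp.single (g, Sum.inr a) n) = 0 := by simp [C]
          have c2 : Z (Finsupp.single (g, Sum.inr a) n) =
              Finsupp.single (g * (φ a)⁻¹, Sum.inl a) n := by simp [Z]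
          have c3 : W (Finsupp.single (g * (φ a)⁻¹, Sum.inl a) n) =
              n • chain φS (u a) (g * (φ a)⁻¹) := by simp [W]
          rw [c1, c2, c3, nf_bd2_single, map_zero, zero_add, map_smul, ← hch]
          show n • chain (nf φ S) ((FreeGroup.of (Sum.inl a))⁻¹ * FreeGroup.lift θ0 (u a)) g = _
          have c4 : FreeGroup.lift (nf φ S) (FreeGroup.of (Sum.inl a)) = φ a := by simp [nf]
          rw [chain_mul, chain_inv, map_inv, c4, chain_of, smul_add, smul_neg,
            Finsupp.smul_single_one]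
          abel
    have e2 : ∀ c, tpart (Z c) = 0 := by
      intro c
      induction c using Finsupp.induction_linear with
      | zero => simp
      | add c c' h h' => rw [map_add, map_add, h, h', add_zero]
      | single x n =>
        obtain ⟨g, r | a⟩ := x
        · simp [Z]
        · simp [Z, nf_tpart_inl]
    have e3 : ∀ c, c = I1 (C c) + I2 (Z c) := by
      intro c
      induction c using Finsupp.induction_linear with
      | zero => simp
      | add c c' h h' =>
        simp only [map_add]
        rw [add_add_add_comm, ← h, ← h']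
      | single x n =>
        obtain ⟨g, r | a⟩ := x
        · simp [Z, C, I1]
        · simp [Z, C, I2]
    intro c hc
    have k1 := congrArg tpart (e1 c)
    rw [hc, map_zero, map_sub, htp, e2, sub_zero] at k1
    have k2 := e1 c
    rw [hc, ← k1, map_zero, zero_sub, eq_comm, neg_eq_zero] at k2
    rw [k2, map_zero, add_zero] at k1
    rw [e3 c, h.inj _ k1.symm, k2, map_zero, map_zero, add_zero]

end Crest.Agent.R197
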