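import Crest.Agent.R197.CW3
import Crest.Agent.R197.CW4
import Crest.Agent.R197.CW5
import Crest.Agent.R197.CW6
import Crest.Agent.R197.CW8
import Crest.Agent.R197.NF
import Crest.Prelude.Def_ClassifyingComplex

/-! A two-dimensional classifying complex gives an aspherical presentation. -/

set_option autoImplicit false

namespace Crest.Agent.R197

open Set Metric _root_.Topology unitInterval

/-- The universal holonomy of a path connected space. -/
theorem cw9_univHol {X : Type} [TopologicalSpace X] [PathConnectedSpace X] (x0 : X) :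
    ∃ H : PHol X (FundamentalGroup X x0)ᵐᵒᵖ, ∀ p : Path x0 x0,
      H.h p = MulOpposite.op (Path.Homotopic.Quotient.mk p) := by
  obtain ⟨k, hk⟩ : ∃ k : ∀ x, Path.Homotopic.Quotient x0 x, k x0 = .refl x0 :=
    ⟨fun x => (Path.Homotopic.Quotient.mk (PathConnectedSpace.somePath x0 x0)).symm.trans
      (Path.Homotopic.Quotient.mk (PathConnectedSpace.somePath x0 x)),
      Path.Homotopic.Quotient.symm_trans _⟩
  refine ⟨⟨fun {x y} p => MulOpposite.op
    (((k x).trans (Path.Homotopic.Quotient.mk p)).trans (k y).symm), fun {x y p q} h => ?_,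
    fun {x y z} p q => ?_⟩, fun p => ?_⟩
  · rw [Path.Homotopic.Quotient.eq.2 h]
  · rw [← MulOpposite.op_mul, FundamentalGroup.mul_def, Path.Homotopic.Quotient.mk_trans]
    congr 1
    simp only [Path.Homotopic.Quotient.trans_assoc]
    rw [← Path.Homotopic.Quotient.trans_assoc (k y).symm, Path.Homotopic.Quotient.symm_trans,
      Path.Homotopic.Quotient.refl_trans]
  · have h1 : (Path.Homotopic.Quotient.refl x0).symm = .refl x0 := by
      rw [← Path.Homotopic.Quotient.mk_refl, ← Path.Homotopic.Quotient.mk_symm, Path.refl_symm]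
    simp only [hk, h1, Path.Homotopic.Quotient.refl_trans, Path.Homotopic.Quotient.trans_refl]

/-- A holonomy gives a homomorphism on the fundamental group. -/
theorem cw9_hom {X U : Type} [TopologicalSpace X] [Group U] (H : PHol X U) (x0 : X) :
    ∃ θ : (FundamentalGroup X x0)ᵐᵒᵖ →* U, ∀ p : Path x0 x0,
      θ (MulOpposite.op (Path.Homotopic.Quotient.mk p)) = H.h p := by
  let f : Path.Homotopic.Quotient x0 x0 → U :=
    Quotient.lift (fun p : Path x0 x0 => H.h p) fun _ _ h => H.homotopic h
  refine ⟨MonoidHom.mk' (fun g => f g.unop) fun a b => ?_, fun p => rfl⟩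
  obtain ⟨p, hp⟩ := Path.Homotopic.Quotient.mk_surjective a.unop
  obtain ⟨q, hq⟩ := Path.Homotopic.Quotient.mk_surjective b.unop
  rw [MulOpposite.unop_mul, FundamentalGroup.mul_def, ← hp, ← hq,
    ← Path.Homotopic.Quotient.mk_trans]
  exact H.trans p q

/-- The first boundary map of the Cayley graph of a graph. -/
noncomputable def cw9_d1 {G V S : Type} [Group G] (src tgt : S → V) (φ : S → G) :
    (G × S →₀ ℤ) →ₗ[ℤ] (G × V →₀ ℤ) :=
  Finsupp.linearCombination ℤ fun x =>
    Finsupp.single (x.1 * φ x.2, tgt x.2) 1 - Finsupp.single (x.1, src x.2) 1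

theorem cw9_d1_chain {G V S : Type} [Group G] {src tgt : S → V} (φ : S → G) :
    ∀ {v w : V} (l : EP src tgt v w) (g : G), cw9_d1 src tgt φ (chain φ l.word g) =
      Finsupp.single (g * FreeGroup.lift φ l.word, w) 1 - Finsupp.single (g, v) 1
  | _, _, .nil v, g => by simp [EP.word]
  | _, _, .fwd e l, g => by
    rw [EP.word, chain_mul, map_add, cw9_d1_chain φ l]
    simp [cw9_d1, mul_assoc]
  | _, _, .bwd e l, g => by
    rw [EP.word, chain_mul, map_add, cw9_d1_chain φ l, chain_inv]
    simp [cw9_d1, mul_assoc]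

theorem cw9_inj {G V S R : Type} [Group G] {src tgt : S → V} (φ : S → G) (v0 : V) (b : R → V)
    (l : ∀ d, EP src tgt (b d) (b d)) (om : ∀ v, EP src tgt v0 v)
    (hl : ∀ d, FreeGroup.lift φ (l d).word = 1) (hom : ∀ v, FreeGroup.lift φ (om v).word = 1)
    (hinj : ∀ c : G × R →₀ ℤ, bd2 φ (fun d => (l d).word) c = 0 → c = 0)
    (c : G × (R ⊕ {v // v ≠ v0}) →₀ ℤ)
    (hc : bd2 φ (Sum.elim (fun d => (l d).word) fun v : {v // v ≠ v0} => (om v).word) c = 0) :
    c = 0 := by
  classical
  have h1 : ∀ (g : G) (v : {v // v ≠ v0}), c (g, Sum.inr v) = 0 := by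
    intro g v
    have key : (Finsupp.lapply (g, v.1) : (G × V →₀ ℤ) →ₗ[ℤ] ℤ) ∘ₗ cw9_d1 src tgt φ ∘ₗ
        bd2 φ (Sum.elim (fun d => (l d).word) fun v : {v // v ≠ v0} => (om v).word) =
        Finsupp.lapply (g, Sum.inr v) := by
      refine Finsupp.lhom_ext fun x n => ?_
      obtain ⟨g', r⟩ := x
      rcases r with d | u
      · simp [bd2, cw9_d1_chain, hl]
      · have hv : v0 ≠ v.1 := fun h => v.2 h.symm
        simp [bd2, cw9_d1_chain, hom, Finsupp.single_apply, hv, Subtype.ext_iff]
    have := LinearMap.congr_fun key c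
    simpa [hc] using this.symm
  set f : G × R → G × (R ⊕ {v // v ≠ v0}) := fun x => (x.1, Sum.inl x.2) with hf
  have hfi : Function.Injective f := fun x y h => by
    simp only [hf, Prod.mk.injEq, Sum.inl.injEq] at h
    exact Prod.ext h.1 h.2
  have h2 : Finsupp.mapDomain f (Finsupp.comapDomain f c hfi.injOn) = c := by
    refine Finsupp.mapDomain_comapDomain f hfi c ?_
    rintro ⟨g, d | u⟩ hx
    · exact ⟨(g, d), rfl⟩
    · exact absurd (h1 g u) (Finsupp.mem_support_iff.1 hx)
  rw [← h2] at hc ⊢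
  rw [bd2, Finsupp.linearCombination_mapDomain] at hc
  rw [hinj _ hc, Finsupp.mapDomain_zero]

theorem asphPres_of_classifying {G : Type} [Group G]
    (h : Crest.Topology.HasClassifyingComplex G 2) : AsphPres G := by
  obtain ⟨X, _, _, _, hdim, ⟨E, _, p, _, hp, hs⟩, x, ⟨iso⟩⟩ := h
  have h : Dim2 X := hdim
  have : PathConnectedSpace X := hs.pathConnectedSpace hp.continuous
  obtain ⟨y0, hy0⟩ := nonempty_Yset h
  obtain ⟨v0, -⟩ := exists_vertex_path h ⟨y0, hy0⟩
  have hκ0 : ∀ v : Cell X 0, Nonempty (Path (vpt v0) (vpt v)) := fun v =>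
    (exists_push h (PathConnectedSpace.somePath (vpt v0 : X) (vpt v : X))).nonempty
  obtain ⟨κ, hκ⟩ : ∃ κ : ∀ v, Path (vpt v0) (vpt v),
      ∀ {U : Type} [Group U] (H : PHol (Yset X) U), H.h (κ v0) = 1 := by
    refine ⟨fun v => (hκ0 v0).some.symm.trans (hκ0 v).some, ?_⟩
    intro U _ H
    rw [H.trans, H.symm, inv_mul_cancel]
  let a : ∀ d : Cell X 2, Att d := fun d => (nonempty_att h d).some
  choose om hom using fun v => exists_edgePath h (κ v)
  obtain ⟨Hu, hHu⟩ := cw9_univHol (vpt v0 : X)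
  let Hy := Hu.comap (continuous_subtype_val (p := (· ∈ Yset X)))
  have hcls : ∀ q : Path (vpt v0) (vpt v0), cls q = Hy.h q := fun q => (hHu _).symm
  have hb : ∀ d, Hy.h (bloop d) = 1 := fun d => (Hu.homotopic (bloop_null d)).trans (Hu.refl _)
  have hl : ∀ d, FreeGroup.lift (gphi κ) (a d).l.word = 1 := by
    intro d
    rw [lift_gphi_word, hcls, Hy.trans, Hy.trans, ← Hy.homotopic (a d).hom, Hy.trans, Hy.trans,
      hb, Hy.symm, Hy.symm]
    group
  have ho : ∀ v, FreeGroup.lift (gphi κ) (om v).word = 1 := by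
    intro v
    rw [lift_gphi_word, hcls, Hy.trans, Hy.trans, ← Hy.homotopic (hom v), hκ, Hy.symm]
    group
  refine AsphPres.of_mulEquiv ((MulEquiv.inv' _).symm.trans
    ((FundamentalGroup.fundamentalGroupMulEquivOfPathConnected (vpt v0 : X) x).trans iso))
    ⟨Cell X 1, Cell X 2 ⊕ {v // v ≠ v0}, gphi κ,
      Sum.elim (fun d => (a d).l.word) fun v => (om v).word, fun g => ?_, ?_, fun c hc => ?_⟩
  · obtain ⟨γ, hγ⟩ := Path.Homotopic.Quotient.mk_surjective g.unop
    obtain ⟨q, hq⟩ := exists_push h γ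
    obtain ⟨l, hl⟩ := exists_edgePath h q
    refine ⟨l.word, ?_⟩
    rw [lift_gphi_word, hcls, Hy.trans, Hy.trans, Hy.symm, hκ, ← Hy.homotopic hl, ← hcls, cls,
      ← Path.Homotopic.Quotient.eq.2 hq, hγ]
    simp
  · refine le_antisymm ?_ (Subgroup.normalClosure_le_normal ?_)
    · set Nn := Subgroup.normalClosure (range
        (Sum.elim (fun d => (a d).l.word) fun v : {v // v ≠ v0} => (om v).word)) with hN
      obtain ⟨L, hL⟩ := exists_locSys h fun e => (QuotientGroup.mk' Nn) (FreeGroup.of e)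
      obtain ⟨H, hH⟩ := L.exists_hol
      have hlift : FreeGroup.lift (fun e => H.h (edge e)) = QuotientGroup.mk' Nn := by
        ext e
        simp [hL H hH]
      have hb' : ∀ d, H.h (bloop d) = 1 := by
        intro d
        have h1 := H.homotopic (a d).hom
        rw [EP.hol_path, hlift, H.trans, H.trans, H.symm] at h1
        have h2 : (QuotientGroup.mk' Nn) (a d).l.word = 1 :=
          (QuotientGroup.eq_one_iff _).2 (Subgroup.subset_normalClosure ⟨Sum.inl d, rfl⟩)
        rw [h2, mul_inv_eq_one, mul_eq_left] at h1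
        exact h1
      have hκ' : ∀ v, H.h (κ v) = 1 := by
        intro v
        by_cases hv : v = v0
        · subst hv
          exact hκ H
        · rw [H.homotopic (hom v), EP.hol_path, hlift]
          exact (QuotientGroup.eq_one_iff _).2
            (Subgroup.subset_normalClosure ⟨Sum.inr ⟨v, hv⟩, rfl⟩)
      obtain ⟨H', hH'⟩ := exists_extension h L H hH hb'
      obtain ⟨θ, hθ⟩ := cw9_hom H' (vpt v0 : X)
      have hθ' : θ.comp (FreeGroup.lift (gphi κ)) = QuotientGroup.mk' Nn := by
        ext e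
        simp only [MonoidHom.comp_apply, FreeGroup.lift_apply_of, gphi, cls]
        rw [hθ, hH', H.trans, H.trans, H.symm, hκ', hκ', hL H hH]
        simp
      intro w hw
      have h1 := DFunLike.congr_fun hθ' w
      rw [MonoidHom.comp_apply, MonoidHom.mem_ker.1 hw, map_one] at h1
      exact (QuotientGroup.eq_one_iff _).1 h1.symm
    · rintro _ ⟨d | v, rfl⟩
      · exact hl d
      · exact ho v
  · exact cw9_inj (gphi κ) v0 (fun d => (a d).v) (fun d => (a d).l) om hl ho
      (bd2_att_injective h hp hs κ a) c hc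

end Crest.Agent.R197
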