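import Crest.Agent.R197.KosA

/-! From vanishing cohomology to a chain contraction. -/

set_option autoImplicit false

namespace Crest.Agent.R197

section aux

variable {V : Type} [LinearOrder V] {Γ : SimpleGraph V}

theorem cl_adj (σ : Cl Γ) {a b : V} (ha : a ∈ σ.1) (hb : b ∈ σ.1) (h : a < b) : Γ.Adj a b :=
  (σ.2 a ha b hb).resolve_left h.ne

theorem cl_two (σ : Cl Γ) (h : σ.1.card = 2) : ∃ a b, a < b ∧ Γ.Adj a b ∧ σ.1 = {a, b} := by
  obtain ⟨a, b, hab, e⟩ := Finset.card_eq_two.1 h
  rcases lt_or_gt_of_ne hab with k | k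
  · exact ⟨a, b, k, cl_adj σ (by simp [e]) (by simp [e]) k, e⟩
  · exact ⟨b, a, k, cl_adj σ (by simp [e]) (by simp [e]) k, by rw [e, Finset.pair_comm]⟩

theorem cl_three (σ : Cl Γ) (h : σ.1.card = 3) : ∃ a b c, a < b ∧ b < c ∧ σ.1 = {a, b, c} := by
  let f := σ.1.orderEmbOfFin h
  refine ⟨f 0, f 1, f 2, f.strictMono (by decide), f.strictMono (by decide), ?_⟩
  have h1 : σ.1 = Finset.univ.image f := by
    ext x
    have := Finset.range_orderEmbOfFin σ.1 h
    rw [← Finset.mem_coe, ← this]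
    simp [f]
  rw [h1]
  ext x
  simp [Fin.exists_fin_succ, eq_comm]

theorem dL_single (σ : Cl Γ) :
    dL Γ (Finsupp.single σ 1) = ∑ a ∈ σ.1, Finsupp.single (σ.er a) (sg a σ.1) := by
  simp [dL]

theorem dL_two (σ : Cl Γ) {a b : V} (h : a < b) (e : σ.1 = {a, b}) :
    dL Γ (Finsupp.single σ 1) = Finsupp.single (σ.er a) 1 - Finsupp.single (σ.er b) 1 := by
  have h1 : sg a σ.1 = 1 := by simp [sg, e, Finset.filter_insert, Finset.filter_singleton, h.not_gt]
  have h2 : sg b σ.1 = -1 := by simp [sg, e, Finset.filter_insert, Finset.filter_singleton, h]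
  rw [dL_single, Finset.sum_congr e (fun _ _ => rfl), Finset.sum_pair h.ne, h1, h2,
    Finsupp.single_neg, sub_eq_add_neg]

theorem dL_three (σ : Cl Γ) {a b c : V} (h : a < b) (h' : b < c) (e : σ.1 = {a, b, c}) :
    dL Γ (Finsupp.single σ 1) =
      Finsupp.single (σ.er a) 1 - Finsupp.single (σ.er b) 1 + Finsupp.single (σ.er c) 1 := by
  have h'' := h.trans h'
  have h1 : sg a σ.1 = 1 := by
    simp [sg, e, Finset.filter_insert, Finset.filter_singleton, h.not_gt, h''.not_gt]
  have h2 : sg b σ.1 = -1 := by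
    simp [sg, e, Finset.filter_insert, Finset.filter_singleton, h, h'.not_gt]
  have h3 : sg c σ.1 = 1 := by
    simp [sg, e, Finset.filter_insert, Finset.filter_singleton, h', h'', h.ne]
  rw [dL_single, Finset.sum_congr e (fun _ _ => rfl),
    Finset.sum_insert (by simp [h.ne, h''.ne]), Finset.sum_pair h'.ne, h1, h2, h3,
    Finsupp.single_neg, sub_eq_add_neg, add_assoc]

theorem hom_dL {k : ℕ} {c : Cl Γ →₀ ℤ} (h : Hom (fun τ : Cl Γ => τ.1.card) (k + 1) c) :
    Hom (fun τ : Cl Γ => τ.1.card) k (dL Γ c) := by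
  refine Hom.induction (P := fun c => Hom (fun τ : Cl Γ => τ.1.card) k (dL Γ c)) ?_ ?_ ?_ h
  · rw [map_zero]; exact Hom.zero
  · intro c c' h1 h2
    rw [map_add]; exact h1.add h2
  · intro σ n hσ
    rw [dL, Finsupp.linearCombination_single, Finset.smul_sum]
    refine Finset.sum_induction _ _ (fun _ _ h1 h2 => h1.add h2) Hom.zero fun a ha => ?_
    rw [Finsupp.smul_single]
    refine Hom.single ?_ _
    show (σ.1.erase a).card = k
    rw [Finset.card_erase_of_mem ha, hσ]
    rfl

/-- the clique spanned by three pairwise adjacent vertices -/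
def cl3 {a b c : V} (h1 : Γ.Adj a b) (h2 : Γ.Adj b c) (h3 : Γ.Adj a c) : Cl Γ :=
  ⟨{a, b, c}, by
    intro x hx y hy
    simp only [Finset.mem_insert, Finset.mem_singleton] at hx hy
    rcases hx with rfl | rfl | rfl <;> rcases hy with rfl | rfl | rfl <;>
      first
      | exact Or.inl rfl
      | exact Or.inr (by assumption)
      | exact Or.inr (SimpleGraph.Adj.symm (by assumption))⟩

theorem erase3 {a b c : V} (h : a < b) (h' : b < c) :
    ({a, b, c} : Finset V).erase a = {b, c} ∧ ({a, b, c} : Finset V).erase b = {a, c} ∧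
      ({a, b, c} : Finset V).erase c = {a, b} := by
  have h'' := h.trans h'
  refine ⟨?_, ?_, ?_⟩ <;> ext x <;> simp only [Finset.mem_erase, Finset.mem_insert,
    Finset.mem_singleton] <;> constructor
  · rintro ⟨k, rfl | rfl | rfl⟩ <;> simp_all
  · rintro (rfl | rfl) <;> simp [h.ne', h''.ne']
  · rintro ⟨k, rfl | rfl | rfl⟩ <;> simp_all
  · rintro (rfl | rfl) <;> simp [h.ne, h'.ne']
  · rintro ⟨k, rfl | rfl | rfl⟩ <;> simp_all
  · rintro (rfl | rfl) <;> simp [h'.ne, h''.ne]

theorem single_apply_cl (σ τ : Cl Γ) :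
    (Finsupp.single σ (1 : ℤ)) τ = if σ.1 = τ.1 then 1 else 0 := by
  classical
  rw [Finsupp.single_apply]
  exact if_congr Subtype.ext_iff rfl rfl

end aux

theorem contr_of_acyc {V : Type} [Fintype V] [LinearOrder V] {Γ : SimpleGraph V}
    (h : Acyc Γ) : Contr Γ := by
  classical
  haveI : Finite (Cl Γ) := inferInstanceAs (Finite {σ : Finset V // _})
  choose f hf using fun τ : Cl Γ => h.h2 fun a b c => if ({a, b, c} : Finset V) = τ.1 then 1 else 0
  let F : V → V → (Cl Γ →₀ ℤ) := fun a b =>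
    Finsupp.equivFunOnFinite.symm fun τ => if τ.1.card = 3 then f τ a b else 0
  have hFa : ∀ a b τ, F a b τ = if τ.1.card = 3 then f τ a b else 0 := fun _ _ _ => rfl
  have hFh : ∀ a b, Hom (fun τ : Cl Γ => τ.1.card) 3 (F a b) := fun a b τ hτ => by
    by_contra k
    exact Finsupp.mem_support_iff.1 hτ (by rw [hFa, if_neg k])
  have hF : ∀ (σ : Cl Γ) a b c, a < b → b < c → σ.1 = {a, b, c} →
      F b c - F a c + F a b = Finsupp.single σ 1 := by
    intro σ a b c h1 h2 e
    have h3 := h1.trans h2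
    ext τ
    rw [single_apply_cl]
    simp only [Finsupp.add_apply, Finsupp.sub_apply, hFa]
    by_cases k : τ.1.card = 3
    · simp only [if_pos k]
      rw [hf τ a b c h1 h2 (cl_adj σ (by simp [e]) (by simp [e]) h1)
        (cl_adj σ (by simp [e]) (by simp [e]) h2) (cl_adj σ (by simp [e]) (by simp [e]) h3), e]
    · simp only [if_neg k]
      rw [if_neg]
      · simp
      · intro e'
        refine k ?_
        rw [← e', e, Finset.card_eq_three]
        exact ⟨a, b, c, h1.ne, h3.ne, h2.ne, rfl⟩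
  choose κ hκ using fun ε : Cl Γ => h.h1
    (fun a b => (if ({a, b} : Finset V) = ε.1 then 1 else 0) - dL Γ (F a b) ε) (by
      intro a b c h1 h2 k1 k2 k3
      have e1 := congrArg (fun x => dL Γ x ε) (hF (cl3 k1 k2 k3) a b c h1 h2 rfl)
      obtain ⟨r1, r2, r3⟩ := erase3 h1 h2
      simp only [dL_three (cl3 k1 k2 k3) h1 h2 rfl, map_add, map_sub, Finsupp.add_apply,
        Finsupp.sub_apply, single_apply_cl] at e1
      have s1 : ((cl3 k1 k2 k3).er a).1 = {b, c} := r1
      have s2 : ((cl3 k1 k2 k3).er b).1 = {a, c} := r2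
      have s3 : ((cl3 k1 k2 k3).er c).1 = {a, b} := r3
      rw [s1, s2, s3] at e1
      linarith)
  let K : V → (Cl Γ →₀ ℤ) := fun a =>
    Finsupp.equivFunOnFinite.symm fun ε => if ε.1.card = 2 then κ ε a else 0
  have hKa : ∀ a ε, K a ε = if ε.1.card = 2 then κ ε a else 0 := fun _ _ => rfl
  have hKh : ∀ a, Hom (fun τ : Cl Γ => τ.1.card) 2 (K a) := fun a τ hτ => by
    by_contra k
    exact Finsupp.mem_support_iff.1 hτ (by rw [hKa, if_neg k])
  let kk : Cl Γ → (Cl Γ →₀ ℤ) := fun σ =>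
    if σ.1.card = 2 then ∑ a ∈ σ.1, ∑ b ∈ σ.1, if a < b then F a b else 0
    else if σ.1.card = 1 then ∑ a ∈ σ.1, K a else 0
  have k2 : ∀ (σ : Cl Γ) a b, a < b → σ.1 = {a, b} → kk σ = F a b := by
    intro σ a b h1 e
    simp only [kk, e, Finset.card_pair h1.ne, if_true, Finset.sum_pair h1.ne]
    simp [h1, h1.not_gt]
  have k1 : ∀ (σ : Cl Γ) a, σ.1 = {a} → kk σ = K a := by
    intro σ a e
    simp [kk, e]
  refine ⟨Finsupp.linearCombination ℤ kk, fun σ => ?_, fun σ hσ => ?_, fun σ hσ => ?_⟩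
  · rw [Finsupp.linearCombination_single, one_smul]
    by_cases c2 : σ.1.card = 2
    · obtain ⟨a, b, h1, -, e⟩ := cl_two σ c2
      rw [k2 σ a b h1 e, c2]
      exact hFh a b
    · by_cases c1 : σ.1.card = 1
      · obtain ⟨a, e⟩ := Finset.card_eq_one.1 c1
        rw [k1 σ a e, c1]
        exact hKh a
      · simp only [kk, if_neg c2, if_neg c1]
        exact Hom.zero
  · obtain ⟨a, b, c, h1, h2, e⟩ := cl_three σ hσ
    obtain ⟨r1, r2, r3⟩ := erase3 h1 h2
    rw [dL_three σ h1 h2 e]
    simp only [map_add, map_sub, Finsupp.linearCombination_single, one_smul]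
    rw [k2 _ b c h2 (by rw [← r1, ← e]; rfl), k2 _ a c (h1.trans h2) (by rw [← r2, ← e]; rfl),
      k2 _ a b h1 (by rw [← r3, ← e]; rfl)]
    exact hF σ a b c h1 h2 e
  · obtain ⟨a, b, h1, h2, e⟩ := cl_two σ hσ
    rw [dL_two σ h1 e]
    simp only [map_sub, Finsupp.linearCombination_single, one_smul]
    rw [k2 σ a b h1 e, k1 _ b (by
        show σ.1.erase a = _
        rw [e, Finset.erase_insert (by simpa using h1.ne)]),
      k1 _ a (by
        show σ.1.erase b = _
        rw [e, Finset.pair_comm, Finset.erase_insert (by simpa using h1.ne')])]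
    ext ε
    rw [single_apply_cl]
    simp only [Finsupp.add_apply, Finsupp.sub_apply, hKa]
    by_cases k : ε.1.card = 2
    · simp only [if_pos k]
      have := hκ ε a b h1 h2
      rw [e]
      linarith
    · simp only [if_neg k]
      rw [if_neg (fun e' => k (by rw [← e', hσ]))]
      have : dL Γ (F a b) ε = 0 := by
        by_contra k'
        exact k (hom_dL (hFh a b) ε (Finsupp.mem_support_iff.2 k'))
      simp [this]

end Crest.Agent.R197
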