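import Crest.Agent.R197.EstA

/-! Existence of the fixed data of the core argument. -/

set_option autoImplicit false

namespace Crest.Agent.R197

open Quaternion

namespace EstB

section alg

variable {G A T R B X Y Z : Type} [Group G]

/-- The part of a 1-chain on the old letters. -/
noncomputable def apart : (G × (A ⊕ T) →₀ ℤ) →ₗ[ℤ] (G × A →₀ ℤ) :=
  Finsupp.linearCombination ℤ fun e =>
    Sum.elim (fun s => Finsupp.single (e.1, s) 1) (fun _ => 0) e.2

/-- Inclusion of chains on the old letters. -/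
noncomputable def iotaA : (G × A →₀ ℤ) →ₗ[ℤ] (G × (A ⊕ T) →₀ ℤ) :=
  Finsupp.linearCombination ℤ fun e => Finsupp.single (e.1, Sum.inl e.2) 1

/-- Inclusion of chains on the extra letters. -/
noncomputable def iotaT : (G × T →₀ ℤ) →ₗ[ℤ] (G × (A ⊕ T) →₀ ℤ) :=
  Finsupp.linearCombination ℤ fun e => Finsupp.single (e.1, Sum.inr e.2) 1

/-- Delete the extra letters. -/
def del : FreeGroup (A ⊕ T) →* FreeGroup A :=
  FreeGroup.lift (Sum.elim FreeGroup.of fun _ => 1)

omit [Group G] in
theorem iota_split (c : G × (A ⊕ T) →₀ ℤ) : iotaT (tpart c) + iotaA (apart c) = c := by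
  induction c using Finsupp.induction_linear with
  | zero => simp
  | add c c' h h' =>
    rw [map_add, map_add, map_add, map_add, add_add_add_comm, h, h']
  | single e n =>
    obtain ⟨g, s | t⟩ := e <;> simp [tpart, apart, iotaA, iotaT]

omit [Group G] in
theorem tpart_iotaA (c : G × A →₀ ℤ) : tpart (iotaA (T := T) c) = 0 := by
  induction c using Finsupp.induction_linear with
  | zero => simp
  | add c c' h h' => rw [map_add, map_add, h, h', add_zero]
  | single e n => simp [tpart, iotaA]

theorem lift_map_inl (φ : A → G) (w : FreeGroup A) :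
    FreeGroup.lift (nf φ T) (FreeGroup.map Sum.inl w) = FreeGroup.lift φ w := by
  induction w using FreeGroup.induction_on with
  | C1 => simp
  | of s => simp [nf]
  | inv_of s ih => simp [nf]
  | mul x y hx hy => rw [map_mul, map_mul, map_mul, hx, hy]

theorem chain_map_inl (φ : A → G) (w : FreeGroup A) (g : G) :
    chain (nf φ T) (FreeGroup.map Sum.inl w) g = iotaA (chain φ w g) := by
  induction w using FreeGroup.induction_on generalizing g with
  | C1 => simp
  | of s => simp [iotaA]
  | inv_of s ih => rw [map_inv, chain_inv, chain_inv, ih, lift_map_inl, map_neg]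
  | mul x y hx hy => rw [map_mul, chain_mul, chain_mul, hx, hy, lift_map_inl, map_add]

theorem lift_del (φ : A → G) (w : FreeGroup (A ⊕ T)) :
    FreeGroup.lift φ (del w) = FreeGroup.lift (nf φ T) w := by
  induction w using FreeGroup.induction_on with
  | C1 => simp
  | of s => rcases s with s | t <;> simp [nf, del]
  | inv_of s ih => rw [map_inv, map_inv, map_inv, ih]
  | mul x y hx hy => rw [map_mul, map_mul, map_mul, hx, hy]

theorem apart_chain (φ : A → G) (w : FreeGroup (A ⊕ T)) (g : G) :
    apart (chain (nf φ T) w g) = chain φ (del w) g := by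
  induction w using FreeGroup.induction_on generalizing g with
  | C1 => simp
  | of s => rcases s with s | t <;> simp [apart, del]
  | inv_of s ih => rw [map_inv, chain_inv, chain_inv, map_neg, ih, lift_del]
  | mul x y hx hy => rw [map_mul, chain_mul, chain_mul, map_add, hx, hy, lift_del]

theorem ext_ext (K : Y → (G × Z →₀ ℤ)) (K' : X → (G × Y →₀ ℤ)) (c : G × X →₀ ℤ) :
    ext (MonoidHom.id G) K (ext (MonoidHom.id G) K' c) =
      ext (MonoidHom.id G) (fun x => ext (MonoidHom.id G) K (K' x)) c := by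
  induction c using Finsupp.induction_linear with
  | zero => simp
  | add c c' h h' => rw [map_add, map_add, map_add, h, h']
  | single e n =>
    obtain ⟨g, x⟩ := e
    simp [ext_push]

theorem ext_sub (K K' : X → (G × Y →₀ ℤ)) (c : G × X →₀ ℤ) :
    ext (MonoidHom.id G) (fun x => K x - K' x) c =
      ext (MonoidHom.id G) K c - ext (MonoidHom.id G) K' c := by
  induction c using Finsupp.induction_linear with
  | zero => simp
  | add c c' h h' => rw [map_add, map_add, map_add, h, h']; abel
  | single e n =>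
    obtain ⟨g, x⟩ := e
    simp [push_sub, smul_sub]

theorem ext_congr {K K' : X → (G × Y →₀ ℤ)} {c : G × X →₀ ℤ}
    (h : ∀ e ∈ c.support, K e.2 = K' e.2) :
    ext (MonoidHom.id G) K c = ext (MonoidHom.id G) K' c := by
  unfold ext
  rw [Finsupp.linearCombination_apply, Finsupp.linearCombination_apply]
  exact Finsupp.sum_congr fun e he => by rw [h e he]

theorem push_id_chain {S : Type} (φ : S → G) (w : FreeGroup S) (g : G) :
    push (MonoidHom.id G) g (chain φ w 1) = chain φ w g := by
  simpa using push_chain (MonoidHom.id G) φ w g 1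

theorem bd2_single {S : Type} (φ : S → G) (ρ : R → FreeGroup S) (g : G) (r : R) (n : ℤ) :
    bd2 φ ρ (Finsupp.single (g, r) n) = n • chain φ (ρ r) g := by
  simp [bd2]

theorem bd2_push {S : Type} (φ : S → G) (ρ : R → FreeGroup S) (g : G) (c : G × R →₀ ℤ) :
    bd2 φ ρ (push (MonoidHom.id G) g c) = push (MonoidHom.id G) g (bd2 φ ρ c) := by
  rw [bd2_eq_ext, ext_push]

theorem supp_ext (Rin : Finset Y) (K : X → (G × Y →₀ ℤ))
    (hK : ∀ x, ∀ e ∈ (K x).support, e.2 ∈ Rin) (c : G × X →₀ ℤ) :
    ∀ e ∈ (ext (MonoidHom.id G) K c).support, e.2 ∈ Rin := by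
  classical
  induction c using Finsupp.induction_linear with
  | zero => simp
  | add c c' h h' =>
    intro e he
    rw [map_add] at he
    rcases Finset.mem_union.1 (Finsupp.support_add he) with he | he
    · exact h e he
    · exact h' e he
  | single e n =>
    obtain ⟨g, x⟩ := e
    intro e he
    rw [ext_single] at he
    have h1 := Finsupp.support_smul he
    have h2 := Finsupp.mapDomain_support h1
    obtain ⟨e', he', rfl⟩ := Finset.mem_image.1 h2
    exact hK x e' he'

theorem supp_cchain {S : Type} (φ : S → G) (l : List (FreeGroup S × R × Bool)) :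
    ∀ e ∈ (cchain φ l).support, ∃ x ∈ l, e.2 = x.2.1 := by
  classical
  induction l with
  | nil => simp [cchain]
  | cons x l ih =>
    intro e he
    simp only [cchain, List.map_cons, List.sum_cons] at he ih
    rcases Finset.mem_union.1 (Finsupp.support_add he) with he | he
    · have := Finsupp.support_single_subset he
      rw [Finset.mem_singleton] at this
      exact ⟨x, List.mem_cons_self, by rw [this]⟩
    · obtain ⟨y, hy, h⟩ := ih e he
      exact ⟨y, List.mem_cons_of_mem _ hy, h⟩

theorem hol_map_inl {Q U : Type} [Group Q] [Group U] (π : G →* Q) (φ : A → G) (a : Q × A → U)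
    (x : Q × T → U) (w : FreeGroup A) (q : Q) :
    hol (fun s => π (nf φ T s)) (lab a x) (FreeGroup.map Sum.inl w) q =
      hol (fun s => π (φ s)) a w q := by
  induction w using FreeGroup.induction_on generalizing q with
  | C1 => simp
  | of s => simp [lab]
  | inv_of s ih => rw [map_inv, hol_inv, hol_inv, ih, lift_comp, lift_comp, lift_map_inl]
  | mul x y hx hy => rw [map_mul, hol_mul, hol_mul, hx, hy, lift_comp, lift_comp, lift_map_inl]

end alg

section est

variable {G A T R B : Type} [Group G]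

/-- The holonomy of `w` is small as soon as the `A`-labels and the relators in `R1` are small. -/
def Small (φ : A → G) (ρ : R → FreeGroup (A ⊕ T)) (w : FreeGroup (A ⊕ T)) (R1 : Finset R)
    (K : ℝ) : Prop :=
  ∀ (Q : Type) [Group Q] (π : G →* Q) (a : Q × A → S3) (x : Q × T → S3) (ε δ : ℝ),
    0 ≤ ε → 0 ≤ δ → (∀ e, dev (a e) ≤ ε) →
    (∀ q, ∀ r ∈ R1, dev (hol (fun s => π (nf φ T s)) (lab a x) (ρ r) q) ≤ δ) →
    ∀ q, dev (hol (fun s => π (nf φ T s)) (lab a x) w q) ≤ K * (δ + ε)

theorem Small.mono {φ : A → G} {ρ : R → FreeGroup (A ⊕ T)} {w : FreeGroup (A ⊕ T)}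
    {R1 R2 : Finset R} {K K' : ℝ} (h : Small φ ρ w R1 K) (hR : R1 ⊆ R2) (hK : K ≤ K') :
    Small φ ρ w R2 K' := by
  intro Q _ π a x ε δ hε hδ ha hr q
  exact (h Q π a x ε δ hε hδ ha (fun q r hr' => hr q r (hR hr')) q).trans
    (mul_le_mul_of_nonneg_right hK (add_nonneg hδ hε))

theorem rel_one {φ : A → G} {ρ : R → FreeGroup (A ⊕ T)} (hρ : IsAsph (nf φ T) ρ) (r : R) :
    FreeGroup.lift (nf φ T) (ρ r) = 1 := by
  have : ρ r ∈ (FreeGroup.lift (nf φ T)).ker := by
    rw [hρ.ker]
    exact Subgroup.subset_normalClosure ⟨r, rfl⟩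
  exact this

theorem exists_list {φ : A → G} {ρ : R → FreeGroup (A ⊕ T)} (hρ : IsAsph (nf φ T) ρ)
    {w : FreeGroup (A ⊕ T)} (hw : FreeGroup.lift (nf φ T) w = 1) : ∃ l, w = cprod ρ l := by
  refine exists_cprod ρ ?_
  rw [← hρ.ker]
  exact hw

theorem exists_small {φ : A → G} {ρ : R → FreeGroup (A ⊕ T)} (hρ : IsAsph (nf φ T) ρ)
    (w : FreeGroup (A ⊕ T)) : ∃ R1 K, 0 ≤ K ∧ Small φ ρ w R1 K := by
  classical
  induction w using FreeGroup.induction_on with
  | C1 =>
    refine ⟨∅, 0, le_rfl, ?_⟩
    intro Q _ π a x ε δ hε hδ ha hr q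
    simp
  | of s =>
    rcases s with s | t
    · refine ⟨∅, 1, zero_le_one, ?_⟩
      intro Q _ π a x ε δ hε hδ ha hr q
      have := ha (q, s)
      simp only [hol_of, lab, Sum.elim_inl]
      linarith
    · obtain ⟨l, hl⟩ := exists_list hρ (w := FreeGroup.of (Sum.inr t)) (by simp [nf])
      refine ⟨(l.map fun y => y.2.1).toFinset, l.length, Nat.cast_nonneg _, ?_⟩
      intro Q _ π a x ε δ hε hδ ha hr q
      rw [hl]
      refine (dev_cprod_le (fun s => π (nf φ T s)) ρ
        (fun r => by rw [lift_comp, rel_one hρ, map_one]) (lab a x) l q (η := δ) ?_).trans ?_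
      · intro y hy
        exact hr _ _ (List.mem_toFinset.2 (List.mem_map.2 ⟨y, hy, rfl⟩))
      · exact mul_le_mul_of_nonneg_left (by linarith) (Nat.cast_nonneg _)
  | inv_of s ih =>
    obtain ⟨R1, K, hK, h⟩ := ih
    refine ⟨R1, K, hK, ?_⟩
    intro Q _ π a x ε δ hε hδ ha hr q
    rw [hol_inv, dev_inv]
    exact h Q π a x ε δ hε hδ ha hr _
  | mul u v hu hv =>
    obtain ⟨R1, K, hK, h⟩ := hu
    obtain ⟨R2, K', hK', h'⟩ := hv
    refine ⟨R1 ∪ R2, K + K', add_nonneg hK hK', ?_⟩
    intro Q _ π a x ε δ hε hδ ha hr q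
    rw [hol_mul, add_mul]
    exact (dev_mul_le _ _).trans (add_le_add
      (h.mono Finset.subset_union_left le_rfl Q π a x ε δ hε hδ ha hr _)
      (h'.mono Finset.subset_union_right le_rfl Q π a x ε δ hε hδ ha hr _))

theorem exists_small_finset {φ : A → G} {ρ : R → FreeGroup (A ⊕ T)} (hρ : IsAsph (nf φ T) ρ)
    (V : Finset (FreeGroup (A ⊕ T))) : ∃ R1 K, 0 ≤ K ∧ ∀ w ∈ V, Small φ ρ w R1 K := by
  classical
  induction V using Finset.induction_on with
  | empty => exact ⟨∅, 0, le_rfl, by simp⟩
  | insert w V hw ih =>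
    obtain ⟨R1, K, hK, h⟩ := exists_small hρ w
    obtain ⟨R2, K', hK', h'⟩ := ih
    refine ⟨R1 ∪ R2, K + K', add_nonneg hK hK', fun v hv => ?_⟩
    rcases Finset.mem_insert.1 hv with rfl | hv
    · exact h.mono Finset.subset_union_left (by linarith)
    · exact (h' v hv).mono Finset.subset_union_right (by linarith)

theorem norm_lc_ext_le {Q X Y : Type} [Group Q] (π : G →* Q) (ξ : Q × Y → ℍ[ℝ])
    (K : X → (G × Y →₀ ℤ)) (c : G × X →₀ ℤ) (q : Q) {M : ℝ}
    (h : ∀ e ∈ c.support, ‖Finsupp.linearCombination ℤ ξ (push π (q * π e.1) (K e.2))‖ ≤ M) :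
    ‖Finsupp.linearCombination ℤ ξ (push π q (ext (MonoidHom.id G) K c))‖ ≤
      (∑ e ∈ c.support, |(c e : ℝ)|) * M := by
  have h1 : Finsupp.linearCombination ℤ ξ (push π q (ext (MonoidHom.id G) K c)) =
      ∑ e ∈ c.support, c e • Finsupp.linearCombination ℤ ξ (push π (q * π e.1) (K e.2)) := by
    rw [← ext_push]
    have h2 : Finsupp.linearCombination ℤ ξ (ext π K (push π q c)) =
        Finsupp.linearCombination ℤ
          (fun e : G × X => Finsupp.linearCombination ℤ ξ (push π (q * π e.1) (K e.2))) c := by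
      clear h
      induction c using Finsupp.induction_linear with
      | zero => simp
      | add c c' h h' => rw [push_add, map_add, map_add, map_add, h, h']
      | single e n =>
        obtain ⟨g, x⟩ := e
        simp
    rw [h2, Finsupp.linearCombination_apply, Finsupp.sum]
  rw [h1, Finset.sum_mul]
  refine (norm_sum_le _ _).trans (Finset.sum_le_sum fun e he => ?_)
  rw [← Int.cast_smul_eq_zsmul ℝ, norm_smul, Real.norm_eq_abs]
  exact mul_le_mul_of_nonneg_left (h e he) (abs_nonneg _)

end est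

end EstB

open EstB in
theorem exists_setup {G A T R B : Type} [Group G] [Fintype B] (φ : A → G)
    (ρ : R → FreeGroup (A ⊕ T)) (hρ : IsAsph (nf φ T) ρ) (b : B → FreeGroup A)
    (hb : ∀ j, FreeGroup.lift φ (b j) = 1)
    (hgen : ∀ w, FreeGroup.lift φ w = 1 → chain φ w 1 ∈ LinearMap.range (bd2 φ b)) :
    ∃ Rin P σ S0 C, Setup φ ρ b Rin P σ S0 C := by
  classical
  have h1 : ∀ j, ∃ l, FreeGroup.map Sum.inl (b j) = cprod ρ l := fun j =>
    exists_list hρ (by rw [lift_map_inl, hb])
  choose lb hlb using h1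
  have h2 : ∀ t : T, ∃ l, FreeGroup.of (Sum.inr t) = cprod ρ l := fun t =>
    exists_list hρ (by simp [nf])
  choose lt hlt using h2
  have h3 : ∀ r, ∃ c, bd2 φ b c = chain φ (del (ρ r)) 1 := fun r =>
    hgen _ (by rw [lift_del, rel_one hρ])
  choose β hβ using h3
  set p : B → (G × R →₀ ℤ) := fun j => cchain (nf φ T) (lb j) with hp
  set σ0 : T → (G × R →₀ ℤ) := fun t => cchain (nf φ T) (lt t) with hσ0
  have dp : ∀ j, bd2 (nf φ T) ρ (p j) = iotaA (chain φ (b j) 1) := fun j => by
    rw [hp, ← (chain_cprod (nf φ T) ρ (rel_one hρ) (lb j)).2, ← hlb, chain_map_inl]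
  have dσ : ∀ t, bd2 (nf φ T) ρ (σ0 t) = Finsupp.single (1, Sum.inr t) 1 := fun t => by
    rw [hσ0, ← (chain_cprod (nf φ T) ρ (rel_one hρ) (lt t)).2, ← hlt, chain_of]
  have dp' : ∀ c, bd2 (nf φ T) ρ (ext (MonoidHom.id G) p c) = iotaA (bd2 φ b c) := fun c => by
    induction c using Finsupp.induction_linear with
    | zero => simp
    | add c c' h h' => rw [map_add, map_add, map_add, map_add, h, h']
    | single e n =>
      obtain ⟨g, j⟩ := e
      rw [ext_single, map_smul, bd2_push, dp, bd2_single, map_smul, ← chain_map_inl,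
        ← chain_map_inl, push_id_chain]
  have dσ' : ∀ c, bd2 (nf φ T) ρ (ext (MonoidHom.id G) σ0 c) = iotaT c := fun c => by
    induction c using Finsupp.induction_linear with
    | zero => simp
    | add c c' h h' => rw [map_add, map_add, map_add, h, h']
    | single e n =>
      obtain ⟨g, t⟩ := e
      rw [ext_single, map_smul, bd2_push, dσ]
      simp [iotaT]
  have dβ : ∀ c, bd2 φ b (ext (MonoidHom.id G) β c) = apart (bd2 (nf φ T) ρ c) := fun c => by
    induction c using Finsupp.induction_linear with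
    | zero => simp
    | add c c' h h' => rw [map_add, map_add, map_add, map_add, h, h']
    | single e n =>
      obtain ⟨g, r⟩ := e
      rw [ext_single, map_smul, bd2_push, hβ, bd2_single, map_smul, apart_chain, push_id_chain]
  have key : ∀ c, ext (MonoidHom.id G) σ0 (tpart (bd2 (nf φ T) ρ c)) +
      ext (MonoidHom.id G) p (ext (MonoidHom.id G) β c) = c := fun c => by
    rw [← sub_eq_zero]
    apply hρ.inj
    rw [map_sub, map_add, dp', dσ', dβ, iota_split, sub_self]
  have kp : ∀ j, ext (MonoidHom.id G) p (ext (MonoidHom.id G) β (p j)) = p j := fun j => by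
    have := key (p j)
    rwa [dp, tpart_iotaA, map_zero, zero_add] at this
  set V : Finset (FreeGroup (A ⊕ T)) :=
    Finset.univ.biUnion fun j => ((lb j).map fun y => y.1).toFinset with hV
  obtain ⟨R1, K, hK, hsm⟩ := exists_small_finset hρ V
  set Rin : Finset R :=
    R1 ∪ Finset.univ.biUnion fun j => ((lb j).map fun y => y.2.1).toFinset with hRin
  have memV : ∀ j, ∀ y ∈ lb j, y.1 ∈ V := fun j y hy =>
    Finset.mem_biUnion.2 ⟨j, Finset.mem_univ _, List.mem_toFinset.2 (List.mem_map.2 ⟨y, hy, rfl⟩)⟩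
  have memR : ∀ j, ∀ y ∈ lb j, y.2.1 ∈ Rin := fun j y hy =>
    Finset.mem_union_right _ (Finset.mem_biUnion.2
      ⟨j, Finset.mem_univ _, List.mem_toFinset.2 (List.mem_map.2 ⟨y, hy, rfl⟩)⟩)
  have suppp : ∀ j, ∀ e ∈ (p j).support, e.2 ∈ Rin := fun j e he => by
    obtain ⟨y, hy, h⟩ := supp_cchain _ _ e he
    rw [h]
    exact memR j y hy
  set P : R → (G × R →₀ ℤ) := fun r =>
    if r ∈ Rin then ext (MonoidHom.id G) p (β r) else 0 with hP
  have Pin : ∀ r ∈ Rin, P r = ext (MonoidHom.id G) p (β r) := fun r hr => if_pos hr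
  have Pout : ∀ r, r ∉ Rin → P r = 0 := fun r hr => if_neg hr
  have Pp : ∀ j, ext (MonoidHom.id G) P (p j) = p j := fun j => by
    rw [ext_congr (K' := fun r => ext (MonoidHom.id G) p (β r))
      (fun e he => Pin _ (suppp j e he)), ← ext_ext, kp]
  have Pp' : ∀ c, ext (MonoidHom.id G) P (ext (MonoidHom.id G) p c) =
      ext (MonoidHom.id G) p c := fun c => by
    rw [ext_ext]
    exact ext_congr fun e _ => Pp _
  set S0 : Finset G := insert 1 (Rin.biUnion fun r => (β r).support.biUnion fun e =>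
    insert e.1 (V.image fun v => e.1 * FreeGroup.lift (nf φ T) v)) with hS0
  set L : ℝ := ∑ j, ((lb j).length : ℝ) with hL
  set Bm : ℝ := ∑ r ∈ Rin, ∑ e ∈ (β r).support, |(β r e : ℝ)| with hBm
  have hL0 : 0 ≤ L := Finset.sum_nonneg fun j _ => Nat.cast_nonneg _
  have hLj : ∀ j, ((lb j).length : ℝ) ≤ L := fun j =>
    Finset.single_le_sum (f := fun j => ((lb j).length : ℝ)) (fun j _ => Nat.cast_nonneg _)
      (Finset.mem_univ j)
  have hB0 : 0 ≤ Bm := Finset.sum_nonneg fun r _ => Finset.sum_nonneg fun e _ => abs_nonneg _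
  have hBr : ∀ r ∈ Rin, ∑ e ∈ (β r).support, |(β r e : ℝ)| ≤ Bm := fun r hr =>
    Finset.single_le_sum (f := fun r => ∑ e ∈ (β r).support, |(β r e : ℝ)|)
      (fun r _ => Finset.sum_nonneg fun e _ => abs_nonneg _) hr
  refine ⟨Rin, P, fun t => σ0 t - ext (MonoidHom.id G) P (σ0 t), S0,
    2 * Bm * (1 + L * (2 * K + L)), Pout, ?_, ?_, ?_, Finset.mem_insert_self _ _,
    by positivity, ?_⟩
  · intro r e he
    by_cases hr : r ∈ Rin
    · rw [Pin r hr] at he
      exact supp_ext Rin p suppp _ e he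
    · rw [Pout r hr] at he
      simp at he
  · intro r
    by_cases hr : r ∈ Rin
    · rw [Pin r hr, Pp']
    · rw [Pout r hr, map_zero]
  · intro r
    have k1 := key (Finsupp.single (1, r) 1)
    rw [bd2_single, one_smul, ext_single, one_smul] at k1
    have k2 : push (MonoidHom.id G) 1 (β r) = β r := by
      unfold push
      simp only [MonoidHom.id_apply, one_mul]
      exact Finsupp.mapDomain_id
    have k3 : push (MonoidHom.id G) 1 (P r) = P r := by
      unfold push
      simp only [MonoidHom.id_apply, one_mul]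
      exact Finsupp.mapDomain_id
    rw [k2, ← eq_sub_iff_add_eq] at k1
    rw [ext_sub, ← ext_ext, k1, map_sub, Pp', ext_single, one_smul, k3]
    abel
  · intro Q _ π a x ε δ hε hδ hδ1 ha hr q r hrin hxi ζ η hζ hη hζ0 hη0
    have e1 := dev_le_im ((hr q r hrin).trans hδ1)
    have e2 : imS (hol (fun s => π (nf φ T s)) (lab a x) (ρ r) q) =
        xi (fun s => π (nf φ T s)) ρ (lab a x) (q, r) := rfl
    rw [e2, hxi, Pin r hrin] at e1
    have hM : 0 ≤ ζ + L * (2 * K + L) * ((δ + ε) * η) := by positivity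
    have e3 := norm_lc_ext_le π (xi (fun s => π (nf φ T s)) ρ (lab a x)) p (β r) q
      (M := ζ + L * (2 * K + L) * ((δ + ε) * η)) ?_
    · have e4 := mul_le_mul_of_nonneg_right (hBr r hrin) hM
      have e5 : 0 ≤ Bm * (L * (2 * K + L)) * ζ := by positivity
      have e6 : 0 ≤ Bm * ((δ + ε) * η) := by positivity
      nlinarith
    · intro e he
      have mem1 : e.1 ∈ S0 := Finset.mem_insert_of_mem (Finset.mem_biUnion.2 ⟨r, hrin,
        Finset.mem_biUnion.2 ⟨e, he, Finset.mem_insert_self _ _⟩⟩)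
      have mem2 : ∀ y ∈ lb e.2, e.1 * FreeGroup.lift (nf φ T) y.1 ∈ S0 := fun y hy =>
        Finset.mem_insert_of_mem (Finset.mem_biUnion.2 ⟨r, hrin,
          Finset.mem_biUnion.2 ⟨e, he, Finset.mem_insert_of_mem
            (Finset.mem_image.2 ⟨y.1, memV _ y hy, rfl⟩)⟩⟩)
      have f1 := im_cprod_sub_le π (nf φ T) ρ (rel_one hρ) (lab a x) (lb e.2) (q * π e.1)
        (θ := K * (δ + ε)) (δ := δ) (η := η) (by positivity) hδ hη0
        (fun y hy => (hsm _ (memV _ y hy)) Q π a x ε δ hε hδ ha
          (fun q r hr' => hr q r (Finset.mem_union_left _ hr')) _)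
        (fun y hy => hr _ _ (memR _ y hy))
        (fun y hy => by
          rw [mul_assoc, ← map_mul]
          exact hη _ (mem2 y hy) _ (memR _ y hy))
      rw [← hlb, hol_map_inl] at f1
      have f2 := (norm_imS_le _).trans (hζ _ mem1 e.2)
      have f3 : ((lb e.2).length : ℝ) * (2 * (K * (δ + ε)) + (lb e.2).length * δ) * η ≤
          L * (2 * K + L) * ((δ + ε) * η) := by
        have g0 : (0 : ℝ) ≤ (lb e.2).length := Nat.cast_nonneg _
        have g1 : ((lb e.2).length : ℝ) * δ ≤ L * (δ + ε) :=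
          mul_le_mul (hLj _) (by linarith) hδ hL0
        have g2 : ((lb e.2).length : ℝ) * (2 * (K * (δ + ε)) + (lb e.2).length * δ) ≤
            L * (2 * (K * (δ + ε)) + L * (δ + ε)) :=
          mul_le_mul (hLj _) (by linarith) (by positivity) hL0
        calc _ ≤ L * (2 * (K * (δ + ε)) + L * (δ + ε)) * η :=
              mul_le_mul_of_nonneg_right g2 hη0
          _ = _ := by ring
      have f4 := norm_sub_norm_le
        (Finsupp.linearCombination ℤ (xi (fun s => π (nf φ T s)) ρ (lab a x))
          (push π (q * π e.1) (cchain (nf φ T) (lb e.2))))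
        (imS (hol (fun s => π (φ s)) a (b e.2) (q * π e.1)))
      rw [norm_sub_rev] at f4
      change ‖Finsupp.linearCombination ℤ (xi (fun s => π (nf φ T s)) ρ (lab a x))
          (push π (q * π e.1) (cchain (nf φ T) (lb e.2)))‖ ≤ _
      linarith

end Crest.Agent.R197
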