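import Crest.Agent.R197.DegDefs

/-! An odd number of regular zeros gives non-zero degree. -/

set_option autoImplicit false

namespace Crest.Agent.R197

open MeasureTheory Set Filter Topology

variable {ι : Type} [Fintype ι] [DecidableEq ι]

theorem local_ball {f : (ι → ℝ) → (ι → ℝ)} {O : Set (ι → ℝ)} (hO : IsOpen O)
    (hf : ContDiffOn ℝ 1 f O) {z : ι → ℝ} (hz : z ∈ O) (hz0 : f z = 0)
    (hreg : (fderiv ℝ f z).det ≠ 0) :
    ∃ s : ℝ, (s = 1 ∨ s = -1) ∧ ∀ᶠ r in 𝓝[>] (0 : ℝ), Metric.closedBall z r ⊆ O ∧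
      ∀ᶠ η in 𝓝[>] (0 : ℝ), dint f (Metric.closedBall z r) η = s * ∫ y : ι → ℝ, bump η y := by
  have hfz : ContDiffAt ℝ 1 f z := hf.contDiffAt (hO.mem_nhds hz)
  let f' : (ι → ℝ) ≃L[ℝ] (ι → ℝ) := ContinuousLinearMap.toContinuousLinearEquivOfDetNeZero _ hreg
  have hs : HasStrictFDerivAt f (f' : (ι → ℝ) →L[ℝ] (ι → ℝ)) z := by
    have := hfz.hasStrictFDerivAt (by simp)
    simpa [f'] using this
  have hcont : ContinuousOn (fun x => (fderiv ℝ f x).det) O :=
    ContinuousLinearMap.continuous_det.comp_continuousOn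
      (hf.continuousOn_fderiv_of_isOpen hO le_rfl)
  have hcz : ContinuousAt (fun x => (fderiv ℝ f x).det) z := hcont.continuousAt (hO.mem_nhds hz)
  obtain ⟨s, hs1, hsign⟩ : ∃ s : ℝ, (s = 1 ∨ s = -1) ∧
      ∀ᶠ x in 𝓝 z, (fderiv ℝ f x).det = s * |(fderiv ℝ f x).det| := by
    rcases lt_or_gt_of_ne hreg with h | h
    · refine ⟨-1, Or.inr rfl, ?_⟩
      filter_upwards [hcz.eventually (gt_mem_nhds h)] with x hx
      rw [abs_of_neg hx]; ring
    · refine ⟨1, Or.inl rfl, ?_⟩
      filter_upwards [hcz.eventually (lt_mem_nhds h)] with x hx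
      rw [abs_of_pos hx]; ring
  refine ⟨s, hs1, ?_⟩
  have hsrc : (hs.toOpenPartialHomeomorph f).source ∈ 𝓝 z :=
    (hs.toOpenPartialHomeomorph f).open_source.mem_nhds hs.mem_toOpenPartialHomeomorph_source
  have hinj : InjOn f (hs.toOpenPartialHomeomorph f).source :=
    (hs.toOpenPartialHomeomorph f).injOn
  obtain ⟨r₀, hr₀, hsub⟩ := Metric.nhds_basis_closedBall.mem_iff.1
    (inter_mem (inter_mem (hO.mem_nhds hz) hsrc) hsign)
  filter_upwards [Ioo_mem_nhdsGT hr₀] with r hr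
  have hB : Metric.closedBall z r ⊆ O ∩ (hs.toOpenPartialHomeomorph f).source ∩
      {x | (fderiv ℝ f x).det = s * |(fderiv ℝ f x).det|} :=
    (Metric.closedBall_subset_closedBall hr.2.le).trans hsub
  refine ⟨fun x hx => (hB hx).1.1, ?_⟩
  have himg : f '' Metric.closedBall z r ∈ 𝓝 (0 : ι → ℝ) := by
    rw [← hz0, ← hs.map_nhds_eq_of_equiv]
    exact image_mem_map (Metric.closedBall_mem_nhds z hr.1)
  obtain ⟨η₀, hη₀, hball⟩ := Metric.mem_nhds_iff.1 himg
  filter_upwards [Ioo_mem_nhdsGT hη₀] with η hη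
  have hm : MeasurableSet (Metric.closedBall z r) := Metric.isClosed_closedBall.measurableSet
  have hcv := integral_image_eq_integral_abs_det_fderiv_smul volume hm
    (f := f) (f' := fun x => fderiv ℝ f x)
    (fun x hx => ((hf.contDiffAt (hO.mem_nhds (hB hx).1.1)).differentiableAt
      (by simp)).hasFDerivAt.hasFDerivWithinAt)
    (hinj.mono fun x hx => (hB hx).1.2) (bump η)
  have h1 : ∫ y in f '' Metric.closedBall z r, bump η y = ∫ y : ι → ℝ, bump η y := by
    apply setIntegral_eq_integral_of_forall_compl_eq_zero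
    intro y hy
    apply bump_eq_zero hη.1
    by_contra hc
    exact hy (hball (by simpa using (not_le.1 hc).trans hη.2))
  rw [← h1, hcv, dint, ← integral_const_mul]
  refine setIntegral_congr_fun hm fun x hx => ?_
  have := (hB hx).2
  simp only [mem_ofPred_eq] at this
  simp only [smul_eq_mul]
  rw [mul_comm |_|, ← mul_assoc, mul_comm s, mul_assoc, ← this]

omit [DecidableEq ι] in
theorem integral_bump_pos {η : ℝ} (hη : 0 < η) : 0 < ∫ y : ι → ℝ, bump η y := by
  have hsupp : HasCompactSupport (bump η : (ι → ℝ) → ℝ) := by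
    refine HasCompactSupport.intro (isCompact_closedBall 0 η) fun y hy => bump_eq_zero hη ?_
    simpa using (not_le.1 (by simpa using hy : ¬ ‖y‖ ≤ η)).le
  refine (continuous_bump η).integral_pos_of_hasCompactSupport_nonneg_nonzero hsupp
    (fun y => bump_nonneg η y) (x := 0) ?_
  unfold bump
  exact (Finset.prod_pos fun k _ => hat_pos (by simp)).ne'

theorem sum_sign_ne_zero {α : Type} (Z : Finset α) (s : α → ℝ) (hs : ∀ z ∈ Z, s z = 1 ∨ s z = -1)
    (hodd : Odd Z.card) : ∑ z ∈ Z, s z ≠ 0 := by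
  classical
  have key : ∀ Y : Finset α, (∀ z ∈ Y, s z = 1 ∨ s z = -1) →
      ∃ k : ℤ, ∑ z ∈ Y, s z = Y.card - 2 * k := by
    intro Y
    induction Y using Finset.induction_on with
    | empty => exact fun _ => ⟨0, by simp⟩
    | insert a Y ha ih =>
      intro h
      obtain ⟨k, hk⟩ := ih fun z hz => h z (Finset.mem_insert_of_mem hz)
      rw [Finset.sum_insert ha, Finset.card_insert_of_notMem ha, hk]
      rcases h a (Finset.mem_insert_self _ _) with h1 | h1
      · exact ⟨k, by rw [h1]; push_cast; ring⟩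
      · exact ⟨k + 1, by rw [h1]; push_cast; ring⟩
  obtain ⟨k, hk⟩ := key Z hs
  obtain ⟨m, hm⟩ := hodd
  rw [hk, hm]
  intro h
  have : ((2 * m + 1 : ℕ) : ℤ) - 2 * k = 0 := by exact_mod_cast h
  omega

theorem ess_of_odd {f : (ι → ℝ) → (ι → ℝ)} {O : Set (ι → ℝ)} (hO : IsOpen O)
    (hf : ContDiffOn ℝ 1 f O) (Z : Finset (ι → ℝ)) (hZ : ∀ x, x ∈ Z ↔ x ∈ O ∧ f x = 0)
    (hodd : Odd Z.card) (hreg : ∀ x ∈ Z, (fderiv ℝ f x).det ≠ 0) : Ess f O := by
  classical
  have h1 : ∀ z, ∃ s : ℝ, z ∈ Z → (s = 1 ∨ s = -1) ∧ ∀ᶠ r in 𝓝[>] (0 : ℝ),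
      Metric.closedBall z r ⊆ O ∧ ∀ᶠ η in 𝓝[>] (0 : ℝ),
        dint f (Metric.closedBall z r) η = s * ∫ y : ι → ℝ, bump η y := by
    intro z
    by_cases hz : z ∈ Z
    · obtain ⟨s, hs⟩ := local_ball hO hf ((hZ z).1 hz).1 ((hZ z).1 hz).2 (hreg z hz)
      exact ⟨s, fun _ => hs⟩
    · exact ⟨0, fun h => absurd h hz⟩
  choose s hs using h1
  have h2 : ∀ᶠ r in 𝓝[>] (0 : ℝ), ∀ z ∈ Z, ∀ z' ∈ Z, z ≠ z' → r + r < dist z z' := by
    refine (Z.eventually_all).2 fun z _ => (Z.eventually_all).2 fun z' _ => ?_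
    by_cases h : z = z'
    · exact Eventually.of_forall fun _ h' => absurd h h'
    · have : 0 < dist z z' / 2 := by have := dist_pos.2 h; linarith
      filter_upwards [Ioo_mem_nhdsGT this] with r hr _
      linarith [hr.2]
  have h3 := (Z.eventually_all).2 fun z hz => (hs z hz).2
  obtain ⟨r, ⟨hr1, hr2⟩, hr0⟩ := ((h2.and h3).and self_mem_nhdsWithin).exists
  refine ⟨⋃ z ∈ Z, Metric.closedBall z r, Z.isCompact_biUnion fun z _ => isCompact_closedBall z r,
    iUnion₂_subset fun z hz => (hr2 z hz).1, fun x hx hx0 => ?_, ?_⟩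
  · have hxZ := (hZ x).2 ⟨hx, hx0⟩
    refine mem_interior_iff_mem_nhds.2 (mem_of_superset (Metric.closedBall_mem_nhds x hr0) ?_)
    exact subset_iUnion₂ (s := fun z (_ : z ∈ Z) => Metric.closedBall z r) x hxZ
  · have h4 := (Z.eventually_all).2 fun z hz => (hr2 z hz).2
    filter_upwards [h4, self_mem_nhdsWithin] with η hη hη0
    have hcont : ContinuousOn (fun x => bump η (f x) * (fderiv ℝ f x).det) O :=
      ((continuous_bump η).comp_continuousOn hf.continuousOn).mul
        (ContinuousLinearMap.continuous_det.comp_continuousOn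
          (hf.continuousOn_fderiv_of_isOpen hO le_rfl))
    have e : dint f (⋃ z ∈ Z, Metric.closedBall z r) η
        = ∑ z ∈ Z, dint f (Metric.closedBall z r) η := by
      unfold dint
      refine integral_biUnion_finset Z (fun z _ => Metric.isClosed_closedBall.measurableSet) ?_
        fun z hz => (hcont.mono (hr2 z hz).1).integrableOn_compact (isCompact_closedBall z r)
      intro z hz z' hz' hne
      exact Metric.closedBall_disjoint_closedBall (hr1 z hz z' hz' hne)
    rw [e, Finset.sum_congr rfl hη, ← Finset.sum_mul]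
    exact mul_ne_zero (sum_sign_ne_zero Z s (fun z hz => (hs z hz).1) hodd)
      (integral_bump_pos hη0).ne'

end Crest.Agent.R197
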