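import Crest.Agent.R197.DegDefs

/-! Equivariant transversality off the fixed set of a linear involution. -/

set_option autoImplicit false

namespace Crest.Agent.R197

open MeasureTheory Set Filter Topology

variable {ι : Type} [Fintype ι] [DecidableEq ι]

namespace Deg5

omit [DecidableEq ι] in
/-- Sard in equal dimension: every non-empty open set contains a regular value. -/
theorem exists_regular_value {g : (ι → ℝ) → (ι → ℝ)} {U V : Set (ι → ℝ)}
    (hg : ∀ x ∈ U, DifferentiableAt ℝ g x) (hV : IsOpen V) (hne : V.Nonempty) :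
    ∃ y ∈ V, ∀ x ∈ U, g x = y → (fderiv ℝ g x).det ≠ 0 := by
  have h0 : (volume : Measure (ι → ℝ)) (g '' {x | x ∈ U ∧ (fderiv ℝ g x).det = 0}) = 0 :=
    addHaar_image_eq_zero_of_det_fderivWithin_eq_zero volume (f' := fun x => fderiv ℝ g x)
      (fun x hx => (hg x hx.1).hasFDerivAt.hasFDerivWithinAt) (fun x hx => hx.2)
  by_contra hcon
  push Not at hcon
  have hsub : V ⊆ g '' {x | x ∈ U ∧ (fderiv ℝ g x).det = 0} := by
    intro y hy
    obtain ⟨x, hx, h1, h2⟩ := hcon y hy
    exact ⟨x, ⟨hx, h2⟩, h1⟩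
  exact (hV.measure_pos volume hne).ne' (measure_mono_null hsub h0)

omit [DecidableEq ι] in
theorem hasFDerivAt_chi_zero (l : (ι → ℝ) →L[ℝ] ℝ) {x : ι → ℝ} (hx : l x = 0) :
    HasFDerivAt (fun z => Real.smoothTransition (l z)) (0 : (ι → ℝ) →L[ℝ] ℝ) x := by
  have hd : DifferentiableAt ℝ (fun z => Real.smoothTransition (l z)) x :=
    ((Real.smoothTransition.contDiff (n := 1)).differentiable (by simp) _).comp x
      l.differentiableAt
  have hm : IsLocalMin (fun z => Real.smoothTransition (l z)) x := by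
    refine Filter.Eventually.of_forall fun z => ?_
    simp only [hx, Real.smoothTransition.zero]
    exact Real.smoothTransition.nonneg _
  have := hd.hasFDerivAt
  rwa [hm.fderiv_eq_zero] at this

omit [DecidableEq ι] in
/-- One step of Deimling's construction. -/
theorem step {h : (ι → ℝ) → (ι → ℝ)} {O : Set (ι → ℝ)}
    (hO : IsOpen O) (hh : ∀ x ∈ O, DifferentiableAt ℝ h x) (J : (ι → ℝ) →L[ℝ] (ι → ℝ))
    (hJ : ∀ x, J (J x) = x) (hJO : ∀ x ∈ O, J x ∈ O) (hJh : ∀ x ∈ O, h (J x) = J (h x))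
    (l : (ι → ℝ) →L[ℝ] ℝ) (hl : ∀ x, l (J x) = - l x) {ε : ℝ} (hε : 0 < ε) :
    ∃ Q : (ι → ℝ) → (ι → ℝ), ContDiff ℝ 1 Q ∧ (∀ x, ‖Q x‖ < ε) ∧
      (∀ x, Q (J x) = J (Q x)) ∧
      (∀ x, l x = 0 → Q x = 0 ∧ HasFDerivAt Q (0 : (ι → ℝ) →L[ℝ] (ι → ℝ)) x) ∧
      ∀ x ∈ O, l x ≠ 0 → h x = Q x → (fderiv ℝ (fun y => h y - Q y) x).det ≠ 0 := by
  set χ := Real.smoothTransition with hχ
  have hχc : ContDiff ℝ 1 χ := Real.smoothTransition.contDiff (n := 1)
  have hχl : ContDiff ℝ 1 (fun z => χ (l z)) := hχc.comp l.contDiff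
  have hχl' : ContDiff ℝ 1 (fun z => χ (-l z)) := hχc.comp l.contDiff.neg
  have hχd : ∀ x, DifferentiableAt ℝ (fun z => χ (l z)) x :=
    fun x => hχl.differentiable (by simp) x
  set g : (ι → ℝ) → (ι → ℝ) := fun z => (χ (l z))⁻¹ • h z with hg
  have hgd : ∀ x ∈ {x | x ∈ O ∧ 0 < l x}, DifferentiableAt ℝ g x := by
    intro x hx
    exact ((hχd x).inv (Real.smoothTransition.pos_of_pos hx.2).ne').smul (hh x hx.1)
  obtain ⟨y, hy, hreg⟩ := exists_regular_value (V := {y | ‖y‖ + ‖J y‖ < ε}) hgd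
    (isOpen_lt (by fun_prop) continuous_const) ⟨0, by simpa using hε⟩
  set Q : (ι → ℝ) → (ι → ℝ) := fun z => χ (l z) • y + χ (-l z) • J y with hQ
  have hQc : ContDiff ℝ 1 Q := (hχl.smul contDiff_const).add (hχl'.smul contDiff_const)
  have hQJ : ∀ x, Q (J x) = J (Q x) := by
    intro x
    simp only [hQ, hl, neg_neg, map_add, map_smul, hJ]
    rw [add_comm]
  have hpos : ∀ x ∈ O, 0 < l x → h x = Q x → (fderiv ℝ (fun y => h y - Q y) x).det ≠ 0 := by
    intro x hx hlx hxQ
    have hχx : χ (l x) ≠ 0 := (Real.smoothTransition.pos_of_pos hlx).ne'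
    have hev : ∀ᶠ z in 𝓝 x, 0 < l z := l.continuous.continuousAt.eventually (lt_mem_nhds hlx)
    have key : ∀ z, 0 < l z → h z - Q z = χ (l z) • (g z - y) := by
      intro z hz
      have h1 : χ (l z) ≠ 0 := (Real.smoothTransition.pos_of_pos hz).ne'
      have h2 : χ (-l z) = 0 := Real.smoothTransition.zero_of_nonpos (by linarith)
      simp only [hQ, hg, h2, zero_smul, add_zero, smul_sub, smul_smul, mul_inv_cancel₀ h1,
        one_smul]
    have hgx : g x = y := by
      have := key x hlx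
      rw [hxQ, sub_self] at this
      exact sub_eq_zero.1 ((smul_eq_zero.1 this.symm).resolve_left hχx)
    have hd1 : HasFDerivAt (fun z => χ (l z) • (g z - y))
        (χ (l x) • fderiv ℝ g x) x := by
      have := (hχd x).hasFDerivAt.smul ((hgd x ⟨hx, hlx⟩).hasFDerivAt.sub_const y)
      simpa [hgx] using this
    have hd2 : HasFDerivAt (fun z => h z - Q z) (χ (l x) • fderiv ℝ g x) x :=
      hd1.congr_of_eventuallyEq (hev.mono fun z hz => key z hz)
    rw [hd2.fderiv]
    have := hreg x ⟨hx, hlx⟩ hgx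
    simp only [ContinuousLinearMap.det, ContinuousLinearMap.toLinearMap_smul,
      LinearMap.det_smul] at this ⊢
    exact mul_ne_zero (pow_ne_zero _ hχx) this
  refine ⟨Q, hQc, fun x => ?_, hQJ, fun x hx => ⟨?_, ?_⟩, fun x hx hlx hxQ => ?_⟩
  · have hb : ∀ (t : ℝ) (v : ι → ℝ), ‖χ t • v‖ ≤ ‖v‖ := by
      intro t v
      rw [norm_smul, Real.norm_of_nonneg (Real.smoothTransition.nonneg t)]
      exact mul_le_of_le_one_left (norm_nonneg _) (Real.smoothTransition.le_one t)
    exact lt_of_le_of_lt ((norm_add_le _ _).trans (add_le_add (hb _ _) (hb _ _))) hy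
  · simp [hQ, hx, hχ]
  · have h1 := (hasFDerivAt_chi_zero l hx).smul_const y
    have h2 := (hasFDerivAt_chi_zero (-l) (x := x) (by simp [hx])).smul_const (J y)
    have := h1.add h2
    simpa [hQ, hχ] using this
  · rcases lt_or_gt_of_ne hlx with hneg | hp
    · have hx' : J x ∈ O := hJO x hx
      have hl' : 0 < l (J x) := by rw [hl]; linarith
      have h1 := hpos (J x) hx' hl' (by rw [hJh x hx, hQJ, hxQ])
      have hd : DifferentiableAt ℝ (fun y => h y - Q y) (J x) :=
        (hh _ hx').sub (hQc.differentiable (by simp) _)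
      have h2 : HasFDerivAt (fun z => J (h (J z) - Q (J z)))
          (J.comp ((fderiv ℝ (fun y => h y - Q y) (J x)).comp J)) x :=
        J.hasFDerivAt.comp x (hd.hasFDerivAt.comp x J.hasFDerivAt)
      have h3 : HasFDerivAt (fun z => h z - Q z)
          (J.comp ((fderiv ℝ (fun y => h y - Q y) (J x)).comp J)) x := by
        refine h2.congr_of_eventuallyEq ?_
        filter_upwards [hO.mem_nhds hx] with z hz
        rw [hJh z hz, hQJ, ← map_sub, hJ]
      have hJdet : J.det ≠ 0 := by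
        have : (J : (ι → ℝ) →ₗ[ℝ] (ι → ℝ)).comp (J : (ι → ℝ) →ₗ[ℝ] (ι → ℝ)) = LinearMap.id :=
          LinearMap.ext hJ
        have h4 := congrArg LinearMap.det this
        rw [LinearMap.det_comp, LinearMap.det_id] at h4
        exact left_ne_zero_of_mul_eq_one h4
      rw [h3.fderiv]
      simp only [ContinuousLinearMap.det, ContinuousLinearMap.toLinearMap_comp, LinearMap.det_comp]
        at h1 hJdet ⊢
      exact mul_ne_zero hJdet (mul_ne_zero h1 hJdet)
    · exact hpos x hx hp hxQ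

end Deg5

theorem exists_equivariant_perturbation {f : (ι → ℝ) → (ι → ℝ)} {O K : Set (ι → ℝ)}
    (hO : IsOpen O) (hf : ContDiffOn ℝ 1 f O) (J : (ι → ℝ) →L[ℝ] (ι → ℝ))
    (hJ : ∀ x, J (J x) = x) (hJO : ∀ x ∈ O, J x ∈ O) (hJf : ∀ x ∈ O, f (J x) = J (f x))
    (hK : IsCompact K) {ε : ℝ} (hε : 0 < ε) :
    ∃ P : (ι → ℝ) → (ι → ℝ), ContDiff ℝ 1 P ∧ (∀ x ∈ K, ‖P x‖ < ε) ∧
      (∀ x, P (J x) = J (P x)) ∧ (∀ x, J x = x → P x = 0 ∧ fderiv ℝ P x = 0) ∧
      ∀ x ∈ O, J x ≠ x → f x = P x → (fderiv ℝ (fun y => f y - P y) x).det ≠ 0 := by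
  have hfd : ∀ x ∈ O, DifferentiableAt ℝ f x := fun x hx =>
    (hf.contDiffAt (hO.mem_nhds hx)).differentiableAt (by simp)
  have main : ∀ s : Finset ι, ∀ ε : ℝ, 0 < ε →
      ∃ P : (ι → ℝ) → (ι → ℝ), ContDiff ℝ 1 P ∧ (∀ x, ‖P x‖ < ε) ∧
      (∀ x, P (J x) = J (P x)) ∧
      (∀ x, J x = x → P x = 0 ∧ HasFDerivAt P (0 : (ι → ℝ) →L[ℝ] (ι → ℝ)) x) ∧
      ∀ x ∈ O, (∃ k ∈ s, (x - J x) k ≠ 0) → f x = P x →
        (fderiv ℝ (fun y => f y - P y) x).det ≠ 0 := by
    intro s
    induction s using Finset.induction_on with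
    | empty =>
      intro ε hε
      exact ⟨fun _ => 0, contDiff_const, fun _ => by simpa using hε, fun _ => by simp,
        fun x _ => ⟨rfl, hasFDerivAt_const _ _⟩, fun x _ h => by simp at h⟩
    | insert k s _ ih =>
      intro ε hε
      obtain ⟨P, hPc, hPs, hPJ, hP0, hPr⟩ := ih (ε / 2) (half_pos hε)
      have hPd : ∀ x, DifferentiableAt ℝ P x := fun x => hPc.differentiable (by simp) x
      let l : (ι → ℝ) →L[ℝ] ℝ :=
        (ContinuousLinearMap.proj k).comp (ContinuousLinearMap.id ℝ (ι → ℝ) - J)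
      have hl : ∀ x, l x = (x - J x) k := fun x => rfl
      obtain ⟨Q, hQc, hQs, hQJ, hQ0, hQr⟩ := Deg5.step (h := fun x => f x - P x) hO
        (fun x hx => (hfd x hx).sub (hPd x)) J hJ hJO
        (fun x hx => by simp only [hJf x hx, hPJ, map_sub]) l
        (fun x => by simp only [hl, hJ, Pi.sub_apply]; ring) (half_pos hε)
      have hfun : (fun y => f y - (P y + Q y)) = fun y => f y - P y - Q y := by
        funext y; abel
      refine ⟨fun x => P x + Q x, hPc.add hQc, fun x => ?_, fun x => ?_, fun x hx => ?_,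
        fun x hx hk hxP => ?_⟩
      · have := norm_add_le (P x) (Q x)
        linarith [hPs x, hQs x]
      · simp only [hPJ, hQJ, map_add]
      · have hlx : l x = 0 := by simp [hl, hx]
        refine ⟨by simp [(hP0 x hx).1, (hQ0 x hlx).1], ?_⟩
        simpa using (hP0 x hx).2.add (hQ0 x hlx).2
      · rw [hfun]
        by_cases hlx : l x = 0
        · obtain ⟨k', hk', hne⟩ := hk
          have hk's : k' ∈ s := by
            rcases Finset.mem_insert.1 hk' with rfl | h
            · exact absurd hlx hne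
            · exact h
          have h1 := hPr x hx ⟨k', hk's, hne⟩ (by simpa [(hQ0 x hlx).1] using hxP)
          have h2 := ((hfd x hx).sub (hPd x)).hasFDerivAt.sub (hQ0 x hlx).2
          rw [sub_zero] at h2
          have h3 : fderiv ℝ (fun y => f y - P y - Q y) x = fderiv ℝ (fun y => f y - P y) x :=
            h2.fderiv
          rwa [h3]
        · exact hQr x hx hlx (by simp only [hxP]; abel)
  obtain ⟨P, hPc, hPs, hPJ, hP0, hPr⟩ := main Finset.univ ε hε
  refine ⟨P, hPc, fun x _ => hPs x, hPJ, fun x hx => ⟨(hP0 x hx).1, (hP0 x hx).2.fderiv⟩,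
    fun x hx hne => hPr x hx ?_⟩
  by_contra hcon
  push Not at hcon
  exact hne (sub_eq_zero.1 (funext fun k => hcon k (Finset.mem_univ k))).symm

end Crest.Agent.R197
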