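import Crest.Agent.R197.Deg3
import Crest.Agent.R197.Deg4
import Crest.Agent.R197.Deg5

/-! The equivariant continuation principle. -/

set_option autoImplicit false

namespace Crest.Agent.R197

open MeasureTheory Set Filter Topology

theorem deg6_odd {α : Type} (Z : Finset α) (J : α → α) (hJ : ∀ x, J (J x) = x)
    (hZ : ∀ x ∈ Z, J x ∈ Z) {x₀ : α} (h0 : x₀ ∈ Z) (hx₀ : J x₀ = x₀)
    (huniq : ∀ x ∈ Z, J x = x → x = x₀) : Odd Z.card := by
  classical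
  have h1 : ∑ _x ∈ Z.erase x₀, (1 : ZMod 2) = 0 := by
    refine Finset.sum_involution (fun x _ => J x) (fun _ _ => by decide) ?_ ?_ (fun x _ => hJ x)
    · intro x hx _ e
      exact (Finset.mem_erase.1 hx).1 (huniq x (Finset.mem_erase.1 hx).2 e)
    · intro x hx
      refine Finset.mem_erase.2 ⟨fun e => (Finset.mem_erase.1 hx).1 ?_,
        hZ x (Finset.mem_erase.1 hx).2⟩
      rw [← hJ x, e, hx₀]
  rw [Finset.sum_const, nsmul_eq_mul, mul_one, ZMod.natCast_eq_zero_iff_even] at h1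
  rw [← Finset.card_erase_add_one h0]
  exact h1.add_one

theorem deg6_finite {E : Type} [NormedAddCommGroup E] [NormedSpace ℝ E] [FiniteDimensional ℝ E]
    {h : E → E} {S : Set E} (hS : IsCompact S) (h0 : ∀ x ∈ S, h x = 0)
    (hd : ∀ x ∈ S, DifferentiableAt ℝ h x) (hdet : ∀ x ∈ S, (fderiv ℝ h x).det ≠ 0) :
    S.Finite := by
  obtain ⟨t, -, ht⟩ := hS.elim_nhds_subcover (fun x => {z | z ≠ x → h z ≠ 0}) (fun x hx => by
    have hk : LinearMap.ker ((fderiv ℝ h x : E →L[ℝ] E) : E →ₗ[ℝ] E) = ⊥ := by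
      by_contra hk
      exact hdet x hx (LinearMap.det_eq_zero_iff_ker_ne_bot.2 hk)
    obtain ⟨K, -, hK⟩ := LinearMap.exists_antilipschitzWith _ hk
    have := (hd x hx).hasFDerivAt.eventually_ne (c := 0) ⟨K, hK⟩
    exact eventually_nhdsWithin_iff.1 this)
  refine t.finite_toSet.subset fun x hx => ?_
  obtain ⟨y, hy, hxy⟩ := mem_iUnion₂.1 (ht hx)
  have : x = y := by
    by_contra e
    exact hxy e (h0 x hx)
  rw [this]
  exact hy

theorem deg6_ess {ι : Type} [Fintype ι] [DecidableEq ι] {f : (ι → ℝ) → (ι → ℝ)}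
    {O : Set (ι → ℝ)} (hO : IsOpen O) (hf : ContDiffOn ℝ 1 f O)
    (hZ : IsCompact {x ∈ O | f x = 0}) (J : (ι → ℝ) →L[ℝ] (ι → ℝ)) (hJ : ∀ x, J (J x) = x)
    (hJO : ∀ x ∈ O, J x ∈ O) (hJf : ∀ x ∈ O, f (J x) = J (f x)) (x₀ : ι → ℝ) (h0 : x₀ ∈ O)
    (hf0 : f x₀ = 0) (hx₀ : J x₀ = x₀) (huniq : ∀ x ∈ O, f x = 0 → J x = x → x = x₀)
    (L : (ι → ℝ) →L[ℝ] (ι → ℝ)) (hL : HasFDerivAt f L x₀) (hLi : Function.Injective L) :
    Ess f O := by
  obtain ⟨K0, hK0, hZK0, hK0O⟩ := exists_compact_between hZ hO (fun x hx => hx.1)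
  set O' : Set (ι → ℝ) := interior K0 ∩ J ⁻¹' interior K0 with hO'def
  have hO' : IsOpen O' := isOpen_interior.inter (isOpen_interior.preimage J.continuous)
  have hO'K : O' ⊆ K0 := fun x hx => interior_subset hx.1
  have hO'O : O' ⊆ O := hO'K.trans hK0O
  have hZO' : {x ∈ O | f x = 0} ⊆ O' := fun x hx =>
    ⟨hZK0 hx, hZK0 ⟨hJO x hx.1, by rw [hJf x hx.1, hx.2, map_zero]⟩⟩
  have hJO' : ∀ x ∈ O', J x ∈ O' := fun x hx => ⟨hx.2, by
    show J (J x) ∈ interior K0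
    rw [hJ]; exact hx.1⟩
  obtain ⟨K1, hK1, hZK1, hK1O⟩ := exists_compact_between hZ hO' hZO'
  obtain ⟨m, hm, hmK⟩ := (hK0.diff isOpen_interior (t := interior K1)).exists_forall_le'
    (f := fun x => ‖f x‖) (a := 0)
    ((hf.continuousOn.mono (fun x hx => hK0O hx.1)).norm)
    (fun x hx => norm_pos_iff.2 fun e => hx.2 (hZK1 ⟨hK0O hx.1, e⟩))
  obtain ⟨P, hP, hPm, hPJ, hPfix, hPreg⟩ := exists_equivariant_perturbation hO' (hf.mono hO'O) J hJ
    hJO' (fun x hx => hJf x (hO'O hx)) hK0 hm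
  have hA : ∀ x ∈ O', ∀ t ∈ Icc (0 : ℝ) 1, f x - t • P x = 0 → x ∈ K1 := by
    intro x hx t ht e
    by_contra hx1
    have h1 := hmK x ⟨hO'K hx, fun h => hx1 (interior_subset h)⟩
    have h2 := hPm x (hO'K hx)
    have h3 : ‖f x‖ = t * ‖P x‖ := by
      rw [sub_eq_zero.1 e, norm_smul, Real.norm_eq_abs, abs_of_nonneg ht.1]
    have h4 : t * ‖P x‖ ≤ ‖P x‖ := mul_le_of_le_one_left (norm_nonneg _) ht.2
    linarith
  have hh : ContDiffOn ℝ 1 (fun y => f y - P y) O' := (hf.mono hO'O).sub hP.contDiffOn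
  -- the zero set of `f - P`
  have hS : IsCompact {x ∈ O' | f x - P x = 0} := by
    have e : {x ∈ O' | f x - P x = 0} = K1 ∩ (fun y => f y - P y) ⁻¹' {0} := by
      ext x
      constructor
      · intro hx
        exact ⟨hA x hx.1 1 ⟨zero_le_one, le_rfl⟩ (by rw [one_smul]; exact hx.2), hx.2⟩
      · intro hx
        exact ⟨hK1O hx.1, hx.2⟩
    rw [e]
    exact hK1.of_isClosed_subset ((hh.continuousOn.mono hK1O).preimage_isClosed_of_isClosed
      hK1.isClosed isClosed_singleton) inter_subset_left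
  have hfix : ∀ x ∈ O', f x - P x = 0 → J x = x → x = x₀ := by
    intro x hx e hJx
    rw [(hPfix x hJx).1, sub_zero] at e
    exact huniq x (hO'O hx) e hJx
  have hreg : ∀ x ∈ {x ∈ O' | f x - P x = 0}, (fderiv ℝ (fun y => f y - P y) x).det ≠ 0 := by
    intro x hx
    by_cases hJx : J x = x
    · have e := hfix x hx.1 hx.2 hJx
      subst e
      have h1 : HasFDerivAt P (0 : (ι → ℝ) →L[ℝ] (ι → ℝ)) x := by
        rw [← (hPfix x hJx).2]
        exact (hP.differentiable (by simp) x).hasFDerivAt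
      have h2 : HasFDerivAt (fun y => f y - P y) (L - 0) x := hL.sub h1
      rw [h2.fderiv, sub_zero]
      intro hdet
      exact LinearMap.det_eq_zero_iff_ker_ne_bot.1 hdet (LinearMap.ker_eq_bot.2 hLi)
    · exact hPreg x hx.1 hJx (sub_eq_zero.1 hx.2)
  have hfin : {x ∈ O' | f x - P x = 0}.Finite :=
    deg6_finite (h := fun y => f y - P y) hS (fun x hx => hx.2)
      (fun x hx => (hh.contDiffAt (hO'.mem_nhds hx.1)).differentiableAt (by simp)) hreg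
  have hodd : Odd hfin.toFinset.card := by
    refine deg6_odd _ J hJ ?_ (x₀ := x₀) ?_ hx₀ ?_
    · intro x hx
      rw [Finite.mem_toFinset] at hx ⊢
      refine ⟨hJO' x hx.1, ?_⟩
      rw [hJf x (hO'O hx.1), hPJ, ← map_sub, hx.2, map_zero]
    · rw [Finite.mem_toFinset]
      exact ⟨hZO' ⟨h0, hf0⟩, by rw [hf0, (hPfix x₀ hx₀).1, sub_zero]⟩
    · intro x hx
      rw [Finite.mem_toFinset] at hx
      exact hfix x hx.1 hx.2
  have hE : Ess (fun y => f y - P y) O' :=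
    ess_of_odd hO' hh hfin.toFinset (fun x => by rw [Finite.mem_toFinset]; rfl) hodd
      (fun x hx => hreg x (by rwa [Finite.mem_toFinset] at hx))
  -- the homotopy back to `f`
  have hG : ContDiffOn ℝ 1 (fun p : ℝ × (ι → ℝ) => f p.2 - (1 - p.1) • P p.2) (univ ×ˢ O') :=
    ((hf.mono hO'O).comp contDiffOn_snd (fun p hp => hp.2)).sub
      (((contDiff_const.sub contDiff_fst).smul (hP.comp contDiff_snd)).contDiffOn)
  have hGZ : IsCompact {p ∈ (univ ×ˢ O' : Set (ℝ × (ι → ℝ))) | p.1 ∈ Icc (0 : ℝ) 1 ∧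
      f p.2 - (1 - p.1) • P p.2 = 0} := by
    have e : {p ∈ (univ ×ˢ O' : Set (ℝ × (ι → ℝ))) | p.1 ∈ Icc (0 : ℝ) 1 ∧
        f p.2 - (1 - p.1) • P p.2 = 0} = (Icc (0 : ℝ) 1 ×ˢ K1) ∩
          (fun p : ℝ × (ι → ℝ) => f p.2 - (1 - p.1) • P p.2) ⁻¹' {0} := by
      ext p
      constructor
      · rintro ⟨h1, h2, h3⟩
        exact ⟨⟨h2, hA p.2 h1.2 (1 - p.1) ⟨by linarith [h2.2], by linarith [h2.1]⟩ h3⟩, h3⟩
      · rintro ⟨⟨h1, h2⟩, h3⟩
        exact ⟨⟨trivial, hK1O h2⟩, h1, h3⟩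
    rw [e]
    have hc := (isCompact_Icc (a := (0 : ℝ)) (b := 1)).prod hK1
    exact hc.of_isClosed_subset ((hG.continuousOn.mono
      (fun p hp => ⟨trivial, hK1O hp.2⟩)).preimage_isClosed_of_isClosed
      hc.isClosed isClosed_singleton) inter_subset_left
  have hE1 := Ess.homotopy (isOpen_univ.prod hO') hG hGZ (by simpa using hE)
  have hE2 : Ess f O' := by simpa using hE1
  obtain ⟨K, hK, hKO, hKZ, hKd⟩ := hE2
  exact ⟨K, hK, hKO.trans hO'O, fun x hx e => hKZ x (hZO' ⟨hx, e⟩) e, hKd⟩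

theorem deg6_pi {ι : Type} [Fintype ι] [DecidableEq ι] {F : ℝ × (ι → ℝ) → (ι → ℝ)}
    {Ω : Set (ℝ × (ι → ℝ))} (hΩ : IsOpen Ω)
    (hF : ContDiffOn ℝ 1 F Ω) (hZ : IsCompact {p ∈ Ω | p.1 ∈ Icc (0 : ℝ) 1 ∧ F p = 0})
    (J : (ι → ℝ) →L[ℝ] (ι → ℝ)) (hJ : ∀ x, J (J x) = x)
    (hJΩ : ∀ x, ((0 : ℝ), x) ∈ Ω → ((0 : ℝ), J x) ∈ Ω)
    (hJF : ∀ x, ((0 : ℝ), x) ∈ Ω → F (0, J x) = J (F (0, x)))
    (x₀ : ι → ℝ) (h0 : ((0 : ℝ), x₀) ∈ Ω) (hF0 : F (0, x₀) = 0) (hx₀ : J x₀ = x₀)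
    (huniq : ∀ x, ((0 : ℝ), x) ∈ Ω → F (0, x) = 0 → J x = x → x = x₀)
    (L : (ι → ℝ) →L[ℝ] (ι → ℝ)) (hL : HasFDerivAt (fun x => F (0, x)) L x₀)
    (hLi : Function.Injective L) :
    ∃ x, ((1 : ℝ), x) ∈ Ω ∧ F (1, x) = 0 := by
  have hs : ∀ s : ℝ, ContDiffOn ℝ 1 (fun x => F (s, x)) {x | (s, x) ∈ Ω} := fun s =>
    hF.comp (contDiff_prodMk_right s).contDiffOn (fun x hx => hx)
  have hZ0 : IsCompact {x ∈ {x | ((0 : ℝ), x) ∈ Ω} | F (0, x) = 0} := by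
    have e : {x ∈ {x | ((0 : ℝ), x) ∈ Ω} | F (0, x) = 0} =
        Prod.snd '' ({p ∈ Ω | p.1 ∈ Icc (0 : ℝ) 1 ∧ F p = 0} ∩ {p | p.1 = 0}) := by
      ext x
      constructor
      · intro hx
        exact ⟨(0, x), ⟨⟨hx.1, ⟨le_rfl, zero_le_one⟩, hx.2⟩, rfl⟩, rfl⟩
      · rintro ⟨⟨s, y⟩, ⟨⟨h1, -, h2⟩, h3⟩, rfl⟩
        have h3' : s = 0 := h3
        subst h3'
        exact ⟨h1, h2⟩
    rw [e]
    exact (hZ.inter_right (isClosed_eq continuous_fst continuous_const)).image continuous_snd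
  have hE := deg6_ess (hΩ.preimage (Continuous.prodMk_right (0 : ℝ))) (hs 0) hZ0 J hJ hJΩ hJF x₀
    h0 hF0 hx₀ huniq L hL hLi
  exact Ess.exists_zero (hs 1).continuousOn (Ess.homotopy hΩ hF hZ hE)

/-- If at time `0` the map is equivariant for a linear involution and has exactly one fixed
zero, which is non-degenerate, and the zeros stay in a compact set, then there is a zero at
time `1`. -/
theorem exists_zero_of_equivariant {E : Type} [NormedAddCommGroup E] [NormedSpace ℝ E]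
    [FiniteDimensional ℝ E] {F : ℝ × E → E} {Ω : Set (ℝ × E)} (hΩ : IsOpen Ω)
    (hF : ContDiffOn ℝ 1 F Ω) (hZ : IsCompact {p ∈ Ω | p.1 ∈ Icc (0 : ℝ) 1 ∧ F p = 0})
    (J : E →L[ℝ] E) (hJ : ∀ x, J (J x) = x) (hJΩ : ∀ x, ((0 : ℝ), x) ∈ Ω → ((0 : ℝ), J x) ∈ Ω)
    (hJF : ∀ x, ((0 : ℝ), x) ∈ Ω → F (0, J x) = J (F (0, x)))
    (x₀ : E) (h0 : ((0 : ℝ), x₀) ∈ Ω) (hF0 : F (0, x₀) = 0) (hx₀ : J x₀ = x₀)
    (huniq : ∀ x, ((0 : ℝ), x) ∈ Ω → F (0, x) = 0 → J x = x → x = x₀)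
    (L : E →L[ℝ] E) (hL : HasFDerivAt (fun x => F (0, x)) L x₀) (hLi : Function.Injective L) :
    ∃ x, ((1 : ℝ), x) ∈ Ω ∧ F (1, x) = 0 := by
  let e : E ≃L[ℝ] (Fin (Module.finrank ℝ E) → ℝ) :=
    ContinuousLinearEquiv.ofFinrankEq (by simp)
  let T : (ℝ × (Fin (Module.finrank ℝ E) → ℝ)) ≃L[ℝ] (ℝ × E) :=
    (ContinuousLinearEquiv.refl ℝ ℝ).prodCongr e.symm
  have hT : ∀ s x, T (s, x) = (s, e.symm x) := fun _ _ => rfl
  have hZ' : IsCompact {p ∈ T ⁻¹' Ω | p.1 ∈ Icc (0 : ℝ) 1 ∧ e (F (T p)) = 0} := by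
    have := T.toHomeomorph.isCompact_preimage.2 hZ
    convert this using 1
    ext p
    simp only [mem_ofPred_eq, mem_preimage, map_eq_zero_iff e e.injective]
    rfl
  obtain ⟨x, hx1, hx2⟩ := deg6_pi (F := fun p => e (F (T p))) (Ω := T ⁻¹' Ω)
    (hΩ.preimage T.continuous)
    (e.contDiff.comp_contDiffOn (hF.comp T.contDiff.contDiffOn (fun p hp => hp))) hZ'
    ((e : E →L[ℝ] _) ∘L J ∘L (e.symm : _ →L[ℝ] E)) (fun x => by simp [hJ])
    (fun x hx => by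
      simp only [mem_preimage, hT] at hx ⊢
      simpa using hJΩ _ hx)
    (fun x hx => by
      simp only [mem_preimage, hT] at hx ⊢
      simpa using hJF _ hx)
    (e x₀) (by simpa [hT] using h0) (by simpa [hT] using hF0) (by simp [hx₀])
    (fun x hx h1 h2 => by
      simp only [mem_preimage, hT] at hx h1
      have h3 : J (e.symm x) = e.symm x := by
        apply e.injective
        simpa using h2
      rw [← huniq _ hx ((map_eq_zero_iff e e.injective).1 h1) h3]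
      simp)
    ((e : E →L[ℝ] _) ∘L L ∘L (e.symm : _ →L[ℝ] E))
    (by
      have h1 : HasFDerivAt (fun x => F (0, x)) L (e.symm (e x₀)) := by simpa using hL
      exact e.hasFDerivAt.comp (e x₀) (h1.comp (e x₀) e.symm.hasFDerivAt))
    (by exact e.injective.comp (hLi.comp e.symm.injective))
  exact ⟨e.symm x, hx1, (map_eq_zero_iff e e.injective).1 hx2⟩

end Crest.Agent.R197
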