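import Crest.Agent.R197.CDefs

/-! Smoothness and first derivative of holonomies; normalisation. -/

set_option autoImplicit false

namespace Crest.Agent.R197

open Quaternion

variable {E : Type} [NormedAddCommGroup E] [NormedSpace ℝ E]

theorem sola_nrm_eventually {u : ℍ[ℝ]} (hu : u ≠ 0) :
    (fun v : ℍ[ℝ] => (nrm v : ℍ[ℝ])) =ᶠ[nhds u] fun v => ‖v‖⁻¹ • v := by
  filter_upwards [isOpen_ne.mem_nhds hu] with v hv
  exact coe_nrm hv

theorem contDiffAt_nrm {u : ℍ[ℝ]} (hu : u ≠ 0) :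
    ContDiffAt ℝ 1 (fun v : ℍ[ℝ] => (nrm v : ℍ[ℝ])) u := by
  refine ContDiffAt.congr_of_eventuallyEq ?_ (sola_nrm_eventually hu)
  exact ((contDiffAt_norm ℝ hu).inv (norm_ne_zero_iff.2 hu)).smul contDiffAt_id

/-- The derivative of the normalisation at `1` is the imaginary part. -/
theorem hasFDerivAt_nrm_one : ∃ L : ℍ[ℝ] →L[ℝ] ℍ[ℝ], (∀ v, L v = v.im) ∧
    HasFDerivAt (fun v : ℍ[ℝ] => (nrm v : ℍ[ℝ])) L 1 := by
  have h1 := (hasStrictFDerivAt_norm_sq (1 : ℍ[ℝ])).hasFDerivAt.sqrt (by simp)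
  simp only [Real.sqrt_sq (norm_nonneg _)] at h1
  have h2 := ((hasDerivAt_inv (x := ‖(1 : ℍ[ℝ])‖) (by simp)).comp_hasFDerivAt _ h1).smul
    (hasFDerivAt_id (1 : ℍ[ℝ]))
  refine ⟨_, fun v => ?_, h2.congr_of_eventuallyEq (sola_nrm_eventually one_ne_zero)⟩
  have h3 : inner ℝ (1 : ℍ[ℝ]) v = v.re := by simp [Quaternion.inner_def]
  simp only [Function.comp_apply, norm_one, inv_one, one_smul, one_pow, id_eq,
    add_apply, ContinuousLinearMap.id_apply,
    ContinuousLinearMap.smulRight_apply, smul_apply, innerSL_apply_apply, h3]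
  ext <;> simp

theorem dev_nrm_le (u : ℍ[ℝ]) (hu : u ≠ 0) : dev (nrm u) ≤ 2 * ‖u - 1‖ := by
  unfold dev
  rw [coe_nrm hu]
  have hn : 0 < ‖u‖ := norm_pos_iff.2 hu
  have h1 : ‖‖u‖⁻¹ • u - u‖ = |‖u‖ - 1| := by
    have : ‖u‖⁻¹ • u - u = (‖u‖⁻¹ - 1) • u := by rw [sub_smul, one_smul]
    rw [this, norm_smul, Real.norm_eq_abs, ← abs_of_pos hn, ← abs_mul, abs_of_pos hn, sub_mul,
      inv_mul_cancel₀ hn.ne', one_mul, abs_sub_comm]
  have h2 : |‖u‖ - 1| ≤ ‖u - 1‖ := by simpa using abs_norm_sub_norm_le u 1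
  have h3 := norm_sub_le_norm_sub_add_norm_sub (‖u‖⁻¹ • u) u 1
  linarith

theorem nrm_conj (c : S3) (u : ℍ[ℝ]) :
    nrm ((c : ℍ[ℝ]) * u * star (c : ℍ[ℝ])) = c * nrm u * c⁻¹ := by
  by_cases hu : u = 0
  · subst hu
    simp [nrm]
  have hn : ‖(c : ℍ[ℝ]) * u * star (c : ℍ[ℝ])‖ = ‖u‖ := by
    rw [norm_mul, norm_mul, norm_star, S3.norm_coe, one_mul, mul_one]
  have h0 : (c : ℍ[ℝ]) * u * star (c : ℍ[ℝ]) ≠ 0 := by
    rw [← norm_ne_zero_iff, hn]; exact norm_ne_zero_iff.2 hu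
  ext1
  rw [coe_nrm h0, hn, Submonoid.coe_mul, Submonoid.coe_mul, coe_nrm hu, mul_smul_comm,
    smul_mul_assoc]
  rfl

/-- The straight path from `1` to a unit quaternion close to `1` never vanishes. -/
theorem interp_ne_zero {a : S3} (ha : dev a ≤ 1) (s : ℝ) :
    (1 - s) • (1 : ℍ[ℝ]) + s • (a : ℍ[ℝ]) ≠ 0 := by
  intro h
  have h1 : (1 - s) • (1 : ℍ[ℝ]) = -(s • (a : ℍ[ℝ])) := eq_neg_of_add_eq_zero_left h
  have h2 := congrArg norm h1
  rw [norm_neg, norm_smul, norm_smul, norm_one, S3.norm_coe, mul_one, mul_one, Real.norm_eq_abs,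
    Real.norm_eq_abs] at h2
  have h3 : s = 1 / 2 := by
    have := sq_eq_sq_iff_abs_eq_abs _ _ |>.2 h2
    linarith
  subst h3
  have h4 : (a : ℍ[ℝ]) - 1 = (-2 : ℝ) • (1 : ℍ[ℝ]) := by
    have : (a : ℍ[ℝ]) - 1 = (2 : ℝ) • ((1 - 1 / 2 : ℝ) • (1 : ℍ[ℝ]) + (1 / 2 : ℝ) • (a : ℍ[ℝ]))
        + (-2 : ℝ) • (1 : ℍ[ℝ]) := by module
    rw [this, h, smul_zero, zero_add]
  unfold dev at ha
  rw [h4, norm_smul] at ha
  norm_num at ha

/-- conjugation as a continuous linear map -/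
noncomputable def sola_star : ℍ[ℝ] →L[ℝ] ℍ[ℝ] where
  toFun := star
  map_add' := star_add
  map_smul' := Quaternion.star_smul
  cont := continuous_star

theorem sola_contDiffAt_inv {f : E → S3} {x : E} (hf : ContDiffAt ℝ 1 (fun y => (f y : ℍ[ℝ])) x) :
    ContDiffAt ℝ 1 (fun y => (((f y)⁻¹ : S3) : ℍ[ℝ])) x :=
  sola_star.contDiff.contDiffAt.comp x hf

theorem sola_hasFDerivAt_mul {f g : E → S3} {x : E} {D D' : E →L[ℝ] ℍ[ℝ]}
    (hf : HasFDerivAt (fun y => (f y : ℍ[ℝ])) D x)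
    (hg : HasFDerivAt (fun y => (g y : ℍ[ℝ])) D' x) (h1 : f x = 1) (h2 : g x = 1) :
    HasFDerivAt (fun y => ((f y * g y : S3) : ℍ[ℝ])) (D + D') x := by
  have h := hf.mul' hg
  rw [h1, h2] at h
  refine HasFDerivAt.congr_fderiv h ?_
  ext1 v
  simp [add_comm]

theorem sola_hasFDerivAt_inv {f : E → S3} {x : E} {D : E →L[ℝ] ℍ[ℝ]}
    (hf : HasFDerivAt (fun y => (f y : ℍ[ℝ])) D x) (h1 : f x = 1) :
    HasFDerivAt (fun y => (((f y)⁻¹ : S3) : ℍ[ℝ])) (-D) x := by
  have h2 : HasFDerivAt (fun y => (((f y)⁻¹ : S3) : ℍ[ℝ]))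
      (sola_star.comp D) x :=
    sola_star.hasFDerivAt.comp x hf
  have h3 := sola_hasFDerivAt_mul (f := fun y => (f y)⁻¹) h2 hf (by rw [h1, inv_one]) h1
  simp only [inv_mul_cancel] at h3
  have h4 := h3.unique (hasFDerivAt_const _ x)
  rwa [eq_neg_of_add_eq_zero_left h4] at h2

theorem sola_abev_mul {k M : Type} [AddCommGroup M] (v : k → M) (w w' : FreeGroup k) :
    abev v (w * w') = abev v w + abev v w' := by simp [abev]

theorem sola_abev_inv {k M : Type} [AddCommGroup M] (v : k → M) (w : FreeGroup k) :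
    abev v w⁻¹ = -abev v w := by simp [abev]

theorem contDiffAt_lift {k : Type} {v : E → k → S3} {x : E}
    (hv : ∀ i, ContDiffAt ℝ 1 (fun y => (v y i : ℍ[ℝ])) x) (w : FreeGroup k) :
    ContDiffAt ℝ 1 (fun y => ((FreeGroup.lift (v y) w : S3) : ℍ[ℝ])) x := by
  induction w using FreeGroup.induction_on with
  | C1 => simpa using contDiffAt_const
  | of s => simpa using hv s
  | inv_of s ih => simpa only [map_inv] using sola_contDiffAt_inv ih
  | mul a b ha hb => simpa only [map_mul, Submonoid.coe_mul] using ha.mul hb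

theorem hasFDerivAt_lift {k : Type} {v : E → k → S3} {x : E} {D : k → (E →L[ℝ] ℍ[ℝ])}
    (h1 : ∀ i, v x i = 1) (hv : ∀ i, HasFDerivAt (fun y => (v y i : ℍ[ℝ])) (D i) x)
    (w : FreeGroup k) :
    HasFDerivAt (fun y => ((FreeGroup.lift (v y) w : S3) : ℍ[ℝ])) (abev D w) x := by
  have h0 : ∀ w : FreeGroup k, FreeGroup.lift (v x) w = 1 := fun w => by
    induction w using FreeGroup.induction_on with
    | C1 => simp
    | of s => simp [h1]
    | inv_of s ih => simp [h1]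
    | mul a b ha hb => simp [ha, hb]
  induction w using FreeGroup.induction_on with
  | C1 => simpa [abev] using hasFDerivAt_const (1 : ℍ[ℝ]) x
  | of s => simpa [abev] using hv s
  | inv_of s ih =>
    simpa only [map_inv, sola_abev_inv] using sola_hasFDerivAt_inv ih (h0 _)
  | mul a b ha hb =>
    simpa only [map_mul, sola_abev_mul] using sola_hasFDerivAt_mul ha hb (h0 a) (h0 b)

variable {Q S : Type} [Group Q]

theorem contDiffAt_hol (ψ : S → Q) {l : E → Q × S → S3} {x : E}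
    (hl : ∀ e, ContDiffAt ℝ 1 (fun y => (l y e : ℍ[ℝ])) x) (w : FreeGroup S) (q : Q) :
    ContDiffAt ℝ 1 (fun y => ((hol ψ (l y) w q : S3) : ℍ[ℝ])) x := by
  induction w using FreeGroup.induction_on generalizing q with
  | C1 => simpa using contDiffAt_const
  | of s => simpa using hl (q, s)
  | inv_of s ih => simpa only [hol_inv] using sola_contDiffAt_inv (ih _)
  | mul a b ha hb => simpa only [hol_mul, Submonoid.coe_mul] using (ha _).mul (hb _)

theorem hasFDerivAt_hol (ψ : S → Q) {l : E → Q × S → S3} {x : E}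
    {D : Q × S → (E →L[ℝ] ℍ[ℝ])} (h1 : ∀ e, l x e = 1)
    (hl : ∀ e, HasFDerivAt (fun y => (l y e : ℍ[ℝ])) (D e) x) (w : FreeGroup S) (q : Q) :
    HasFDerivAt (fun y => ((hol ψ (l y) w q : S3) : ℍ[ℝ]))
      (Finsupp.linearCombination ℤ D (chain ψ w q)) x := by
  have h0 : ∀ (w : FreeGroup S) (q : Q), hol ψ (l x) w q = 1 := fun w => by
    induction w using FreeGroup.induction_on with
    | C1 => simp
    | of s => simp [h1]
    | inv_of s ih => simp [hol_inv, h1]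
    | mul a b ha hb => simp [hol_mul, ha, hb]
  induction w using FreeGroup.induction_on generalizing q with
  | C1 => simpa using hasFDerivAt_const (1 : ℍ[ℝ]) x
  | of s => simpa using hl (q, s)
  | inv_of s ih =>
    simpa only [hol_inv, chain_inv, map_neg] using sola_hasFDerivAt_inv (ih _) (h0 _ _)
  | mul a b ha hb =>
    simpa only [hol_mul, chain_mul, map_add] using
      sola_hasFDerivAt_mul (ha _) (hb _) (h0 a _) (h0 b _)

end Crest.Agent.R197
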