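import Crest.Agent.R197.CDefs

/-! The only abelian solution of the square system with trivial coefficients is trivial. -/

set_option autoImplicit false

namespace Crest.Agent.R197

open Quaternion

theorem solB_abev {k C U : Type} [CommGroup C] [Group U] (ι : C →* U) (c : k → C)
    (w : FreeGroup k) :
    ι (Additive.toMul (abev (fun i => Additive.ofMul (c i)) w)) =
      FreeGroup.lift (fun i => ι (c i)) w := by
  unfold abev
  induction w using FreeGroup.induction_on with
  | C1 => simp
  | of s => simp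
  | inv_of s ih => simp
  | mul x y hx hy => simp [hx, hy]

theorem solB_comm {G A T R : Type} [Group G] {Q : Type} [Group Q] {π : G →* Q}
    {φ : A → G} {ρ : R → FreeGroup (A ⊕ T)} {P : R → (G × R →₀ ℤ)} {R0 : Finset R} {k : ℕ}
    {f : Fin k → (Q × R →₀ ℤ)} {W : Q × T → FreeGroup (Fin k)} (h : Square π φ ρ P R0 k f W)
    {C U : Type} [CommGroup C] [Group U] (ι : C →* U) (hι : Function.Injective ι) (c : Fin k → C)
    (hrel : ∀ q, ∀ r ∈ R0, hol (fun s => π (nf φ T s))
      (lab (fun _ => 1) fun t => FreeGroup.lift (fun i => ι (c i)) (W t)) (ρ r) q = 1)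
    (i : Fin k) : c i = 1 := by
  have h1 := h.unimod (Additive C) (fun i => Additive.ofMul (c i)) i
  let κ : Multiplicative (Additive C) →* U := ι.comp (MulEquiv.multiplicativeAdditive C).toMonoidHom
  have hκ : Function.Injective κ := hι.comp (MulEquiv.multiplicativeAdditive C).injective
  rw [Finsupp.linearCombination_apply, Finsupp.sum, Finset.sum_eq_zero] at h1
  · exact ofMul_eq_zero.1 h1.symm
  intro e he
  rw [linearCombination_chain]
  refine smul_eq_zero_of_right _ (toAdd_eq_zero.2 (hκ ?_))
  rw [← hol_map, map_one, ← hrel e.1 e.2 (h.supp i e he)]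
  congr 1
  funext ⟨q, s⟩
  cases s with
  | inl a => exact map_one κ
  | inr t => exact solB_abev ι c (W (q, t))

theorem Square.eq_one_of_commute {G A T R : Type} [Group G] {Q : Type} [Group Q] {π : G →* Q}
    {φ : A → G} {ρ : R → FreeGroup (A ⊕ T)} {P : R → (G × R →₀ ℤ)} {R0 : Finset R} {k : ℕ}
    {f : Fin k → (Q × R →₀ ℤ)} {W : Q × T → FreeGroup (Fin k)} (h : Square π φ ρ P R0 k f W)
    {U : Type} [Group U] (u : Fin k → U) (hu : ∀ i j, Commute (u i) (u j))
    (hrel : ∀ q, ∀ r ∈ R0, hol (fun s => π (nf φ T s))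
      (lab (fun _ => 1) fun t => FreeGroup.lift u (W t)) (ρ r) q = 1) (i : Fin k) : u i = 1 := by
  letI : CommGroup (Subgroup.closure (Set.range u)) := Subgroup.closureCommGroupOfComm (by
    rintro _ ⟨i, rfl⟩ _ ⟨j, rfl⟩
    exact hu i j)
  exact congrArg Subtype.val (solB_comm h (Subgroup.closure (Set.range u)).subtype
    Subtype.val_injective (fun i => ⟨u i, Subgroup.subset_closure ⟨i, rfl⟩⟩) hrel i)

end Crest.Agent.R197
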