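import Crest.Agent.R197.EstA
import Crest.Agent.R197.SolA
import Crest.Agent.R197.SolB
import Crest.Agent.R197.Deg6

/-! Solving the square system by the equivariant continuation principle. -/

set_option autoImplicit false

namespace Crest.Agent.R197

open Quaternion

section SolAux

open Set Filter Topology

/-- The imaginary part as a continuous linear map. -/
noncomputable def solIm : ℍ[ℝ] →L[ℝ] ℍ[ℝ] :=
  LinearMap.toContinuousLinearMap
    { toFun := fun v => v.im
      map_add' := fun _ _ => by ext <;> simp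
      map_smul' := fun _ _ => by ext <;> simp }

theorem solIm_apply (v : ℍ[ℝ]) : solIm v = v.im := rfl

/-- The unit quaternion `i`. -/
noncomputable def solC : S3 := ⟨⟨0, 1, 0, 0⟩, by constructor <;> ext <;> simp⟩

/-- Conjugation by `i`. -/
noncomputable def solCj : ℍ[ℝ] →L[ℝ] ℍ[ℝ] :=
  ContinuousLinearMap.mulLeftRight ℝ ℍ[ℝ] (solC : ℍ[ℝ]) (star (solC : ℍ[ℝ]))

theorem solCj_apply (v : ℍ[ℝ]) : solCj v = (solC : ℍ[ℝ]) * v * star (solC : ℍ[ℝ]) := rfl

theorem solCj_eq (v : ℍ[ℝ]) : solCj v = ⟨v.re, v.imI, -v.imJ, -v.imK⟩ := by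
  rw [solCj_apply]
  ext <;> simp [solC]

theorem solCj_cj (v : ℍ[ℝ]) : solCj (solCj v) = v := by
  rw [solCj_eq, solCj_eq]
  ext <;> simp

theorem solCj_one : solCj 1 = 1 := by
  rw [solCj_eq]
  ext <;> simp

theorem solCj_im (v : ℍ[ℝ]) : solCj (solIm v) = solIm (solCj v) := by
  rw [solCj_eq, solCj_eq, solIm_apply, solIm_apply]
  ext <;> simp

theorem norm_solCj (v : ℍ[ℝ]) : ‖solCj v‖ = ‖v‖ := by
  rw [solCj_apply, norm_mul, norm_mul, norm_star, S3.norm_coe, one_mul, mul_one]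

theorem sol_commute {u v : ℍ[ℝ]} (hu : solCj u = u) (hv : solCj v = v) : u * v = v * u := by
  rw [solCj_eq] at hu hv
  have u1 : u.imJ = 0 := by have := congrArg QuaternionAlgebra.imJ hu; simp only at this; linarith
  have u2 : u.imK = 0 := by have := congrArg QuaternionAlgebra.imK hu; simp only at this; linarith
  have v1 : v.imJ = 0 := by have := congrArg QuaternionAlgebra.imJ hv; simp only at this; linarith
  have v2 : v.imK = 0 := by have := congrArg QuaternionAlgebra.imK hv; simp only at this; linarith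
  ext <;> simp [u1, u2, v1, v2] <;> ring

/-- Conjugation by `i` on the unit quaternions. -/
noncomputable def solG : S3 →* S3 := (MulAut.conj solC).toMonoidHom

theorem solG_apply (u : S3) : solG u = solC * u * solC⁻¹ := rfl

theorem coe_solG (u : S3) : ((solG u : S3) : ℍ[ℝ]) = solCj u := rfl

theorem sol_map_lc {X M M' : Type} [AddCommGroup M] [AddCommGroup M'] {H : Type} [FunLike H M M']
    [AddMonoidHomClass H M M'] (g : H) (ξ : X → M) (c : X →₀ ℤ) :
    g (Finsupp.linearCombination ℤ ξ c) = Finsupp.linearCombination ℤ (fun e => g (ξ e)) c := by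
  induction c using Finsupp.induction_linear with
  | zero => simp
  | add c c' h h' => simp only [map_add, h, h']
  | single e n => simp only [Finsupp.linearCombination_single, map_zsmul]

theorem sol_contDiffAt_lc {E X : Type} [NormedAddCommGroup E] [NormedSpace ℝ E]
    {ξ : E → X → ℍ[ℝ]} {x : E} (h : ∀ e, ContDiffAt ℝ 1 (fun y => ξ y e) x) (c : X →₀ ℤ) :
    ContDiffAt ℝ 1 (fun y => Finsupp.linearCombination ℤ (ξ y) c) x := by
  induction c using Finsupp.induction_linear with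
  | zero => simpa using contDiffAt_const
  | add c c' h h' => simpa only [map_add] using h.add h'
  | single e n => simpa only [Finsupp.linearCombination_single] using (h e).const_smul n

theorem sol_hasFDerivAt_lc {E X : Type} [NormedAddCommGroup E] [NormedSpace ℝ E]
    {ξ : E → X → ℍ[ℝ]} {D : X → E →L[ℝ] ℍ[ℝ]} {x : E}
    (h : ∀ e, HasFDerivAt (fun y => ξ y e) (D e) x) (c : X →₀ ℤ) :
    HasFDerivAt (fun y => Finsupp.linearCombination ℤ (ξ y) c)
      (Finsupp.linearCombination ℤ D c) x := by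
  induction c using Finsupp.induction_linear with
  | zero => simpa using hasFDerivAt_const (0 : ℍ[ℝ]) x
  | add c c' h h' => simpa only [map_add] using h.fun_add h'
  | single e n => simpa only [Finsupp.linearCombination_single] using (h e).fun_const_smul n

theorem sol_hol_one {Q S U : Type} [Group Q] [Group U] (ψ : S → Q) (w : FreeGroup S) (q : Q) :
    hol ψ (fun _ => (1 : U)) w q = 1 :=
  hol_map (1 : U →* U) ψ (fun _ => 1) w q

theorem sol_nrm_one : nrm 1 = 1 := nrm_coe 1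

variable {Q A T R : Type} [Group Q] {k : ℕ}

/-- The interpolated labels of the `A`-edges. -/
noncomputable def solA (a : Q × A → S3) (s : ℝ) : Q × A → S3 :=
  fun e => nrm ((1 - s) • (1 : ℍ[ℝ]) + s • (a e : ℍ[ℝ]))

/-- The labels of the `T`-edges. -/
noncomputable def solX (W : Q × T → FreeGroup (Fin k)) (u : Fin k → ℍ[ℝ]) : Q × T → S3 :=
  fun t => FreeGroup.lift (fun i => nrm (u i)) (W t)

/-- All labels. -/
noncomputable def solL (a : Q × A → S3) (W : Q × T → FreeGroup (Fin k))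
    (p : ℝ × (Fin k → ℍ[ℝ])) : Q × (A ⊕ T) → S3 := lab (solA a p.1) (solX W p.2)

/-- The system of equations. -/
noncomputable def solF (ψ : A ⊕ T → Q) (ρ : R → FreeGroup (A ⊕ T)) (f : Fin k → (Q × R →₀ ℤ))
    (a : Q × A → S3) (W : Q × T → FreeGroup (Fin k)) (p : ℝ × (Fin k → ℍ[ℝ])) : Fin k → ℍ[ℝ] :=
  fun i => (‖p.2 i‖ ^ 2 - 1) • (1 : ℍ[ℝ]) + solIm (Finsupp.linearCombination ℤ
    (fun e : Q × R => ((hol ψ (solL a W p) (ρ e.2) e.1 : S3) : ℍ[ℝ])) (f i))

/-- The region. -/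
def solO (ψ : A ⊕ T → Q) (ρ : R → FreeGroup (A ⊕ T)) (R0 : Finset R)
    (a : Q × A → S3) (W : Q × T → FreeGroup (Fin k)) (δ : ℝ) : Set (ℝ × (Fin k → ℍ[ℝ])) :=
  {p | (∀ i, p.2 i ≠ 0) ∧ ∀ q, ∀ r ∈ R0, dev (hol ψ (solL a W p) (ρ r) q) < δ}

omit [Group Q] in
theorem solA_zero (a : Q × A → S3) : solA a 0 = fun _ => 1 := by
  funext e; simp [solA, sol_nrm_one]

omit [Group Q] in
theorem solA_one (a : Q × A → S3) : solA a 1 = a := by
  funext e; simp [solA, nrm_coe]

omit [Group Q] in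
theorem dev_solA {a : Q × A → S3} {ε : ℝ} (hε1 : ε ≤ 1) (ha : ∀ e, dev (a e) ≤ ε) {s : ℝ}
    (hs : s ∈ Icc (0 : ℝ) 1) (e : Q × A) : dev (solA a s e) ≤ 2 * ε := by
  refine (dev_nrm_le _ (interp_ne_zero ((ha e).trans hε1) s)).trans ?_
  have e1 : (1 - s) • (1 : ℍ[ℝ]) + s • (a e : ℍ[ℝ]) - 1 = s • ((a e : ℍ[ℝ]) - 1) := by
    rw [sub_smul, one_smul, smul_sub]; abel
  rw [e1, norm_smul, Real.norm_of_nonneg hs.1]
  have h1 : ‖(a e : ℍ[ℝ]) - 1‖ ≤ ε := ha e
  have h2 := norm_nonneg ((a e : ℍ[ℝ]) - 1)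
  nlinarith [hs.1, hs.2]

omit [Group Q] in
theorem contDiffAt_solL {a : Q × A → S3} (ha : ∀ e, dev (a e) ≤ 1)
    (W : Q × T → FreeGroup (Fin k)) {p : ℝ × (Fin k → ℍ[ℝ])} (hp : ∀ i, p.2 i ≠ 0)
    (e : Q × (A ⊕ T)) : ContDiffAt ℝ 1 (fun y => (solL a W y e : ℍ[ℝ])) p := by
  obtain ⟨q, s | t⟩ := e
  · refine (contDiffAt_nrm (interp_ne_zero (ha (q, s)) p.1)).comp p
      (f := fun y : ℝ × (Fin k → ℍ[ℝ]) => (1 - y.1) • (1 : ℍ[ℝ]) + y.1 • (a (q, s) : ℍ[ℝ])) ?_
    fun_prop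
  · refine contDiffAt_lift (v := fun (y : ℝ × (Fin k → ℍ[ℝ])) i => nrm (y.2 i)) (fun i => ?_)
      (W (q, t))
    refine (contDiffAt_nrm (hp i)).comp p (f := fun y : ℝ × (Fin k → ℍ[ℝ]) => y.2 i) ?_
    fun_prop

theorem contDiffAt_solF (ψ : A ⊕ T → Q) (ρ : R → FreeGroup (A ⊕ T)) (f : Fin k → (Q × R →₀ ℤ))
    {a : Q × A → S3} (ha : ∀ e, dev (a e) ≤ 1) (W : Q × T → FreeGroup (Fin k))
    {p : ℝ × (Fin k → ℍ[ℝ])} (hp : ∀ i, p.2 i ≠ 0) : ContDiffAt ℝ 1 (solF ψ ρ f a W) p := by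
  refine contDiffAt_pi.2 fun i => ContDiffAt.add ?_ ?_
  · have h1 : ContDiffAt ℝ 1 (fun y : ℝ × (Fin k → ℍ[ℝ]) => y.2 i) p := by fun_prop
    exact ((h1.norm_sq ℝ).sub contDiffAt_const).smul contDiffAt_const
  · exact solIm.contDiff.contDiffAt.comp p (sol_contDiffAt_lc
      (fun e : Q × R => contDiffAt_hol ψ (contDiffAt_solL ha W hp) (ρ e.2) e.1) (f i))

theorem continuousAt_soldev (ψ : A ⊕ T → Q) {a : Q × A → S3} (ha : ∀ e, dev (a e) ≤ 1)
    (W : Q × T → FreeGroup (Fin k)) {p : ℝ × (Fin k → ℍ[ℝ])} (hp : ∀ i, p.2 i ≠ 0)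
    (w : FreeGroup (A ⊕ T)) (q : Q) : ContinuousAt (fun y => dev (hol ψ (solL a W y) w q)) p :=
  ((contDiffAt_hol ψ (contDiffAt_solL ha W hp) w q).continuousAt.sub continuousAt_const).norm

theorem isOpen_solO [Finite Q] (ψ : A ⊕ T → Q) (ρ : R → FreeGroup (A ⊕ T)) (R0 : Finset R)
    {a : Q × A → S3} (ha : ∀ e, dev (a e) ≤ 1) (W : Q × T → FreeGroup (Fin k)) (δ : ℝ) :
    IsOpen (solO ψ ρ R0 a W δ) := by
  refine isOpen_iff_mem_nhds.2 fun p hp => Eventually.and ?_ ?_
  · refine eventually_all.2 fun i => ?_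
    have : ContinuousAt (fun y : ℝ × (Fin k → ℍ[ℝ]) => y.2 i) p := by fun_prop
    exact this.eventually_ne (hp.1 i)
  · refine eventually_all.2 fun q => (eventually_all_finset R0).2 fun r hr => ?_
    exact (continuousAt_soldev ψ ha W hp.1 (ρ r) q).eventually (gt_mem_nhds (hp.2 q r hr))

theorem solF_zero {ψ : A ⊕ T → Q} {ρ : R → FreeGroup (A ⊕ T)} {f : Fin k → (Q × R →₀ ℤ)}
    {a : Q × A → S3} {W : Q × T → FreeGroup (Fin k)} {p : ℝ × (Fin k → ℍ[ℝ])}
    (h : solF ψ ρ f a W p = 0) (i : Fin k) :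
    ‖p.2 i‖ = 1 ∧ Finsupp.linearCombination ℤ (xi ψ ρ (solL a W p)) (f i) = 0 := by
  have h1 := congrFun h i
  unfold solF at h1
  have h2 : ‖p.2 i‖ ^ 2 - 1 = 0 := by
    have := congrArg QuaternionAlgebra.re h1
    simpa [solIm_apply] using this
  rw [h2, zero_smul, zero_add, sol_map_lc] at h1
  refine ⟨?_, h1⟩
  rwa [sub_eq_zero, pow_eq_one_iff_of_nonneg (norm_nonneg _) two_ne_zero] at h2

omit [Group Q] in
theorem solL_conj (a : Q × A → S3) (W : Q × T → FreeGroup (Fin k)) (u : Fin k → ℍ[ℝ]) :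
    solL a W (0, fun i => solCj (u i)) = fun e => solG (solL a W (0, u) e) := by
  funext e
  obtain ⟨q, s | t⟩ := e
  · simp [solL, lab, solA_zero]
  · simp only [solL, lab, solX, Sum.elim_inr]
    rw [← lift_comp]
    congr 2
    funext i
    rw [solCj_apply, nrm_conj, solG_apply]

omit [Group Q] in
theorem solL_one (a : Q × A → S3) (W : Q × T → FreeGroup (Fin k)) :
    solL a W (0, fun _ => 1) = fun _ => 1 := by
  funext e
  obtain ⟨q, s | t⟩ := e
  · simp [solL, lab, solA_zero]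
  · simp only [solL, lab, solX, Sum.elim_inr, sol_nrm_one]
    exact lift_comp (1 : S3 →* S3) (fun _ => 1) _

theorem sol_est {G B : Type} [Group G] {φ : A → G} {ρ : R → FreeGroup (A ⊕ T)}
    {b : B → FreeGroup A} {Rin : Finset R} {P : R → (G × R →₀ ℤ)} {σ : T → (G × R →₀ ℤ)}
    {S0 : Finset G} {C : ℝ} (h : Setup φ ρ b Rin P σ S0 C) [Finite Q]
    {π : G →* Q} {R0 : Finset R} (hR : Rin ⊆ R0) {ε δ ζ : ℝ} (hε : 0 ≤ ε) (hδ : 0 ≤ δ)
    (hδ1 : δ ≤ 1) (hζ : 0 ≤ ζ) (h1 : C * (δ + ε) ≤ 1 / 2) (a : Q × A → S3) (x : Q × T → S3)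
    (ha : ∀ e, dev (a e) ≤ ε) (hb : ∀ j q, dev (hol (fun s => π (φ s)) a (b j) q) ≤ ζ)
    (hd : ∀ q, ∀ r ∈ R0, dev (hol (fun s => π (nf φ T s)) (lab a x) (ρ r) q) ≤ δ)
    (hx : ∀ q, ∀ r ∈ R0, xi (fun s => π (nf φ T s)) ρ (lab a x) (q, r) =
        Finsupp.linearCombination ℤ (xi (fun s => π (nf φ T s)) ρ (lab a x)) (push π q (P r))) :
    ∀ q, ∀ r ∈ R0, dev (hol (fun s => π (nf φ T s)) (lab a x) (ρ r) q) ≤ 2 * (C * ζ) := by
  intro q r hr
  have hC := h.C_nonneg
  by_cases hin : r ∈ Rin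
  · have := Fintype.ofFinite Q
    obtain ⟨e, he, hmax⟩ := Finset.exists_max_image (Finset.univ ×ˢ Rin)
      (fun e : Q × R => dev (hol (fun s => π (nf φ T s)) (lab a x) (ρ e.2) e.1))
      ⟨(q, r), by simp [hin]⟩
    have he2 : e.2 ∈ Rin := (Finset.mem_product.1 he).2
    have h2 := h.est Q π a x ε δ hε hδ hδ1 ha (fun q r hr => hd q r (hR hr)) e.1 e.2 he2
      (hx _ _ (hR he2)) ζ _ (fun g _ j => hb j _)
      (fun g _ r' hr' => hmax (e.1 * π g, r') (by simp [hr'])) hζ (dev_nonneg _)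
    have h3 := hmax (q, r) (by simp [hin])
    have h4 := mul_le_mul_of_nonneg_right h1
      (dev_nonneg (hol (fun s => π (nf φ T s)) (lab a x) (ρ e.2) e.1))
    simp only at h3
    linarith
  · have h2 := hx q r hr
    rw [h.out r hin, push_zero, map_zero] at h2
    rw [eq_one_of_im ((hd q r hr).trans hδ1) h2, dev_one]
    positivity

end SolAux

theorem exists_solution {G A T R B : Type} [Group G] {φ : A → G} {ρ : R → FreeGroup (A ⊕ T)}
    {b : B → FreeGroup A} {Rin : Finset R} {P : R → (G × R →₀ ℤ)} {σ : T → (G × R →₀ ℤ)}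
    {S0 : Finset G} {C : ℝ} (h : Setup φ ρ b Rin P σ S0 C) {Q : Type} [Group Q] [Finite Q]
    {π : G →* Q} {R0 : Finset R} (hR : Rin ⊆ R0) {k : ℕ} {f : Fin k → (Q × R →₀ ℤ)}
    {W : Q × T → FreeGroup (Fin k)} (hs : Square π φ ρ P R0 k f W)
    {n ε δ : ℝ} (hn : 0 ≤ n)
    (hb : ∀ (a : Q × A → S3) (θ : ℝ), 0 ≤ θ → (∀ e, dev (a e) ≤ θ) →
      ∀ j q, dev (hol (fun s => π (φ s)) a (b j) q) ≤ n * θ)
    (hε : 0 ≤ ε) (hε1 : ε ≤ 1) (hδ : 0 < δ) (hδ1 : δ ≤ 1) (h1 : C * (δ + 2 * ε) ≤ 1 / 2)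
    (h2 : C * (n * (2 * ε)) ≤ δ / 4) (a : Q × A → S3) (ha : ∀ e, dev (a e) ≤ ε) :
    ∃ x : Q × T → S3,
      (∀ q, ∀ r ∈ R0, dev (hol (fun s => π (nf φ T s)) (lab a x) (ρ r) q) ≤ δ) ∧
      ∀ q, ∀ r ∈ R0, xi (fun s => π (nf φ T s)) ρ (lab a x) (q, r) =
        Finsupp.linearCombination ℤ (xi (fun s => π (nf φ T s)) ρ (lab a x)) (push π q (P r)) := by
  have ha1 : ∀ e, dev (a e) ≤ 1 := fun e => (ha e).trans hε1
  have hC := h.C_nonneg
  have hspan : ∀ p, solF (fun s => π (nf φ T s)) ρ f a W p = 0 → ∀ q, ∀ r ∈ R0,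
      xi (fun s => π (nf φ T s)) ρ (solL a W p) (q, r) = Finsupp.linearCombination ℤ
        (xi (fun s => π (nf φ T s)) ρ (solL a W p)) (push π q (P r)) :=
    fun p hp => hs.span _ _ fun i => (solF_zero hp i).2
  obtain ⟨L0, hL0, hL0'⟩ := hasFDerivAt_nrm_one
  let pr : Fin k → (Fin k → ℍ[ℝ]) →L[ℝ] ℍ[ℝ] := fun i => ContinuousLinearMap.proj i
  let J : (Fin k → ℍ[ℝ]) →L[ℝ] (Fin k → ℍ[ℝ]) := ContinuousLinearMap.pi fun i => solCj ∘L pr i
  have hJ : ∀ u, J u = fun i => solCj (u i) := fun u => rfl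
  let L : (Fin k → ℍ[ℝ]) →L[ℝ] (Fin k → ℍ[ℝ]) := ContinuousLinearMap.pi fun i =>
    (2 • (innerSL ℝ (1 : ℍ[ℝ])).comp (pr i)).smulRight (1 : ℍ[ℝ]) + solIm ∘L L0 ∘L pr i
  obtain ⟨u, hu, hF⟩ := exists_zero_of_equivariant
    (F := solF (fun s => π (nf φ T s)) ρ f a W) (isOpen_solO (fun s => π (nf φ T s)) ρ R0 ha1 W δ)
    (fun p hp => (contDiffAt_solF _ ρ f ha1 W hp.1).contDiffWithinAt) (by
      have hK : IsCompact (Set.Icc (0 : ℝ) 1 ×ˢ
          Set.pi Set.univ fun _ : Fin k => Metric.sphere (0 : ℍ[ℝ]) 1) :=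
        isCompact_Icc.prod (isCompact_univ_pi fun _ => isCompact_sphere _ _)
      have hsub : {p ∈ solO (fun s => π (nf φ T s)) ρ R0 a W δ | p.1 ∈ Set.Icc (0 : ℝ) 1 ∧
          solF (fun s => π (nf φ T s)) ρ f a W p = 0} ⊆ Set.Icc (0 : ℝ) 1 ×ˢ
          Set.pi Set.univ fun _ : Fin k => Metric.sphere (0 : ℍ[ℝ]) 1 :=
        fun p hp => ⟨hp.2.1, fun i _ => by simpa using (solF_zero hp.2.2 i).1⟩
      refine hK.of_isClosed_subset (isClosed_of_closure_subset fun p hp => ?_) hsub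
      have hpK := closure_minimal hsub hK.isClosed hp
      have hp0 : ∀ i, p.2 i ≠ 0 := fun i h0 => by simpa [h0] using hpK.2 i (Set.mem_univ i)
      refine ⟨⟨hp0, fun q r hr => ?_⟩, hpK.1, ?_⟩
      · have h3 := (continuousAt_soldev (fun s => π (nf φ T s)) ha1 W hp0 (ρ r)
          q).continuousWithinAt.mem_closure hp (t := Set.Iic (δ / 2)) (fun y hy => by
            have h4 := sol_est h hR (ε := 2 * ε) (ζ := n * (2 * ε)) (by positivity) hδ.le hδ1
              (by positivity) h1 (solA a y.1) (solX W y.2) (dev_solA hε1 ha hy.2.1)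
              (hb _ _ (by positivity) (dev_solA hε1 ha hy.2.1))
              (fun q r hr => (hy.1.2 q r hr).le) (hspan y hy.2.2) q r hr
            exact h4.trans (by linarith))
        rw [isClosed_Iic.closure_eq, Set.mem_Iic] at h3
        linarith
      · have h3 := (contDiffAt_solF (fun s => π (nf φ T s)) ρ f ha1 W
          hp0).continuousAt.continuousWithinAt.mem_closure hp (t := {0}) (fun y hy => hy.2.2)
        rwa [isClosed_singleton.closure_eq] at h3)
    J (fun u => by funext i; simp only [hJ, solCj_cj])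
    (fun u hu => ⟨fun i h0 => hu.1 i
        ((solCj_cj (u i)).symm.trans ((congrArg solCj h0).trans (map_zero _))),
      fun q r hr => by
        rw [hJ, solL_conj, hol_map, solG_apply, dev_conj]
        exact hu.2 q r hr⟩)
    (fun u _ => by
      funext i
      simp only [hJ, solF, solL_conj, hol_map, coe_solG, norm_solCj, map_add, map_smul, solCj_one,
        solCj_im]
      rw [sol_map_lc solCj])
    (fun _ => 1)
    ⟨fun _ => one_ne_zero, fun q r _ => by rw [solL_one, sol_hol_one, dev_one]; exact hδ⟩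
    (by
      funext i
      simp only [solF, solL_one, sol_hol_one]
      rw [sol_map_lc solIm]
      have h0 : (fun _ : Q × R => solIm ((1 : S3) : ℍ[ℝ])) = 0 := by
        funext e; simp [solIm_apply]
      rw [h0, Finsupp.linearCombination_zero]
      simp)
    (by funext i; simp only [hJ, solCj_one])
    (fun u hu hF hJu => by
      have hc : ∀ i, (nrm (u i) : ℍ[ℝ]) = u i := fun i => by
        have := (solF_zero hF i).1
        simp only at this
        rw [coe_nrm (hu.1 i), this, inv_one, one_smul]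
      have h3 := sol_est h hR (ε := 0) (ζ := 0) le_rfl hδ.le hδ1 le_rfl
        (by nlinarith [mul_nonneg hC hε]) (solA a 0) (solX W u) (by simp [solA_zero])
        (fun j q => by rw [solA_zero, sol_hol_one, dev_one])
        (fun q r hr => (hu.2 q r hr).le) (hspan (0, u) hF)
      funext i
      have h4 := hs.eq_one_of_commute (fun i => nrm (u i)) (fun i j => by
          refine Subtype.ext ?_
          rw [Submonoid.coe_mul, Submonoid.coe_mul, hc, hc]
          exact sol_commute (congrFun hJu i) (congrFun hJu j))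
        (fun q r hr => by
          have h5 := h3 q r hr
          rw [solA_zero, mul_zero, mul_zero] at h5
          exact dev_eq_zero.1 (le_antisymm h5 (dev_nonneg _))) i
      rw [← hc i, h4]
      rfl)
    L (by
      refine hasFDerivAt_pi.2 fun i => HasFDerivAt.add ?_ ?_
      · exact (((pr i).hasFDerivAt (x := fun _ => 1)).norm_sq.sub_const 1).smul_const (1 : ℍ[ℝ])
      · have h3 := hs.unimod _ (fun i => L0 ∘L pr i) i
        rw [← h3]
        refine solIm.hasFDerivAt.comp _ (sol_hasFDerivAt_lc (fun e => ?_) (f i))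
        refine hasFDerivAt_hol _ (l := fun u => solL a W (0, u))
          (fun e => congrFun (solL_one a W) e) (fun e => ?_) _ _
        obtain ⟨q, s | t⟩ := e
        · exact hasFDerivAt_const (solA a 0 (q, s) : ℍ[ℝ]) _
        · exact hasFDerivAt_lift (v := fun (u : Fin k → ℍ[ℝ]) i => nrm (u i))
            (fun _ => sol_nrm_one)
            (fun i => HasFDerivAt.comp (fun _ => 1) (f := pr i) hL0' (pr i).hasFDerivAt) (W (q, t)))
    (by
      refine (injective_iff_map_eq_zero L).2 fun v hv => ?_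
      funext i
      have h3 : (2 • inner ℝ (1 : ℍ[ℝ]) (v i)) • (1 : ℍ[ℝ]) + solIm (L0 (v i)) = 0 := congrFun hv i
      rw [hL0, solIm_apply, Quaternion.inner_def] at h3
      have h4 := congrArg QuaternionAlgebra.re h3
      have h5 := congrArg QuaternionAlgebra.imI h3
      have h6 := congrArg QuaternionAlgebra.imJ h3
      have h7 := congrArg QuaternionAlgebra.imK h3
      ext
      · simpa using h4
      · simpa using h5
      · simpa using h6
      · simpa using h7)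
  refine ⟨solX W u, fun q r hr => ?_, ?_⟩
  · have := (hu.2 q r hr).le
    rwa [solL, solA_one] at this
  · have := hspan _ hF
    rwa [solL, solA_one] at this

end Crest.Agent.R197
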