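import Crest.Agent.R197.NF
import Crest.Agent.R197.EstB
import Crest.Agent.R197.Alg
import Crest.Agent.R197.Sol

/-! The core theorem: no aspherical presentation. -/

set_option autoImplicit false

namespace Crest.Agent.R197

/-- A finite quotient that detects finitely many elements. -/
theorem core_quot_one {G : Type} [Group G] [Group.ResiduallyFinite G] (E : Finset G) :
    ∃ (Q : Type) (_ : Group Q) (_ : Finite Q) (π : G →* Q), ∀ g ∈ E, π g = 1 → g = 1 := by
  classical
  induction E using Finset.induction_on with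
  | empty => exact ⟨Unit, inferInstance, inferInstance, 1, by simp⟩
  | insert a E _ ih =>
    obtain ⟨Q, _, _, π, hπ⟩ := ih
    by_cases ha : a = 1
    · refine ⟨Q, inferInstance, inferInstance, π, fun g hg h => ?_⟩
      rcases Finset.mem_insert.1 hg with rfl | hg
      exacts [ha, hπ g hg h]
    · obtain ⟨H, hH⟩ := Group.exists_finiteIndexNormalSubgroup_notMem a ha
      refine ⟨Q × (G ⧸ H.toSubgroup), inferInstance, inferInstance,
        π.prod (QuotientGroup.mk' H.toSubgroup), fun g hg h => ?_⟩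
      rcases Finset.mem_insert.1 hg with rfl | hg
      · exact absurd ((QuotientGroup.eq_one_iff g).1 (congrArg Prod.snd h)) hH
      · exact hπ g hg (congrArg Prod.fst h)

/-- A finite quotient that is injective on a finite set. -/
theorem core_quot {G : Type} [Group G] [Group.ResiduallyFinite G] (D : Finset G) :
    ∃ (Q : Type) (_ : Group Q) (_ : Finite Q) (π : G →* Q),
      ∀ g ∈ D, ∀ g' ∈ D, π g = π g' → g = g' := by
  classical
  obtain ⟨Q, _, _, π, hπ⟩ := core_quot_one ((D ×ˢ D).image fun p => p.1⁻¹ * p.2)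
  refine ⟨Q, inferInstance, inferInstance, π, fun g hg g' hg' h => ?_⟩
  refine inv_mul_eq_one.1 (hπ _ (Finset.mem_image.2 ⟨(g, g'), Finset.mem_product.2 ⟨hg, hg'⟩,
    rfl⟩) ?_)
  rw [map_mul, map_inv, h, inv_mul_cancel]

/-- Transport of a small labelling to a quotient. -/
theorem core_label {G Q A : Type} (π : G → Q) (D : Finset G)
    (hπ : ∀ g ∈ D, ∀ g' ∈ D, π g = π g' → g = g') (l : G × A → S3) {ε : ℝ} (hε : 0 ≤ ε)
    (hl : ∀ e, dev (l e) ≤ ε) :
    ∃ a : Q × A → S3, (∀ e, dev (a e) ≤ ε) ∧ ∀ g ∈ D, ∀ s, a (π g, s) = l (g, s) := by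
  classical
  refine ⟨fun e => if h : ∃ g ∈ D, π g = e.1 then l (h.choose, e.2) else 1, fun e => ?_,
    fun g hg s => ?_⟩
  · dsimp only
    split_ifs
    · exact hl _
    · simpa using hε
  · have h : ∃ g' ∈ D, π g' = π g := ⟨g, hg, rfl⟩
    dsimp only
    rw [dif_pos h, hπ _ h.choose_spec.1 g hg h.choose_spec.2]

/-- Abstract exponential decay. -/
theorem core_decay {G : Type} [Group G] (S0 : Finset G) {δ : ℝ} (hδ : 0 ≤ δ) (i : ℕ) (g : G) :
    ∃ D : Finset G, ∀ (p : G → Prop) (F : G → ℝ → Prop), (∀ g, F g δ) →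
      (∀ g η, 0 ≤ η → (∀ s ∈ S0, p (g * s)) → (∀ s ∈ S0, F (g * s) η) → F g (η / 2)) →
      (∀ g' ∈ D, p g') → F g (δ / 2 ^ i) := by
  classical
  induction i generalizing g with
  | zero => exact ⟨∅, fun p F h _ _ => by simpa using h g⟩
  | succ i ih =>
    choose D hD using ih
    refine ⟨S0.image (g * ·) ∪ S0.biUnion fun s => D (g * s), fun p F h0 h1 hp => ?_⟩
    rw [pow_succ, ← div_div]
    refine h1 g _ (by positivity) (fun s hs => hp _ ?_) fun s hs => hD _ p F h0 h1 fun g' hg' =>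
      hp _ ?_
    · exact Finset.mem_union_left _ (Finset.mem_image_of_mem _ hs)
    · exact Finset.mem_union_right _ (Finset.mem_biUnion.2 ⟨s, hs, hg'⟩)

theorem core_const {C n : ℝ} (hC : 0 ≤ C) (hn : 0 ≤ n) : ∃ δ ε : ℝ, 0 < δ ∧ δ ≤ 1 ∧ 0 < ε ∧
    ε ≤ 1 ∧ C * (δ + 2 * ε) ≤ 1 / 2 ∧ C * (n * (2 * ε)) ≤ δ / 4 := by
  obtain ⟨δ, hδ, hδ'⟩ : ∃ δ : ℝ, 0 < δ ∧ 4 * (C + 1) * δ = 1 :=
    ⟨1 / (4 * (C + 1)), by positivity, by field_simp⟩
  obtain ⟨ε, hε, hε'⟩ : ∃ ε : ℝ, 0 < ε ∧ 8 * (C + 1) * (n + 1) * ε = δ :=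
    ⟨δ / (8 * (C + 1) * (n + 1)), by positivity, by field_simp⟩
  have h1 : 0 ≤ C * δ := by positivity
  have h2 : 0 ≤ C * ε := by positivity
  have h3 : 0 ≤ n * ε := by positivity
  have h4 : 0 ≤ C * (n * ε) := by positivity
  refine ⟨δ, ε, hδ, by nlinarith, hε, by nlinarith, by nlinarith, by nlinarith⟩

theorem core_lift_inl {G A T : Type} [Group G] (φ : A → G) (w : FreeGroup A) :
    FreeGroup.lift (nf φ T) (FreeGroup.map Sum.inl w) = FreeGroup.lift φ w := by
  induction w using FreeGroup.induction_on with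
  | C1 => simp
  | of s => simp [nf]
  | inv_of s ih => simp [nf]
  | mul x y hx hy => simp [hx, hy]

theorem core_hol_inl {G Q A T U : Type} [Group G] [Group Q] [Group U] (π : G →* Q) (φ : A → G)
    (a : Q × A → U) (x : Q × T → U) (w : FreeGroup A) (q : Q) :
    hol (fun s => π (nf φ T s)) (lab a x) (FreeGroup.map Sum.inl w) q =
      hol (fun s => π (φ s)) a w q := by
  induction w using FreeGroup.induction_on generalizing q with
  | C1 => simp
  | of s => simp [lab]
  | inv_of s ih => simp [hol_inv, lab, nf]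
  | mul x y hx hy => simp [hol_mul, hx, hy, lift_comp, core_lift_inl]

theorem not_asphPres {G A : Type} [Group G] [Group.ResiduallyFinite G] (φ : A → G)
    (hφ : Function.Surjective (FreeGroup.lift φ)) (h2 : FP2 φ) (hs : SmallFlat φ) :
    ¬ AsphPres G := by
  classical
  intro hA
  obtain ⟨T, R, ρ, hρ⟩ := normal_form φ hφ hA
  obtain ⟨B, _, b, hb, hgen⟩ := h2
  obtain ⟨Rin, P, σ, S0, C, h⟩ := exists_setup φ ρ hρ b hb hgen
  choose nb sb hnb using fun j => exists_word_bound (b j)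
  have hn : (0 : ℝ) ≤ ∑ j, (nb j : ℝ) := by positivity
  obtain ⟨δ, ε, hδ, hδ1, hε, hε1, h1, h2⟩ := core_const h.C_nonneg hn
  obtain ⟨l, hl, hflat, w, hw, hne⟩ := hs ε hε B b hb
  have hρ1 : ∀ r, FreeGroup.lift (nf φ T) (ρ r) = 1 := fun r => by
    rw [← MonoidHom.mem_ker, hρ.ker]
    exact Subgroup.subset_normalClosure ⟨r, rfl⟩
  obtain ⟨L, hL⟩ := exists_cprod ρ (w := FreeGroup.map Sum.inl w) (by
    rw [← hρ.ker, MonoidHom.mem_ker, core_lift_inl, hw])
  have hd : 0 < dev (hol φ l w 1) :=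
    lt_of_le_of_ne (dev_nonneg _) fun e => hne (dev_eq_zero.1 e.symm)
  obtain ⟨k, hk⟩ : ∃ k : ℕ, L.length * (δ / 2 ^ k) < dev (hol φ l w 1) := by
    obtain ⟨k, hk⟩ := pow_unbounded_of_one_lt (L.length * δ / dev (hol φ l w 1))
      (one_lt_two (α := ℝ))
    refine ⟨k, ?_⟩
    rw [div_lt_iff₀ hd] at hk
    rw [← mul_div_assoc, div_lt_iff₀ (by positivity), mul_comm (dev _)]
    exact hk
  choose Dd hDd using core_decay S0 hδ.le k
  choose Db hDb using fun j => exists_word_support φ (b j)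
  obtain ⟨Dw, hDw⟩ := exists_word_support φ w
  obtain ⟨Q, _, _, π, hπ⟩ := core_quot (Dw ∪ (L.toFinset.biUnion fun y =>
    Dd (FreeGroup.lift (nf φ T) y.1)).biUnion fun g =>
      Finset.univ.biUnion fun j => (Db j).image (g * ·))
  obtain ⟨a, ha, hal⟩ := core_label π _ hπ l hε.le hl
  have hcom : ∀ (v : FreeGroup A) (g : G), hol (fun s => π (φ s)) a v (π g) =
      hol φ (fun e => a (π e.1, e.2)) v g := fun v g =>
    ((hol_comap φ (fun s => π (φ s)) π (fun g s => map_mul π g (φ s)) a v g).1).symm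
  have hR : Rin ⊆ Rin ∪ L.toFinset.image fun y => y.2.1 := Finset.subset_union_left
  obtain ⟨k', f, W, hsq⟩ := exists_square h π _ hR
  obtain ⟨x, hx1, hx2⟩ := exists_solution h hR hsq hn (fun a θ hθ ha j q =>
    (hnb j Q _ a θ hθ (fun q t _ => ha _) q).trans (mul_le_mul_of_nonneg_right
      (Finset.single_le_sum (f := fun j => (nb j : ℝ)) (fun _ _ => Nat.cast_nonneg _)
        (Finset.mem_univ j)) hθ)) hε.le hε1 hδ hδ1 h1 h2 a ha
  have hfin : ∀ y ∈ L, dev (hol (fun s => π (nf φ T s)) (lab a x) (ρ y.2.1)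
      (1 * FreeGroup.lift (fun s => π (nf φ T s)) y.1)) ≤ δ / 2 ^ k := by
    intro y hy
    have hy' := List.mem_toFinset.2 hy
    have hyR : y.2.1 ∈ Rin ∪ L.toFinset.image fun y => y.2.1 :=
      Finset.mem_union_right _ (Finset.mem_image_of_mem _ hy')
    rw [one_mul, lift_comp]
    by_cases hr : y.2.1 ∈ Rin
    · refine hDd (FreeGroup.lift (nf φ T) y.1)
        (fun g => ∀ j, hol (fun s => π (φ s)) a (b j) (π g) = 1)
        (fun g η => ∀ r ∈ Rin, dev (hol (fun s => π (nf φ T s)) (lab a x) (ρ r) (π g)) ≤ η)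
        (fun g r hr => hx1 _ r (hR hr)) (fun g η hη hp hF r hr => ?_) (fun g hg j => ?_) _ hr
      · refine (h.est Q π a x ε δ hε.le hδ.le hδ1 ha (fun q r hr => hx1 q r (hR hr)) (π g) r hr
          (hx2 _ r (hR hr)) 0 η (fun s hs j => ?_) (fun s hs r' hr' => ?_) le_rfl hη).trans ?_
        · rw [← map_mul, hp s hs j, dev_one]
        · rw [← map_mul]
          exact hF s hs r' hr'
        · have h3 : 0 ≤ C * ε := mul_nonneg h.C_nonneg hε.le
          have h4 : C * (δ + ε) ≤ 1 / 2 := by linarith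
          have h5 := mul_le_mul_of_nonneg_right h4 hη
          linarith
      · rw [hcom, ← hflat j g]
        refine hDb j S3 _ l g fun d hd s => hal _ ?_ s
        refine Finset.mem_union_right _ (Finset.mem_biUnion.2 ⟨g, Finset.mem_biUnion.2
          ⟨y, hy', hg⟩, Finset.mem_biUnion.2 ⟨j, Finset.mem_univ _, ?_⟩⟩)
        exact Finset.mem_image_of_mem _ hd
    · have h3 := hx2 (π (FreeGroup.lift (nf φ T) y.1)) _ hyR
      rw [h.out _ hr, push_zero, map_zero] at h3
      rw [eq_one_of_im ((hx1 _ _ hyR).trans hδ1) h3, dev_one]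
      positivity
  have h3 := dev_cprod_le (fun s => π (nf φ T s)) ρ (fun r => by rw [lift_comp, hρ1, map_one])
    (lab a x) L 1 hfin
  rw [← hL, core_hol_inl, ← map_one π, hcom,
    hDw S3 _ l 1 fun d hd s => hal _ (Finset.mem_union_left _ (by rwa [one_mul])) s] at h3
  exact absurd hk (not_lt.2 h3)

end Crest.Agent.R197
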