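import Mathlib

/-! Row 197 (Eilenberg–Ganea): holonomy of labelled Cayley/Schreier graphs, chains of words,
aspherical presentations, and the two group-theoretic hypotheses of the core theorem. -/

set_option autoImplicit false

namespace Crest.Agent.R197

open Quaternion

/-- The wreath-type group carrying holonomies. -/
@[ext] structure Wr (Q U : Type) where
  /-- holonomy part -/
  a : Q → U
  /-- translation part -/
  g : Q

namespace Wr

variable {Q U : Type} [Group Q] [Group U]

instance : Mul (Wr Q U) := ⟨fun x y => ⟨fun q => x.a q * y.a (q * x.g), x.g * y.g⟩⟩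
instance : One (Wr Q U) := ⟨⟨fun _ => 1, 1⟩⟩
instance : Inv (Wr Q U) := ⟨fun x => ⟨fun q => (x.a (q * x.g⁻¹))⁻¹, x.g⁻¹⟩⟩

@[simp] theorem mul_a (x y : Wr Q U) (q : Q) : (x * y).a q = x.a q * y.a (q * x.g) := rfl
@[simp] theorem mul_g (x y : Wr Q U) : (x * y).g = x.g * y.g := rfl
@[simp] theorem one_a (q : Q) : (1 : Wr Q U).a q = 1 := rfl
@[simp] theorem one_g : (1 : Wr Q U).g = 1 := rfl
@[simp] theorem inv_a (x : Wr Q U) (q : Q) : (x⁻¹).a q = (x.a (q * x.g⁻¹))⁻¹ := rfl
@[simp] theorem inv_g (x : Wr Q U) : (x⁻¹).g = x.g⁻¹ := rfl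

instance : Group (Wr Q U) := Group.ofLeftAxioms
  (fun x y z => by ext q <;> simp [mul_assoc])
  (fun x => by ext q <;> simp)
  (fun x => by ext q <;> simp)

end Wr

section hol

variable {Q U S : Type} [Group Q] [Group U]

/-- The homomorphism from the free group to the wreath-type group. -/
def holW (ψ : S → Q) (l : Q × S → U) : FreeGroup S →* Wr Q U :=
  FreeGroup.lift fun s => ⟨fun q => l (q, s), ψ s⟩

/-- Holonomy of the labelling `l` along the path that starts at `q` and reads the word `w`;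
the edge `(q, s)` goes from `q` to `q * ψ s`. -/
def hol (ψ : S → Q) (l : Q × S → U) (w : FreeGroup S) (q : Q) : U := (holW ψ l w).a q

theorem holW_g (ψ : S → Q) (l : Q × S → U) (w : FreeGroup S) :
    (holW ψ l w).g = FreeGroup.lift ψ w := by
  induction w using FreeGroup.induction_on with
  | C1 => simp
  | of s => simp [holW]
  | inv_of s ih => simp [ih]
  | mul x y hx hy => simp [hx, hy]

@[simp] theorem hol_one (ψ : S → Q) (l : Q × S → U) (q : Q) : hol ψ l 1 q = 1 := by simp [hol]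

@[simp] theorem hol_of (ψ : S → Q) (l : Q × S → U) (s : S) (q : Q) :
    hol ψ l (FreeGroup.of s) q = l (q, s) := by simp [hol, holW]

theorem hol_mul (ψ : S → Q) (l : Q × S → U) (w w' : FreeGroup S) (q : Q) :
    hol ψ l (w * w') q = hol ψ l w q * hol ψ l w' (q * FreeGroup.lift ψ w) := by
  simp [hol, holW_g]

theorem hol_inv (ψ : S → Q) (l : Q × S → U) (w : FreeGroup S) (q : Q) :
    hol ψ l w⁻¹ q = (hol ψ l w (q * (FreeGroup.lift ψ w)⁻¹))⁻¹ := by
  simp [hol, holW_g]

/-- Naturality in the coefficient group. -/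
theorem hol_map {U' : Type} [Group U'] (f : U →* U') (ψ : S → Q) (l : Q × S → U)
    (w : FreeGroup S) (q : Q) : hol ψ (fun e => f (l e)) w q = f (hol ψ l w q) := by
  induction w using FreeGroup.induction_on generalizing q with
  | C1 => simp
  | of s => simp
  | inv_of s ih => simp [hol_inv]
  | mul x y hx hy => simp [hol_mul, hx, hy]

/-- Naturality in the vertex set: `κ` is a map of labelled graphs. -/
theorem hol_comap {G : Type} [Group G] (φ : S → G) (ψ : S → Q) (κ : G → Q)
    (hκ : ∀ g s, κ (g * φ s) = κ g * ψ s) (l : Q × S → U) (w : FreeGroup S) (g : G) :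
    hol φ (fun e => l (κ e.1, e.2)) w g = hol ψ l w (κ g) ∧
      κ (g * FreeGroup.lift φ w) = κ g * FreeGroup.lift ψ w := by
  induction w using FreeGroup.induction_on generalizing g with
  | C1 => simp
  | of s => simp [hκ]
  | inv_of s ih =>
    have h : κ (g * (φ s)⁻¹) = κ g * (ψ s)⁻¹ := by
      rw [eq_mul_inv_iff_mul_eq, ← hκ]; simp
    simp [hol_inv, h]
  | mul x y hx hy =>
    refine ⟨?_, ?_⟩
    · rw [hol_mul, hol_mul, (hx g).1, (hy _).1, (hx g).2]
    · rw [map_mul, map_mul, ← mul_assoc, (hy _).2, (hx g).2, mul_assoc]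

/-- Substitution of words for letters. -/
theorem hol_lift {S' : Type} (ψ : S → Q) (l : Q × S → U) (θ : S' → FreeGroup S)
    (w : FreeGroup S') (q : Q) :
    hol ψ l (FreeGroup.lift θ w) q =
      hol (fun s => FreeGroup.lift ψ (θ s)) (fun e => hol ψ l (θ e.2) e.1) w q := by
  have h : ∀ w : FreeGroup S', FreeGroup.lift (fun s => FreeGroup.lift ψ (θ s)) w =
      FreeGroup.lift ψ (FreeGroup.lift θ w) := fun w => by
    induction w using FreeGroup.induction_on with
    | C1 => simp
    | of s => simp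
    | inv_of s ih => simp
    | mul x y hx hy => simp [hx, hy]
  induction w using FreeGroup.induction_on generalizing q with
  | C1 => simp
  | of s => simp
  | inv_of s ih => simp [hol_inv]
  | mul x y hx hy => simp [hol_mul, hx, hy, h]

/-- The integral 1-chain of the path that starts at `q` and reads `w`. -/
noncomputable def chain (ψ : S → Q) (w : FreeGroup S) (q : Q) : Q × S →₀ ℤ :=
  Multiplicative.toAdd (hol ψ (fun e => Multiplicative.ofAdd (Finsupp.single e (1 : ℤ))) w q)

@[simp] theorem chain_one (ψ : S → Q) (q : Q) : chain ψ 1 q = 0 := by simp [chain]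

@[simp] theorem chain_of (ψ : S → Q) (s : S) (q : Q) :
    chain ψ (FreeGroup.of s) q = Finsupp.single (q, s) 1 := by simp [chain]

theorem chain_mul (ψ : S → Q) (w w' : FreeGroup S) (q : Q) :
    chain ψ (w * w') q = chain ψ w q + chain ψ w' (q * FreeGroup.lift ψ w) := by
  simp [chain, hol_mul]

theorem chain_inv (ψ : S → Q) (w : FreeGroup S) (q : Q) :
    chain ψ w⁻¹ q = -chain ψ w (q * (FreeGroup.lift ψ w)⁻¹) := by
  simp [chain, hol_inv]

/-- Naturality of chains in the vertex set. -/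
theorem chain_comap {G : Type} [Group G] (φ : S → G) (ψ : S → Q) (κ : G → Q)
    (hκ : ∀ g s, κ (g * φ s) = κ g * ψ s) (w : FreeGroup S) (g : G) :
    Finsupp.mapDomain (fun e : G × S => (κ e.1, e.2)) (chain φ w g) = chain ψ w (κ g) := by
  have h1 := (hol_comap φ ψ κ hκ
    (fun e => Multiplicative.ofAdd (Finsupp.single e (1 : ℤ))) w g).1
  have h2 := hol_map (AddMonoidHom.toMultiplicative
    (Finsupp.mapDomain.addMonoidHom (M := ℤ) (fun e : G × S => (κ e.1, e.2)))) φ
    (fun e => Multiplicative.ofAdd (Finsupp.single e (1 : ℤ))) w g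
  unfold chain
  rw [← h1]
  have h3 : (fun e : G × S => Multiplicative.ofAdd (Finsupp.single (κ e.1, e.2) (1 : ℤ))) =
      fun e => (AddMonoidHom.toMultiplicative
        (Finsupp.mapDomain.addMonoidHom (M := ℤ) (fun e : G × S => (κ e.1, e.2))))
        (Multiplicative.ofAdd (Finsupp.single e (1 : ℤ))) := by
    funext e; simp
  rw [h3, h2]
  simp

/-- Evaluation of additive cochains on chains is holonomy in an additive commutative group. -/
theorem linearCombination_chain {M : Type} [AddCommGroup M] (ψ : S → Q) (ξ : Q × S → M)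
    (w : FreeGroup S) (q : Q) :
    Finsupp.linearCombination ℤ ξ (chain ψ w q) =
      Multiplicative.toAdd (hol ψ (fun e => Multiplicative.ofAdd (ξ e)) w q) := by
  induction w using FreeGroup.induction_on generalizing q with
  | C1 => simp
  | of s => simp
  | inv_of s ih => simp [chain_inv, hol_inv]
  | mul x y hx hy => simp [chain_mul, hol_mul, hx, hy]

end hol

/-- The second boundary map (Fox Jacobian) of a presentation. -/
noncomputable def bd2 {G S R : Type} [Group G] (φ : S → G) (ρ : R → FreeGroup S) :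
    (G × R →₀ ℤ) →ₗ[ℤ] (G × S →₀ ℤ) :=
  Finsupp.linearCombination ℤ fun x => chain φ (ρ x.2) x.1

/-- `φ, ρ` is a presentation of `G` whose Cayley complex has injective second boundary map. -/
structure IsAsph {G S R : Type} [Group G] (φ : S → G) (ρ : R → FreeGroup S) : Prop where
  surj : Function.Surjective (FreeGroup.lift φ)
  ker : (FreeGroup.lift φ).ker = Subgroup.normalClosure (Set.range ρ)
  inj : ∀ c : G × R →₀ ℤ, bd2 φ ρ c = 0 → c = 0

/-- `G` has an aspherical presentation (any number of generators and relators). -/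
def AsphPres (G : Type) [Group G] : Prop :=
  ∃ (S R : Type) (φ : S → G) (ρ : R → FreeGroup S), IsAsph φ ρ

/-- The relation module of `φ` is generated by the translates of finitely many loops. -/
def FP2 {G A : Type} [Group G] (φ : A → G) : Prop :=
  ∃ (B : Type) (_ : Fintype B) (b : B → FreeGroup A), (∀ j, FreeGroup.lift φ (b j) = 1) ∧
    ∀ w, FreeGroup.lift φ w = 1 → chain φ w 1 ∈ LinearMap.range (bd2 φ b)

/-- Unit quaternions. -/
abbrev S3 : Type := unitary ℍ[ℝ]

/-- Distance of a unit quaternion from `1`. -/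
noncomputable def dev (u : S3) : ℝ := ‖(u : ℍ[ℝ]) - 1‖

/-- Imaginary part of a unit quaternion. -/
noncomputable def imS (u : S3) : ℍ[ℝ] := (u : ℍ[ℝ]).im

/-- Small labellings that are flat on any given finite family of loops but not on all loops. -/
def SmallFlat {G A : Type} [Group G] (φ : A → G) : Prop :=
  ∀ ε : ℝ, 0 < ε → ∀ (B : Type) [Fintype B] (b : B → FreeGroup A),
    (∀ j, FreeGroup.lift φ (b j) = 1) →
    ∃ l : G × A → S3, (∀ e, dev (l e) ≤ ε) ∧ (∀ j g, hol φ l (b j) g = 1) ∧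
      ∃ w, FreeGroup.lift φ w = 1 ∧ hol φ l w 1 ≠ 1

open Classical in
/-- Normalisation of a quaternion (junk value `1` at `0`). -/
noncomputable def nrm (u : ℍ[ℝ]) : S3 :=
  if h : u = 0 then 1 else ⟨‖u‖⁻¹ • u, by
    have hn : ‖u‖ ≠ 0 := norm_ne_zero_iff.2 h
    have h1 : star u * u = ((‖u‖ * ‖u‖ : ℝ) : ℍ[ℝ]) := by
      rw [Quaternion.star_mul_self, Quaternion.normSq_eq_norm_mul_self]
    have h2 : u * star u = ((‖u‖ * ‖u‖ : ℝ) : ℍ[ℝ]) := by
      rw [Quaternion.self_mul_star, Quaternion.normSq_eq_norm_mul_self]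
    have h3 : ‖u‖⁻¹ • ‖u‖⁻¹ • ((‖u‖ * ‖u‖ : ℝ) : ℍ[ℝ]) = 1 := by
      rw [smul_smul, Quaternion.smul_coe]
      have : ‖u‖⁻¹ * ‖u‖⁻¹ * (‖u‖ * ‖u‖) = 1 := by field_simp
      rw [this, Quaternion.coe_one]
    constructor
    · rw [Quaternion.star_smul, smul_mul_smul_comm, h1, mul_smul, h3]
    · rw [Quaternion.star_smul, smul_mul_smul_comm, h2, mul_smul, h3]⟩

theorem coe_nrm {u : ℍ[ℝ]} (h : u ≠ 0) : (nrm u : ℍ[ℝ]) = ‖u‖⁻¹ • u := by
  simp [nrm, h]

theorem S3.norm_coe (u : S3) : ‖(u : ℍ[ℝ])‖ = 1 := CStarRing.norm_coe_unitary u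

theorem nrm_coe (u : S3) : nrm (u : ℍ[ℝ]) = u := by
  have h : (u : ℍ[ℝ]) ≠ 0 := by
    intro h; have := S3.norm_coe u; rw [h, norm_zero] at this; exact zero_ne_one this
  ext1
  rw [coe_nrm h, S3.norm_coe, inv_one, one_smul]

theorem dev_nonneg (u : S3) : 0 ≤ dev u := norm_nonneg _

@[simp] theorem dev_one : dev 1 = 0 := by simp [dev]

theorem dev_eq_zero {u : S3} : dev u = 0 ↔ u = 1 := by
  unfold dev
  rw [norm_eq_zero, sub_eq_zero]
  exact ⟨fun h => Subtype.ext h, fun h => by rw [h]; rfl⟩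

theorem dev_mul_le (u v : S3) : dev (u * v) ≤ dev u + dev v := by
  unfold dev
  have h : ((u * v : S3) : ℍ[ℝ]) - 1 = (u : ℍ[ℝ]) * ((v : ℍ[ℝ]) - 1) + ((u : ℍ[ℝ]) - 1) := by
    rw [Submonoid.coe_mul]; noncomm_ring
  rw [h]
  refine (norm_add_le _ _).trans ?_
  rw [norm_mul, S3.norm_coe, one_mul, add_comm]

theorem dev_inv (u : S3) : dev u⁻¹ = dev u := by
  unfold dev
  have h : ((u⁻¹ : S3) : ℍ[ℝ]) - 1 = star ((u : ℍ[ℝ]) - 1) := by
    rw [star_sub, star_one]; rfl
  rw [h, norm_star]

theorem dev_conj (u v : S3) : dev (u * v * u⁻¹) = dev v := by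
  unfold dev
  have h : ((u * v * u⁻¹ : S3) : ℍ[ℝ]) - 1 =
      (u : ℍ[ℝ]) * ((v : ℍ[ℝ]) - 1) * ((u⁻¹ : S3) : ℍ[ℝ]) := by
    have h1 : (u : ℍ[ℝ]) * ((u⁻¹ : S3) : ℍ[ℝ]) = 1 := by
      rw [← Submonoid.coe_mul, mul_inv_cancel]; rfl
    rw [Submonoid.coe_mul, Submonoid.coe_mul, mul_sub, sub_mul, mul_one, h1]
  rw [h, norm_mul, norm_mul, S3.norm_coe, S3.norm_coe, one_mul, mul_one]

theorem imS_inv (u : S3) : imS u⁻¹ = -imS u := by
  unfold imS
  have h : ((u⁻¹ : S3) : ℍ[ℝ]) = star (u : ℍ[ℝ]) := rfl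
  rw [h, Quaternion.im_star]

end Crest.Agent.R197
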