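import Crest.Agent.R197.DegDefs

/-! The Jacobian determinant is a null Lagrangian. -/

set_option autoImplicit false

namespace Crest.Agent.R197

open MeasureTheory Set Filter Topology

section aux

variable {E : Type} [NormedAddCommGroup E] [NormedSpace ℝ E] [FiniteDimensional ℝ E]

theorem deg1_det_ne_zero {A : E →L[ℝ] E} {lam : ℝ} (h : ‖A‖ < lam) :
    (lam • (1 : E →L[ℝ] E) + A).det ≠ 0 := by
  rw [ContinuousLinearMap.det, Ne, LinearMap.det_eq_zero_iff_ker_ne_bot, not_not,
    LinearMap.ker_eq_bot']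
  intro v hv
  have h1 : lam • v = -A v := eq_neg_of_add_eq_zero_left (by simpa using hv)
  have h2 := congrArg norm h1
  have h0 : 0 < lam := (norm_nonneg _).trans_lt h
  rw [norm_smul, norm_neg, Real.norm_eq_abs, abs_of_pos h0] at h2
  have h3 := A.le_opNorm v
  by_contra hv0
  have h4 : 0 < ‖v‖ := norm_pos_iff.2 hv0
  nlinarith

theorem deg1_det_nonneg {A : E →L[ℝ] E} {lam : ℝ} (h : ‖A‖ < lam) :
    0 ≤ (lam • (1 : E →L[ℝ] E) + A).det := by
  have h0 : 0 < lam := (norm_nonneg _).trans_lt h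
  by_contra hneg
  have hc : Continuous fun s : ℝ => (lam • (1 : E →L[ℝ] E) + s • A).det :=
    ContinuousLinearMap.continuous_det.comp (by fun_prop)
  have h1 : (0 : ℝ) ∈ Icc ((fun s : ℝ => (lam • (1 : E →L[ℝ] E) + s • A).det) 1)
      ((fun s : ℝ => (lam • (1 : E →L[ℝ] E) + s • A).det) 0) := by
    constructor
    · simpa using (not_le.1 hneg).le
    · simp only [zero_smul, add_zero, ContinuousLinearMap.det, ContinuousLinearMap.toLinearMap_smul,
        LinearMap.det_smul]
      have : LinearMap.det ((1 : E →L[ℝ] E) : E →ₗ[ℝ] E) = 1 := map_one _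
      rw [this]
      positivity
  obtain ⟨s, hs, hs0⟩ := intermediate_value_Icc' zero_le_one hc.continuousOn h1
  refine deg1_det_ne_zero (lt_of_le_of_lt ?_ h) hs0
  rw [norm_smul, Real.norm_eq_abs, abs_of_nonneg hs.1]
  exact mul_le_of_le_one_left (norm_nonneg _) hs.2

/-- The determinant is a fixed combination of shifted determinants. -/
theorem deg1_interp (E : Type) [NormedAddCommGroup E] [NormedSpace ℝ E] [FiniteDimensional ℝ E]
    (L : ℝ) : ∃ (s : Finset ℕ) (c : ℕ → ℝ), ∀ A : E →L[ℝ] E,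
      A.det = ∑ j ∈ s, c j * ((L + 1 + j) • (1 : E →L[ℝ] E) + A).det := by
  refine ⟨Finset.range (Module.finrank ℝ E + 1), fun j => (Lagrange.basis
    (Finset.range (Module.finrank ℝ E + 1)) (fun j : ℕ => L + 1 + j) j).eval 0, fun A => ?_⟩
  have hev : ∀ t : ℝ, (LinearMap.charpoly (-(A : E →ₗ[ℝ] E))).eval t =
      (t • (1 : E →L[ℝ] E) + A).det := by
    intro t
    rw [LinearMap.eval_charpoly, sub_neg_eq_add, ContinuousLinearMap.det,
      Algebra.algebraMap_eq_smul_one]
    rfl
  have h := Lagrange.eq_interpolate (s := Finset.range (Module.finrank ℝ E + 1))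
    (v := fun j : ℕ => L + 1 + j) (f := LinearMap.charpoly (-(A : E →ₗ[ℝ] E)))
    (fun i _ j _ hij => by simpa using hij) (by
      rw [Finset.card_range, Polynomial.degree_eq_natDegree (LinearMap.charpoly_monic _).ne_zero,
        LinearMap.charpoly_natDegree]
      exact_mod_cast Nat.lt_succ_self _)
  have h2 := congrArg (Polynomial.eval 0) h
  rw [hev, zero_smul, zero_add, Lagrange.interpolate_apply, Polynomial.eval_finset_sum] at h2
  rw [h2]
  refine Finset.sum_congr rfl fun j _ => ?_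
  rw [Polynomial.eval_mul, Polynomial.eval_C, hev, mul_comm]

theorem deg1_bijective {h : E → E} (hh : Differentiable ℝ h) {L lam : ℝ}
    (hL : ∀ x, ‖fderiv ℝ h x‖ ≤ L) (hlam : L < lam) :
    Function.Bijective fun x => lam • x + h x := by
  have hL0 : 0 ≤ L := (norm_nonneg _).trans (hL 0)
  have h0 : 0 < lam := hL0.trans_lt hlam
  have hlip : ∀ x y, ‖h x - h y‖ ≤ L * ‖x - y‖ := fun x y =>
    convex_univ.norm_image_sub_le_of_norm_fderiv_le (fun x _ => hh x) (fun x _ => hL x)
      (mem_univ y) (mem_univ x)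
  haveI : CompleteSpace E := FiniteDimensional.complete ℝ E
  constructor
  · intro x y hxy
    have h1 : lam • (x - y) = -(h x - h y) := by
      simp only at hxy
      rw [smul_sub, sub_eq_iff_eq_add, ← add_left_inj (h x), hxy]
      abel
    have h2 := congrArg norm h1
    rw [norm_smul, norm_neg, Real.norm_eq_abs, abs_of_pos h0] at h2
    have h3 := hlip x y
    by_contra hne
    have h4 : 0 < ‖x - y‖ := norm_pos_iff.2 (sub_ne_zero.2 hne)
    nlinarith
  · intro y
    have hc : ContractingWith ⟨L / lam, by positivity⟩ fun x => lam⁻¹ • (y - h x) := by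
      refine ⟨?_, LipschitzWith.of_dist_le_mul fun a b => ?_⟩
      · exact_mod_cast (div_lt_one h0).2 hlam
      · rw [dist_eq_norm, dist_eq_norm, ← smul_sub, sub_sub_sub_cancel_left, norm_smul,
          norm_sub_rev (h b), Real.norm_eq_abs, abs_of_pos (inv_pos.2 h0)]
        calc lam⁻¹ * ‖h a - h b‖ ≤ lam⁻¹ * (L * ‖a - b‖) :=
              mul_le_mul_of_nonneg_left (hlip a b) (inv_pos.2 h0).le
          _ = L / lam * ‖a - b‖ := by ring
    refine ⟨hc.fixedPoint _, ?_⟩
    have h1 : lam⁻¹ • (y - h (hc.fixedPoint _)) = hc.fixedPoint _ := hc.fixedPoint_isFixedPt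
    simp only
    nth_rw 1 [← h1]
    rw [smul_smul, mul_inv_cancel₀ h0.ne', one_smul, sub_add_cancel]

variable [MeasurableSpace E] [BorelSpace E] (μ : Measure E) [μ.IsAddHaarMeasure]

theorem deg1_integral_eq {h : E → E} (hh : Differentiable ℝ h) {L lam : ℝ}
    (hL : ∀ x, ‖fderiv ℝ h x‖ ≤ L) (hlam : L < lam) {K : Set E} (hK : MeasurableSet K) :
    ∫ x in K, (lam • (1 : E →L[ℝ] E) + fderiv ℝ h x).det ∂μ =
      ∫ _ in (fun x => lam • x + h x) '' K, (1 : ℝ) ∂μ := by
  rw [integral_image_eq_integral_abs_det_fderiv_smul μ hK (f := fun x => lam • x + h x)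
    (f' := fun x => lam • (1 : E →L[ℝ] E) + fderiv ℝ h x)
    (fun x _ => (((hasFDerivAt_id x).const_smul lam).add (hh x).hasFDerivAt).hasFDerivWithinAt)
    (deg1_bijective hh hL hlam).1.injOn]
  refine integral_congr_ae (Eventually.of_forall fun x => ?_)
  simp only [smul_eq_mul, mul_one]
  rw [abs_of_nonneg (deg1_det_nonneg ((hL x).trans_lt hlam))]

theorem deg1_global {f g : E → E} {K : Set E} (hK : IsCompact K) (hf : ContDiff ℝ 1 f)
    (hg : ContDiff ℝ 1 g) (hf' : HasCompactSupport f) (hg' : HasCompactSupport g)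
    (hfg : ∀ x, x ∉ K → f x = g x) :
    ∫ x in K, (fderiv ℝ f x).det ∂μ = ∫ x in K, (fderiv ℝ g x).det ∂μ := by
  have cf := hf.continuous_fderiv one_ne_zero
  have cg := hg.continuous_fderiv one_ne_zero
  obtain ⟨L₁, hL₁⟩ := cf.bounded_above_of_compact_support (hf'.fderiv (𝕜 := ℝ))
  obtain ⟨L₂, hL₂⟩ := cg.bounded_above_of_compact_support (hg'.fderiv (𝕜 := ℝ))
  have h1 : ∀ x, ‖fderiv ℝ f x‖ ≤ max L₁ L₂ := fun x => (hL₁ x).trans (le_max_left _ _)
  have h2 : ∀ x, ‖fderiv ℝ g x‖ ≤ max L₁ L₂ := fun x => (hL₂ x).trans (le_max_right _ _)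
  obtain ⟨s, c, hc⟩ := deg1_interp E (max L₁ L₂)
  have hint : ∀ {u : E → E →L[ℝ] E}, Continuous u → ∀ j : ℕ, IntegrableOn
      (fun x => c j * ((max L₁ L₂ + 1 + j) • (1 : E →L[ℝ] E) + u x).det) K μ := by
    intro u hu j
    refine ContinuousOn.integrableOn_compact hK (Continuous.continuousOn ?_)
    exact continuous_const.mul (ContinuousLinearMap.continuous_det.comp (by fun_prop))
  rw [integral_congr_ae (Eventually.of_forall fun x => hc (fderiv ℝ f x)),
    integral_congr_ae (Eventually.of_forall fun x => hc (fderiv ℝ g x)),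
    integral_finset_sum _ fun j _ => hint cf j, integral_finset_sum _ fun j _ => hint cg j]
  refine Finset.sum_congr rfl fun j _ => ?_
  have hlam : max L₁ L₂ < max L₁ L₂ + 1 + j := by
    have : (0 : ℝ) ≤ j := Nat.cast_nonneg j
    linarith
  have df := hf.differentiable one_ne_zero
  have dg := hg.differentiable one_ne_zero
  rw [integral_const_mul, integral_const_mul, deg1_integral_eq μ df h1 hlam hK.measurableSet,
    deg1_integral_eq μ dg h2 hlam hK.measurableSet]
  congr 3
  apply compl_injective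
  rw [← image_compl_eq (deg1_bijective df h1 hlam), ← image_compl_eq (deg1_bijective dg h2 hlam)]
  exact image_congr fun x hx => by rw [hfg x hx]

end aux

/-- Two `C¹` maps that agree outside a compact set have the same total Jacobian over it. -/
theorem null_lagrangian {E : Type} [NormedAddCommGroup E] [NormedSpace ℝ E]
    [FiniteDimensional ℝ E] [MeasurableSpace E] [BorelSpace E] (μ : Measure E)
    [μ.IsAddHaarMeasure] {f g : E → E} {O K : Set E} (hO : IsOpen O) (hK : IsCompact K)
    (hKO : K ⊆ O) (hf : ContDiffOn ℝ 1 f O) (hg : ContDiffOn ℝ 1 g O)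
    (hfg : ∀ x ∈ O, x ∉ K → f x = g x) :
    ∫ x in K, (fderiv ℝ f x).det ∂μ = ∫ x in K, (fderiv ℝ g x).det ∂μ := by
  obtain ⟨K', hK', h1, h2⟩ := exists_compact_between hK hO hKO
  obtain ⟨κ, hκ1, hκ0, -⟩ := exists_contMDiffMap_one_nhds_of_subset_interior (n := 1)
    (modelWithCornersSelf ℝ E) hK.isClosed h1
  have hκ : ContDiff ℝ 1 κ := κ.contMDiff.contDiff
  have hcd : ∀ {u : E → E}, ContDiffOn ℝ 1 u O → ContDiff ℝ 1 fun x => κ x • u x := by
    intro u hu
    rw [contDiff_iff_contDiffAt]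
    intro x
    by_cases hx : x ∈ O
    · exact hκ.contDiffAt.smul (hu.contDiffAt (hO.mem_nhds hx))
    · refine (contDiffAt_const (c := (0 : E))).congr_of_eventuallyEq ?_
      filter_upwards [hK'.isClosed.isOpen_compl.mem_nhds fun h => hx (h2 h)] with y hy
      rw [hκ0 y hy, zero_smul]
  have hcs : ∀ u : E → E, HasCompactSupport fun x => κ x • u x := fun u =>
    HasCompactSupport.intro hK' fun x hx => by rw [hκ0 x hx, zero_smul]
  have hfd : ∀ (u : E → E), ∀ x ∈ K, fderiv ℝ u x = fderiv ℝ (fun x => κ x • u x) x := by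
    intro u x hx
    refine Filter.EventuallyEq.fderiv_eq ?_
    filter_upwards [eventually_nhdsSet_iff_forall.1 hκ1 x hx] with y hy
    rw [hy, one_smul]
  rw [setIntegral_congr_fun hK.measurableSet (g := fun x => (fderiv ℝ (fun x => κ x • f x) x).det)
      fun x hx => by simp only [hfd f x hx],
    setIntegral_congr_fun hK.measurableSet (f := fun x => (fderiv ℝ g x).det)
      (g := fun x => (fderiv ℝ (fun x => κ x • g x) x).det) fun x hx => by simp only [hfd g x hx]]
  refine deg1_global μ hK (hcd hf) (hcd hg) (hcs f) (hcs g) fun x hx => ?_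
  by_cases hxO : x ∈ O
  · rw [hfg x hxO hx]
  · rw [hκ0 x fun h => hxO (h2 h), zero_smul, zero_smul]

end Crest.Agent.R197
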