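import Crest.Agent.R197.Deg1

/-! Local stability of the degree integral. -/

set_option autoImplicit false

namespace Crest.Agent.R197

open MeasureTheory Set Filter Topology

variable {ι : Type} [Fintype ι] [DecidableEq ι]

/-- primitive of the scaled hat function -/
noncomputable def deg2H (η s : ℝ) : ℝ := ∫ t in (0 : ℝ)..s, hat (t / η)

theorem deg2H_hasDerivAt (η s : ℝ) : HasDerivAt (deg2H η) (hat (s / η)) s :=
  ((continuous_hat.comp (continuous_id.div_const η)).integral_hasStrictDerivAt 0 s).hasDerivAt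

theorem deg2H_contDiff (η : ℝ) : ContDiff ℝ 1 (deg2H η) := by
  rw [contDiff_one_iff_deriv]
  refine ⟨fun s => (deg2H_hasDerivAt η s).differentiableAt, ?_⟩
  have : deriv (deg2H η) = fun s => hat (s / η) := funext fun s => (deg2H_hasDerivAt η s).deriv
  rw [this]
  exact continuous_hat.comp (continuous_id.div_const η)

/-- the map whose Jacobian is the bump -/
noncomputable def deg2Psi (η : ℝ) (y : ι → ℝ) : ι → ℝ := fun k => deg2H η (y k)

omit [DecidableEq ι] in
theorem deg2Psi_contDiff (η : ℝ) : ContDiff ℝ 1 (deg2Psi η : (ι → ℝ) → (ι → ℝ)) :=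
  contDiff_pi.2 fun k => (deg2H_contDiff η).comp (contDiff_apply ℝ ℝ k)

theorem deg2Psi_det (η : ℝ) (y : ι → ℝ) : (fderiv ℝ (deg2Psi η) y).det = bump η y := by
  have h : HasFDerivAt (deg2Psi η) (ContinuousLinearMap.pi fun k : ι =>
      hat (y k / η) • (ContinuousLinearMap.proj k : (ι → ℝ) →L[ℝ] ℝ)) y := by
    refine hasFDerivAt_pi.2 fun k => ?_
    exact (deg2H_hasDerivAt η (y k)).comp_hasFDerivAt y (hasFDerivAt_apply k y)
  rw [h.fderiv, ContinuousLinearMap.det]
  have e : ((ContinuousLinearMap.pi fun k : ι =>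
      hat (y k / η) • (ContinuousLinearMap.proj k : (ι → ℝ) →L[ℝ] ℝ) : (ι → ℝ) →L[ℝ] (ι → ℝ)) :
        (ι → ℝ) →ₗ[ℝ] (ι → ℝ)) = Matrix.toLin' (Matrix.diagonal fun k => hat (y k / η)) := by
    refine LinearMap.ext fun v => funext fun k => ?_
    simp [Matrix.mulVec_diagonal]
  rw [e, LinearMap.det_toLin', Matrix.det_diagonal, bump]

theorem deg2_det_comp (η : ℝ) {f : (ι → ℝ) → (ι → ℝ)} {x : ι → ℝ} (hf : DifferentiableAt ℝ f x) :
    (fderiv ℝ (deg2Psi η ∘ f) x).det = bump η (f x) * (fderiv ℝ f x).det := by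
  rw [fderiv_comp x ((deg2Psi_contDiff η).differentiable one_ne_zero _) hf, ← deg2Psi_det]
  exact LinearMap.det_comp _ _

theorem deg2_dint {f : (ι → ℝ) → (ι → ℝ)} {O K : Set (ι → ℝ)} (hO : IsOpen O) (hK : IsCompact K)
    (hKO : K ⊆ O) (hf : ContDiffOn ℝ 1 f O) (η : ℝ) :
    dint f K η = ∫ x in K, (fderiv ℝ (deg2Psi η ∘ f) x).det := by
  refine setIntegral_congr_fun hK.measurableSet fun x hx => ?_
  exact (deg2_det_comp η ((hf.contDiffAt (hO.mem_nhds (hKO hx))).differentiableAt one_ne_zero)).symm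

/-- The degree integral only sees the region where `f` is small. -/
theorem dint_congr_set {f : (ι → ℝ) → (ι → ℝ)} {K K' : Set (ι → ℝ)} (hK : IsCompact K)
    (hK' : IsCompact K') {η : ℝ} (hη : 0 < η)
    (h1 : ∀ x ∈ K, x ∉ K' → η ≤ ‖f x‖) (h2 : ∀ x ∈ K', x ∉ K → η ≤ ‖f x‖) :
    dint f K η = dint f K' η := by
  have e1 : dint f K η = dint f (K ∩ K') η :=
    setIntegral_eq_of_subset_of_forall_sdiff_eq_zero hK.measurableSet inter_subset_left
      fun x hx => by rw [bump_eq_zero hη (h1 x hx.1 fun h => hx.2 ⟨hx.1, h⟩), zero_mul]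
  have e2 : dint f K' η = dint f (K ∩ K') η :=
    setIntegral_eq_of_subset_of_forall_sdiff_eq_zero hK'.measurableSet inter_subset_right
      fun x hx => by rw [bump_eq_zero hη (h2 x hx.1 fun h => hx.2 ⟨h, hx.1⟩), zero_mul]
  rw [e1, e2]

/-- If the straight-line homotopy from `f` to `g` stays `η`-away from `0` on the collar
`K \ interior K'`, the degree integrals over `K` agree. -/
theorem dint_eq_of_close {f g : (ι → ℝ) → (ι → ℝ)} {O K K' : Set (ι → ℝ)} (hO : IsOpen O)
    (hK : IsCompact K) (hK' : IsCompact K') (hKO : K ⊆ O) (hKK : K' ⊆ interior K)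
    (hf : ContDiffOn ℝ 1 f O) (hg : ContDiffOn ℝ 1 g O) {η : ℝ} (hη : 0 < η)
    (h : ∀ x ∈ K, x ∉ interior K' → ∀ t ∈ Icc (0 : ℝ) 1, η ≤ ‖f x + t • (g x - f x)‖) :
    dint f K η = dint g K η := by
  obtain ⟨κ, h0, h1, h01⟩ := exists_contMDiffMap_zero_one_of_isClosed (n := 1)
    (modelWithCornersSelf ℝ (ι → ℝ)) (isOpen_interior (s := K)).isClosed_compl hK'.isClosed
    (disjoint_compl_left_iff_subset.2 hKK)
  have hκ : ContDiff ℝ 1 κ := κ.contMDiff.contDiff
  set g' : (ι → ℝ) → (ι → ℝ) := fun x => f x + κ x • (g x - f x) with hg'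
  have hg'c : ContDiffOn ℝ 1 g' O := hf.add (hκ.contDiffOn.smul (hg.sub hf))
  have e1 : dint f K η = dint g' K η := by
    rw [deg2_dint hO hK hKO hf, deg2_dint hO hK hKO hg'c]
    refine null_lagrangian volume hO hK hKO ((deg2Psi_contDiff η).comp_contDiffOn hf)
      ((deg2Psi_contDiff η).comp_contDiffOn hg'c) fun x _ hx => ?_
    have : κ x = 0 := h0 fun h => hx (interior_subset h)
    simp [hg', this]
  rw [e1]
  refine setIntegral_congr_fun hK.measurableSet fun x hx => ?_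
  by_cases hx' : x ∈ interior K'
  · have e : g' =ᶠ[𝓝 x] g := by
      filter_upwards [mem_interior_iff_mem_nhds.1 hx'] with y hy
      have : κ y = 1 := h1 hy
      simp [hg', this]
    simp only [e.fderiv_eq, e.eq_of_nhds]
  · have a1 := h x hx hx' (κ x) (h01 x)
    have a2 := h x hx hx' 1 ⟨zero_le_one, le_rfl⟩
    rw [one_smul, add_sub_cancel] at a2
    simp only [hg', bump_eq_zero hη a1, bump_eq_zero hη a2, zero_mul]

/-- A map of non-zero degree has a zero. -/
theorem Ess.exists_zero {f : (ι → ℝ) → (ι → ℝ)} {O : Set (ι → ℝ)} (hf : ContinuousOn f O)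
    (h : Ess f O) : ∃ x ∈ O, f x = 0 := by
  obtain ⟨K, hK, hKO, -, hη⟩ := h
  by_contra hne
  obtain ⟨δ, hδ, hd⟩ := hK.exists_forall_le' (hf.mono hKO).norm (a := 0) fun x hx =>
    norm_pos_iff.2 fun h0 => hne ⟨x, hKO hx, h0⟩
  obtain ⟨η, h1, h2⟩ := (hη.and (Ioc_mem_nhdsGT hδ)).exists
  refine h1 (setIntegral_eq_zero_of_forall_eq_zero fun x hx => ?_)
  rw [bump_eq_zero h2.1 (h2.2.trans (hd x hx)), zero_mul]

end Crest.Agent.R197
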