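import Crest.Agent.R197.Deg2

/-! Homotopy invariance of the degree. -/

set_option autoImplicit false

namespace Crest.Agent.R197

open MeasureTheory Set Filter Topology

variable {ι : Type} [Fintype ι] [DecidableEq ι]

omit [Fintype ι] [DecidableEq ι] in
theorem deg3_slice {N : Set (ℝ × (ι → ℝ))} (hN : IsCompact N) (s : ℝ) :
    IsCompact {x | (s, x) ∈ N} :=
  (hN.image continuous_snd).of_isClosed_subset
    (hN.isClosed.preimage (Continuous.prodMk_right s)) fun x hx => ⟨(s, x), hx, rfl⟩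

theorem deg3_lower {X E : Type} [TopologicalSpace X] [NormedAddCommGroup E] {f : X → E}
    {C : Set X} (hC : IsCompact C) (hf : ContinuousOn f C) (h : ∀ x ∈ C, f x ≠ 0) :
    ∃ m : ℝ, 0 < m ∧ ∀ x ∈ C, m ≤ ‖f x‖ :=
  hC.exists_forall_le' hf.norm fun x hx => norm_pos_iff.2 (h x hx)

theorem deg3_local {F : ℝ × (ι → ℝ) → (ι → ℝ)} {Ω N : Set (ℝ × (ι → ℝ))} (hΩ : IsOpen Ω)
    (hF : ContDiffOn ℝ 1 F Ω) (hN : IsCompact N) (hNΩ : N ⊆ Ω) {η : ℝ} (hη : 0 < η) (s₀ : ℝ)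
    (h : ∀ x, (s₀, x) ∈ N → ‖F (s₀, x)‖ ≤ 3 * η → (s₀, x) ∈ interior N) :
    ∀ᶠ s in 𝓝 s₀, dint (fun x => F (s, x)) {x | (s, x) ∈ N} η =
      dint (fun x => F (s₀, x)) {x | (s₀, x) ∈ N} η := by
  have hc : ∀ p ∈ Ω, ContinuousAt F p := fun p hp =>
    hF.continuousOn.continuousAt (hΩ.mem_nhds hp)
  have hsl : ∀ s : ℝ, ContDiffOn ℝ 1 (fun x => F (s, x)) {x | (s, x) ∈ Ω} := fun s =>
    hF.comp (contDiff_prodMk_right s).contDiffOn fun _ hx => hx
  have hA : IsCompact ({x | (s₀, x) ∈ N} ∩ (fun x => ‖F (s₀, x)‖) ⁻¹' Iic (3 * η)) :=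
    (deg3_slice hN s₀).of_isClosed_subset
      (((hsl s₀).continuousOn.mono fun x hx => hNΩ hx).norm.preimage_isClosed_of_isClosed
        (deg3_slice hN s₀).isClosed isClosed_Iic) inter_subset_left
  have hU : IsOpen {x | (s₀, x) ∈ interior N} :=
    isOpen_interior.preimage (Continuous.prodMk_right s₀)
  obtain ⟨K', hK', hAK', hK'U⟩ := exists_compact_between hA hU fun x hx => h x hx.1 hx.2
  obtain ⟨K, hK, hK'K, hKU⟩ := exists_compact_between hK' hU hK'U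
  have hbig : ∀ x, (s₀, x) ∈ N → x ∉ interior K' → 3 * η < ‖F (s₀, x)‖ := fun x hx hx' =>
    not_le.1 fun hle => hx' (hAK' ⟨hx, hle⟩)
  have e1 : ∀ᶠ s in 𝓝 s₀, ∀ x ∈ K, (s, x) ∈ N ∧ ‖F (s, x) - F (s₀, x)‖ ≤ η := by
    refine hK.eventually_forall_of_forall_eventually fun y hy => ?_
    have h1 := hc _ (hNΩ (interior_subset (hKU hy)))
    have h2 : ContinuousAt (fun z : ℝ × (ι → ℝ) => F (s₀, z.2)) (s₀, y) :=
      ContinuousAt.comp (g := F) (f := fun z : ℝ × (ι → ℝ) => (s₀, z.2)) h1 (by fun_prop)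
    have h3 : Tendsto (fun z : ℝ × (ι → ℝ) => ‖F z - F (s₀, z.2)‖) (𝓝 (s₀, y)) (𝓝 0) := by
      simpa using (h1.tendsto.sub h2.tendsto).norm
    filter_upwards [mem_interior_iff_mem_nhds.1 (hKU hy), h3.eventually (Iic_mem_nhds hη)]
      with z h4 h5 using ⟨h4, h5⟩
  have e2 : ∀ᶠ s in 𝓝 s₀, ∀ x ∈ Prod.snd '' N \ interior K', (s, x) ∈ N → η ≤ ‖F (s, x)‖ := by
    refine ((hN.image continuous_snd).diff
      isOpen_interior).eventually_forall_of_forall_eventually fun y hy => ?_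
    by_cases h1 : (s₀, y) ∈ N
    · have h2 : η < ‖F (s₀, y)‖ := by linarith [hbig y h1 hy.2]
      filter_upwards [(hc _ (hNΩ h1)).norm.tendsto.eventually (Ici_mem_nhds h2)]
        with z h3 _ using h3
    · filter_upwards [hN.isClosed.isOpen_compl.mem_nhds h1] with z h3 h4 using absurd h4 h3
  have e3 : ∀ᶠ s in 𝓝 s₀, dint (fun x => F (s, x)) {x | (s, x) ∈ N} η =
      dint (fun x => F (s, x)) K η := by
    filter_upwards [e1, e2] with s h1 h2
    exact dint_congr_set (deg3_slice hN s) hK hη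
      (fun x hx hx' => h2 x ⟨⟨(s, x), hx, rfl⟩,
        fun h3 => hx' (interior_subset (hK'K (interior_subset h3)))⟩ hx)
      fun x hx hx' => absurd (h1 x hx).1 hx'
  filter_upwards [e1, e3] with s h1 h3
  rw [h3, e3.self_of_nhds]
  refine (dint_eq_of_close (O := {x | (s₀, x) ∈ Ω} ∩ {x | (s, x) ∈ Ω})
    ((hΩ.preimage (Continuous.prodMk_right s₀)).inter (hΩ.preimage (Continuous.prodMk_right s)))
    hK hK' (fun x hx => ⟨hNΩ (interior_subset (hKU hx)), hNΩ (h1 x hx).1⟩) hK'K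
    ((hsl s₀).mono inter_subset_left) ((hsl s).mono inter_subset_right) hη
    fun x hx hx' t ht => ?_).symm
  have h4 := hbig x (interior_subset (hKU hx)) hx'
  have h5 : ‖t • (F (s, x) - F (s₀, x))‖ ≤ η := by
    rw [norm_smul, Real.norm_of_nonneg ht.1]
    exact (mul_le_of_le_one_left (norm_nonneg _) ht.2).trans (h1 x hx).2
  have h6 := norm_sub_le (F (s₀, x) + t • (F (s, x) - F (s₀, x))) (t • (F (s, x) - F (s₀, x)))
  rw [add_sub_cancel_right] at h6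
  linarith

theorem Ess.homotopy {F : ℝ × (ι → ℝ) → (ι → ℝ)} {Ω : Set (ℝ × (ι → ℝ))} (hΩ : IsOpen Ω)
    (hF : ContDiffOn ℝ 1 F Ω) (hZ : IsCompact {p ∈ Ω | p.1 ∈ Icc (0 : ℝ) 1 ∧ F p = 0})
    (h : Ess (fun x => F (0, x)) {x | ((0 : ℝ), x) ∈ Ω}) :
    Ess (fun x => F (1, x)) {x | ((1 : ℝ), x) ∈ Ω} := by
  obtain ⟨N, hN, hZN, hNΩ⟩ := exists_compact_between hZ hΩ fun p hp => hp.1
  obtain ⟨K, hK, hKΩ, hK0, hne⟩ := h
  have hc : ContinuousOn (fun x => F (0, x)) {x | ((0 : ℝ), x) ∈ Ω} :=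
    hF.continuousOn.comp (Continuous.prodMk_right 0).continuousOn fun _ hx => hx
  obtain ⟨m, hm, h1⟩ := deg3_lower
    ((hN.diff isOpen_interior).inter_right (isClosed_Icc.preimage continuous_fst) :
      IsCompact ((N \ interior N) ∩ Prod.fst ⁻¹' Icc (0 : ℝ) 1))
    (hF.continuousOn.mono fun p hp => hNΩ hp.1.1)
    fun p hp h0 => hp.1.2 (hZN ⟨hNΩ hp.1.1, hp.2, h0⟩)
  obtain ⟨m₁, hm₁, h2⟩ := deg3_lower
    (hK.diff (isOpen_interior.preimage (Continuous.prodMk_right 0)) :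
      IsCompact (K \ {x | ((0 : ℝ), x) ∈ interior N}))
    (hc.mono fun x hx => hKΩ hx.1)
    fun x hx h0 => hx.2 (hZN ⟨hKΩ hx.1, left_mem_Icc.2 zero_le_one, h0⟩)
  obtain ⟨m₂, hm₂, h3⟩ := deg3_lower
    ((deg3_slice hN 0).diff isOpen_interior : IsCompact ({x | ((0 : ℝ), x) ∈ N} \ interior K))
    (hc.mono fun x hx => hNΩ hx.1) fun x hx h0 => hx.2 (hK0 x (hNΩ hx.1) h0)
  refine ⟨{x | ((1 : ℝ), x) ∈ N}, deg3_slice hN 1, fun x hx => hNΩ hx, fun x hx h0 => ?_, ?_⟩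
  · exact preimage_interior_subset_interior_preimage (Continuous.prodMk_right (1 : ℝ))
      (hZN ⟨hx, right_mem_Icc.2 zero_le_one, h0⟩)
  filter_upwards [hne, Ioo_mem_nhdsGT (show 0 < m / 4 by positivity), Ioo_mem_nhdsGT hm₁,
    Ioo_mem_nhdsGT hm₂] with η h4 h5 h6 h7
  have e1 : dint (fun x => F (0, x)) K η = dint (fun x => F (0, x)) {x | ((0 : ℝ), x) ∈ N} η :=
    dint_congr_set hK (deg3_slice hN 0) h5.1
      (fun x hx hx' => h6.2.le.trans (h2 x ⟨hx, fun h8 => hx' (interior_subset (s := N) h8)⟩))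
      fun x hx hx' => h7.2.le.trans (h3 x ⟨hx, fun h8 => hx' (interior_subset h8)⟩)
  have e2 := isPreconnected_Icc.induction₂' (fun s s' : ℝ =>
      dint (fun x => F (s, x)) {x | (s, x) ∈ N} η = dint (fun x => F (s', x)) {x | (s', x) ∈ N} η)
    (fun s hs => ?_) (fun _ _ _ _ _ _ => Eq.trans) (left_mem_Icc.2 zero_le_one)
    (right_mem_Icc.2 zero_le_one)
  · rwa [← e2, ← e1]
  · refine nhdsWithin_le_nhds ((deg3_local hΩ hF hN hNΩ h5.1 s fun x hx hle => ?_).mono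
      fun _ h8 => ⟨h8.symm, h8⟩)
    by_contra h8
    have := h1 (s, x) ⟨⟨hx, h8⟩, hs⟩
    linarith [h5.1, h5.2]

end Crest.Agent.R197
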