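import Mathlib

/-! Row 197: a small analytic degree theory on `ι → ℝ` (definitions). -/

set_option autoImplicit false

namespace Crest.Agent.R197

open MeasureTheory Set Filter Topology

variable {ι : Type} [Fintype ι] [DecidableEq ι]

/-- The hat function. -/
noncomputable def hat (t : ℝ) : ℝ := max 0 (1 - |t|)

/-- Product bump supported in the cube of radius `η`. -/
noncomputable def bump (η : ℝ) (y : ι → ℝ) : ℝ := ∏ k, hat (y k / η)

/-- The degree integral. -/
noncomputable def dint (f : (ι → ℝ) → (ι → ℝ)) (K : Set (ι → ℝ)) (η : ℝ) : ℝ :=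
  ∫ x in K, bump η (f x) * (fderiv ℝ f x).det

/-- `f` has non-zero degree over `0` on the open set `O`. -/
def Ess (f : (ι → ℝ) → (ι → ℝ)) (O : Set (ι → ℝ)) : Prop :=
  ∃ K, IsCompact K ∧ K ⊆ O ∧ (∀ x ∈ O, f x = 0 → x ∈ interior K) ∧
    ∀ᶠ η in 𝓝[>] (0 : ℝ), dint f K η ≠ 0

theorem continuous_hat : Continuous hat := by unfold hat; fun_prop

theorem hat_nonneg (t : ℝ) : 0 ≤ hat t := le_max_left _ _

theorem hat_eq_zero {t : ℝ} (h : 1 ≤ |t|) : hat t = 0 := max_eq_left (by linarith)

theorem hat_pos {t : ℝ} (h : |t| < 1) : 0 < hat t := lt_max_of_lt_right (by linarith)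

theorem hat_eq {t : ℝ} (h : |t| ≤ 1) : hat t = 1 - |t| := max_eq_right (by linarith)

omit [DecidableEq ι] in
theorem continuous_bump (η : ℝ) : Continuous (bump η : (ι → ℝ) → ℝ) := by
  unfold bump
  exact continuous_finsetProd _ fun k _ => continuous_hat.comp (by fun_prop)

omit [DecidableEq ι] in
theorem bump_nonneg (η : ℝ) (y : ι → ℝ) : 0 ≤ bump η y :=
  Finset.prod_nonneg fun _ _ => hat_nonneg _

omit [DecidableEq ι] in
theorem bump_eq_zero {η : ℝ} (hη : 0 < η) {y : ι → ℝ} (h : η ≤ ‖y‖) : bump η y = 0 := by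
  by_contra h0
  have : ‖y‖ < η := by
    rw [pi_norm_lt_iff hη]
    intro k
    by_contra hk
    refine h0 (Finset.prod_eq_zero (Finset.mem_univ k) (hat_eq_zero ?_))
    rw [abs_div, abs_of_pos hη, le_div_iff₀ hη, one_mul]
    exact not_lt.1 hk
  linarith

end Crest.Agent.R197
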