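import Crest.Agent.R197.CDefs

/-! Estimates for holonomies in the unit quaternions. -/

set_option autoImplicit false

namespace Crest.Agent.R197

open Quaternion

theorem esta_norm_sq (a : ℍ[ℝ]) : ‖a‖ ^ 2 = a.re ^ 2 + a.imI ^ 2 + a.imJ ^ 2 + a.imK ^ 2 := by
  rw [sq, ← Quaternion.normSq_eq_norm_mul_self, Quaternion.normSq_def']

theorem esta_norm_im_le (a : ℍ[ℝ]) : ‖a.im‖ ≤ ‖a‖ := by
  refine le_of_sq_le_sq ?_ (norm_nonneg _)
  rw [esta_norm_sq, esta_norm_sq]
  simp only [Quaternion.re_im, Quaternion.imI_im, Quaternion.imJ_im, Quaternion.imK_im]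
  nlinarith [sq_nonneg a.re]

theorem dev_le_im {u : S3} (h : dev u ≤ 1) : dev u ≤ 2 * ‖imS u‖ := by
  have h1 := esta_norm_sq (u : ℍ[ℝ])
  have h2 := esta_norm_sq ((u : ℍ[ℝ]) - 1)
  have h3 := esta_norm_sq (u : ℍ[ℝ]).im
  rw [S3.norm_coe] at h1
  simp only [Quaternion.re_im, Quaternion.imI_im, Quaternion.imJ_im, Quaternion.imK_im,
    Quaternion.re_sub, Quaternion.imI_sub, Quaternion.imJ_sub, Quaternion.imK_sub,
    Quaternion.re_one, Quaternion.imI_one, Quaternion.imJ_one, Quaternion.imK_one] at h2 h3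
  have h4 : dev u ^ 2 ≤ 1 := pow_le_one₀ (dev_nonneg u) h
  refine le_of_sq_le_sq ?_ (by positivity)
  rw [dev] at h4
  rw [mul_pow, dev, imS, h3]
  have h5 : ‖(u : ℍ[ℝ]) - 1‖ ^ 2 = 2 - 2 * (u : ℍ[ℝ]).re := by linarith
  have h6 := sq_nonneg ‖(u : ℍ[ℝ]) - 1‖
  nlinarith

theorem norm_imS_le (u : S3) : ‖imS u‖ ≤ dev u := by
  have h := esta_norm_im_le ((u : ℍ[ℝ]) - 1)
  rwa [Quaternion.im_sub, Quaternion.im_one, sub_zero] at h

theorem eq_one_of_im {u : S3} (h : dev u ≤ 1) (h0 : imS u = 0) : u = 1 := by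
  have h1 := dev_le_im h
  rw [h0, norm_zero, mul_zero] at h1
  exact dev_eq_zero.1 (le_antisymm h1 (dev_nonneg u))

variable {G S R : Type} [Group G]

/-- A word has small holonomy if the finitely many letters in it have small labels. -/
theorem exists_word_bound (w : FreeGroup S) : ∃ (n : ℕ) (s : Finset S),
    ∀ (Q : Type) [Group Q] (ψ : S → Q) (l : Q × S → S3) (θ : ℝ), 0 ≤ θ →
      (∀ q, ∀ t ∈ s, dev (l (q, t)) ≤ θ) → ∀ q, dev (hol ψ l w q) ≤ n * θ := by
  classical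
  induction w using FreeGroup.induction_on with
  | C1 => exact ⟨0, ∅, fun Q _ ψ l θ _ _ q => by simp⟩
  | of s => exact ⟨1, {s}, fun Q _ ψ l θ _ h q => by simpa using h q s (by simp)⟩
  | inv_of s ih =>
    obtain ⟨n, D, h⟩ := ih
    exact ⟨n, D, fun Q _ ψ l θ h0 h1 q => by rw [hol_inv, dev_inv]; exact h Q ψ l θ h0 h1 _⟩
  | mul x y hx hy =>
    obtain ⟨n, D, h⟩ := hx
    obtain ⟨n', D', h'⟩ := hy
    refine ⟨n + n', D ∪ D', fun Q _ ψ l θ h0 h1 q => ?_⟩
    rw [hol_mul, Nat.cast_add, add_mul]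
    exact (dev_mul_le _ _).trans (add_le_add
      (h Q ψ l θ h0 (fun q t ht => h1 q t (Finset.mem_union_left _ ht)) _)
      (h' Q ψ l θ h0 (fun q t ht => h1 q t (Finset.mem_union_right _ ht)) _))

/-- The holonomy of a word only depends on the labels of finitely many edges. -/
theorem exists_word_support (φ : S → G) (w : FreeGroup S) : ∃ D : Finset G,
    ∀ (U : Type) [Group U] (l l' : G × S → U) (g : G),
      (∀ d ∈ D, ∀ s, l (g * d, s) = l' (g * d, s)) → hol φ l w g = hol φ l' w g := by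
  classical
  induction w using FreeGroup.induction_on with
  | C1 => exact ⟨∅, fun U _ l l' g _ => by simp⟩
  | of s => exact ⟨{1}, fun U _ l l' g h => by simpa using h 1 (by simp) s⟩
  | inv_of s ih =>
    obtain ⟨D, h⟩ := ih
    refine ⟨D.image fun d => (FreeGroup.lift φ (FreeGroup.of s))⁻¹ * d, fun U _ l l' g h1 => ?_⟩
    rw [hol_inv, hol_inv, h U l l' _ fun d hd t => ?_]
    rw [mul_assoc]
    exact h1 _ (Finset.mem_image_of_mem _ hd) t
  | mul x y hx hy =>
    obtain ⟨D, h⟩ := hx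
    obtain ⟨D', h'⟩ := hy
    refine ⟨D ∪ D'.image fun d => FreeGroup.lift φ x * d, fun U _ l l' g h1 => ?_⟩
    rw [hol_mul, hol_mul, h U l l' g fun d hd => h1 d (Finset.mem_union_left _ hd),
      h' U l l' _ fun d hd t => ?_]
    rw [mul_assoc]
    exact h1 _ (Finset.mem_union_right _ (Finset.mem_image_of_mem _ hd)) t

theorem esta_hol_cons {Q : Type} [Group Q] (ψ : S → Q) (ρ : R → FreeGroup S)
    (hρ : ∀ r, FreeGroup.lift ψ (ρ r) = 1) (l : Q × S → S3) (x : FreeGroup S × R × Bool)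
    (L : List (FreeGroup S × R × Bool)) (q : Q) :
    hol ψ l (cprod ρ (x :: L)) q = hol ψ l x.1 q *
      (if x.2.2 then hol ψ l (ρ x.2.1) (q * FreeGroup.lift ψ x.1)
        else (hol ψ l (ρ x.2.1) (q * FreeGroup.lift ψ x.1))⁻¹) * (hol ψ l x.1 q)⁻¹ *
      hol ψ l (cprod ρ L) q := by
  obtain ⟨v, r, s⟩ := x
  simp only [cprod, List.map_cons, List.prod_cons]
  cases s <;> simp [hol_mul, hol_inv, hρ]

theorem esta_dev_ite (b : Bool) (z : S3) : dev (if b then z else z⁻¹) = dev z := by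
  cases b <;> simp [dev_inv]

theorem esta_conj (v z : S3) :
    ‖((v * z * v⁻¹ : S3) : ℍ[ℝ]) - z‖ ≤ 2 * dev v * dev z := by
  have h1 : ((v⁻¹ : S3) : ℍ[ℝ]) * (v : ℍ[ℝ]) = 1 := by
    rw [← Submonoid.coe_mul, inv_mul_cancel]; rfl
  have h2 : (((v * z * v⁻¹ : S3) : ℍ[ℝ]) - z) * v =
      ((v : ℍ[ℝ]) - 1) * ((z : ℍ[ℝ]) - 1) - ((z : ℍ[ℝ]) - 1) * ((v : ℍ[ℝ]) - 1) := by
    rw [Submonoid.coe_mul, Submonoid.coe_mul, sub_mul, mul_assoc _ _ (v : ℍ[ℝ]), h1]
    noncomm_ring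
  have h3 := congrArg norm h2
  rw [norm_mul, S3.norm_coe, mul_one] at h3
  rw [h3]
  refine (norm_sub_le _ _).trans_eq ?_
  rw [norm_mul, norm_mul, dev, dev]
  ring

theorem esta_im_mul (y P : S3) : ‖imS (y * P) - imS y - imS P‖ ≤ dev y * dev P := by
  have h : imS (y * P) - imS y - imS P = (((y : ℍ[ℝ]) - 1) * ((P : ℍ[ℝ]) - 1)).im := by
    have h1 : ((y : ℍ[ℝ]) - 1) * ((P : ℍ[ℝ]) - 1) = (y : ℍ[ℝ]) * P - y - P + 1 := by noncomm_ring
    rw [h1, Quaternion.im_add, Quaternion.im_sub, Quaternion.im_sub, Quaternion.im_one, add_zero]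
    rfl
  rw [h]
  exact (esta_norm_im_le _).trans_eq (norm_mul _ _)

/-- Crude bound for a product of conjugates. -/
theorem dev_cprod_le {Q : Type} [Group Q] (ψ : S → Q) (ρ : R → FreeGroup S)
    (hρ : ∀ r, FreeGroup.lift ψ (ρ r) = 1) (l : Q × S → S3) (L : List (FreeGroup S × R × Bool))
    (q : Q) {η : ℝ} (h : ∀ x ∈ L, dev (hol ψ l (ρ x.2.1) (q * FreeGroup.lift ψ x.1)) ≤ η) :
    dev (hol ψ l (cprod ρ L) q) ≤ L.length * η := by
  induction L with
  | nil => simp [cprod]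
  | cons x L ih =>
    rw [esta_hol_cons ψ ρ hρ, List.length_cons, Nat.cast_succ, add_mul, one_mul, add_comm]
    refine (dev_mul_le _ _).trans (add_le_add ?_ (ih fun y hy => h y (List.mem_cons_of_mem _ hy)))
    rw [dev_conj, esta_dev_ite]
    exact h x List.mem_cons_self

/-- First order expansion of a product of conjugates. -/
theorem im_cprod_sub_le {Q : Type} [Group Q] (π : G →* Q) (φ : S → G) (ρ : R → FreeGroup S)
    (hρ : ∀ r, FreeGroup.lift φ (ρ r) = 1) (l : Q × S → S3) (L : List (FreeGroup S × R × Bool))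
    (q : Q) {θ δ η : ℝ} (hθ : 0 ≤ θ) (hδ : 0 ≤ δ) (hη : 0 ≤ η)
    (h1 : ∀ x ∈ L, dev (hol (fun s => π (φ s)) l x.1 q) ≤ θ)
    (h2 : ∀ x ∈ L, dev (hol (fun s => π (φ s)) l (ρ x.2.1) (q * π (FreeGroup.lift φ x.1))) ≤ δ)
    (h3 : ∀ x ∈ L, dev (hol (fun s => π (φ s)) l (ρ x.2.1) (q * π (FreeGroup.lift φ x.1))) ≤ η) :
    ‖imS (hol (fun s => π (φ s)) l (cprod ρ L) q) -
      Finsupp.linearCombination ℤ (xi (fun s => π (φ s)) ρ l) (push π q (cchain φ L))‖ ≤
      L.length * (2 * θ + L.length * δ) * η := by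
  have hρ' : ∀ r, FreeGroup.lift (fun s => π (φ s)) (ρ r) = 1 := fun r => by
    rw [lift_comp, hρ, map_one]
  induction L with
  | nil => simp [cprod, cchain, imS]
  | cons x L ih =>
    have h4 := ih (fun y hy => h1 y (List.mem_cons_of_mem _ hy))
      (fun y hy => h2 y (List.mem_cons_of_mem _ hy)) (fun y hy => h3 y (List.mem_cons_of_mem _ hy))
    have h5 := dev_cprod_le _ ρ hρ' l L q (η := δ) fun y hy => by
      rw [lift_comp]; exact h2 y (List.mem_cons_of_mem _ hy)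
    have h6 := h1 x List.mem_cons_self
    have h7 := h3 x List.mem_cons_self
    have h8 : Finsupp.linearCombination ℤ (xi (fun s => π (φ s)) ρ l)
        (push π q (cchain φ (x :: L))) =
        imS (if x.2.2 then hol (fun s => π (φ s)) l (ρ x.2.1) (q * π (FreeGroup.lift φ x.1))
          else (hol (fun s => π (φ s)) l (ρ x.2.1) (q * π (FreeGroup.lift φ x.1)))⁻¹) +
        Finsupp.linearCombination ℤ (xi (fun s => π (φ s)) ρ l) (push π q (cchain φ L)) := by
      obtain ⟨v, r, s⟩ := x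
      simp only [cchain, List.map_cons, List.sum_cons, push_add, push_single, map_add]
      cases s <;> simp [xi, imS_inv]
    rw [h8, esta_hol_cons _ ρ hρ', lift_comp, List.length_cons, Nat.cast_succ]
    rw [← esta_dev_ite x.2.2] at h7
    generalize (if x.2.2 then hol (fun s => π (φ s)) l (ρ x.2.1) (q * π (FreeGroup.lift φ x.1))
      else (hol (fun s => π (φ s)) l (ρ x.2.1) (q * π (FreeGroup.lift φ x.1)))⁻¹) = z at h7 ⊢
    generalize hol (fun s => π (φ s)) l x.1 q = v at h6 ⊢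
    generalize hol (fun s => π (φ s)) l (cprod ρ L) q = P at h4 h5 ⊢
    generalize Finsupp.linearCombination ℤ (xi (fun s => π (φ s)) ρ l) (push π q (cchain φ L)) = c
      at h4 ⊢
    have h9 : ‖imS (v * z * v⁻¹) - imS z‖ ≤ 2 * θ * η := by
      rw [imS, imS, ← Quaternion.im_sub]
      refine (esta_norm_im_le _).trans ((esta_conj v z).trans ?_)
      have := dev_nonneg z
      gcongr
    have h10 : ‖imS (v * z * v⁻¹ * P) - imS (v * z * v⁻¹) - imS P‖ ≤ η * (L.length * δ) := by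
      refine (esta_im_mul _ _).trans ?_
      rw [dev_conj]
      exact mul_le_mul h7 h5 (dev_nonneg _) hη
    have h11 : imS (v * z * v⁻¹ * P) - (imS z + c) =
        (imS (v * z * v⁻¹ * P) - imS (v * z * v⁻¹) - imS P) + (imS (v * z * v⁻¹) - imS z) +
          (imS P - c) := by abel
    rw [h11]
    refine norm_add₃_le.trans ?_
    have h12 : (0 : ℝ) ≤ L.length := Nat.cast_nonneg _
    nlinarith [mul_nonneg hδ hη, mul_nonneg h12 (mul_nonneg hδ hη)]

end Crest.Agent.R197
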