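import Crest.Agent.R197.Slab
import Crest.Agent.R197.CDefs

/-! The relation module of the Bestvina–Brady group is finitely generated. -/

set_option autoImplicit false

namespace Crest.Agent.R197

section aux

variable {V : Type} [LinearOrder V] {Γ : SimpleGraph V}

/-- The empty clique. -/
def fp_cl0 (Γ : SimpleGraph V) : Cl Γ := ⟨∅, by simp⟩

/-- A one-point clique. -/
def fp_cl1 (Γ : SimpleGraph V) (a : V) : Cl Γ := ⟨{a}, by simp [AdjEq]⟩

theorem fp_dK1 (x : RA Γ) (a : V) : dK Γ (Finsupp.single (x, fp_cl1 Γ a) 1) =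
    Finsupp.single (x * gen Γ a, fp_cl0 Γ) 1 - Finsupp.single (x, fp_cl0 Γ) 1 := by
  have h1 : (fp_cl1 Γ a).er a = fp_cl0 Γ := Subtype.ext (by simp [Cl.er, fp_cl1, fp_cl0])
  have h2 : sg a {a} = 1 := by simp [sg, Finset.filter_singleton]
  have h3 : (fp_cl1 Γ a).1 = {a} := rfl
  simp only [dK, dp, dm, LinearMap.sub_apply, Finsupp.linearCombination_single, one_smul, h3,
    Finset.sum_singleton, h1, h2]

theorem fp_dK2 (x : RA Γ) (σ : Cl Γ) {u w : V} (huw : u < w) (hσ : σ.1 = {u, w}) :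
    dK Γ (Finsupp.single (x, σ) 1) =
      Finsupp.single (x * gen Γ u, fp_cl1 Γ w) 1 - Finsupp.single (x * gen Γ w, fp_cl1 Γ u) 1
        - (Finsupp.single (x, fp_cl1 Γ w) 1 - Finsupp.single (x, fp_cl1 Γ u) 1) := by
  have h1 : σ.er u = fp_cl1 Γ w := Subtype.ext (by
    simp only [Cl.er, fp_cl1, hσ]
    exact Finset.erase_insert (by simpa using huw.ne))
  have h2 : σ.er w = fp_cl1 Γ u := Subtype.ext (by
    simp only [Cl.er, fp_cl1, hσ]
    rw [Finset.pair_comm]
    exact Finset.erase_insert (by simpa using huw.ne'))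
  have h3 : sg u {u, w} = 1 := by
    simp [sg, Finset.filter_insert, Finset.filter_singleton, huw.not_gt]
  have h4 : sg w {u, w} = -1 := by
    simp [sg, Finset.filter_insert, Finset.filter_singleton, huw]
  simp only [dK, dp, dm, LinearMap.sub_apply, Finsupp.linearCombination_single, one_smul, hσ,
    Finset.sum_pair huw.ne, h1, h2, h3, h4, Finsupp.single_neg]
  abel

variable (Γ) in
/-- Edges of the Cayley graph as pairs of edges of the cube complex. -/
noncomputable def fp_iota : (BB Γ × Γ.Dart →₀ ℤ) →ₗ[ℤ] (RA Γ × Cl Γ →₀ ℤ) :=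
  Finsupp.linearCombination ℤ fun e =>
    Finsupp.single (e.1.1 * (gen Γ e.2.fst)⁻¹, fp_cl1 Γ e.2.snd) 1 -
      Finsupp.single (e.1.1 * (gen Γ e.2.fst)⁻¹, fp_cl1 Γ e.2.fst) 1

theorem fp_iota_supp (z : BB Γ × Γ.Dart →₀ ℤ) :
    fp_iota Γ z ∈ Finsupp.supported ℤ ℤ {x : RA Γ × Cl Γ | cdeg x = 1 ∧ ht x.1 = -1} := by
  induction z using Finsupp.induction_linear with
  | zero => simp
  | add c c' h h' => rw [map_add]; exact add_mem h h'
  | single e n =>
    have he : ht e.1.1 = 0 := e.1.2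
    rw [fp_iota, Finsupp.linearCombination_single]
    refine Submodule.smul_mem _ _ (sub_mem (Finsupp.single_mem_supported _ _ ?_)
      (Finsupp.single_mem_supported _ _ ?_)) <;> simp [cdeg, fp_cl1, he]

theorem fp_dK_iota (w : FreeGroup Γ.Dart) (g : BB Γ) :
    dK Γ (fp_iota Γ (chain (bbGen Γ) w g)) =
      Finsupp.single (((g * FreeGroup.lift (bbGen Γ) w : BB Γ) : RA Γ), fp_cl0 Γ) 1 -
        Finsupp.single ((g : RA Γ), fp_cl0 Γ) 1 := by
  have key : ∀ (d : Γ.Dart) (g : BB Γ), dK Γ (fp_iota Γ (Finsupp.single (g, d) 1)) =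
      Finsupp.single (((g * bbGen Γ d : BB Γ) : RA Γ), fp_cl0 Γ) 1 -
        Finsupp.single ((g : RA Γ), fp_cl0 Γ) 1 := by
    intro d g
    rw [fp_iota, Finsupp.linearCombination_single, one_smul, map_sub, fp_dK1, fp_dK1]
    simp [bbGen, mul_assoc]
  induction w using FreeGroup.induction_on generalizing g with
  | C1 => simp
  | of d => simpa using key d g
  | inv_of d _ =>
    rw [chain_inv, chain_of, map_neg, map_neg, key]
    simp
  | mul x y hx hy =>
    rw [chain_mul, map_add, map_add, hx, hy, map_mul, mul_assoc]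
    abel

/-- Projection to height zero. -/
def fp_pr (t : V) (x : RA Γ) : BB Γ := ⟨x * gen Γ t ^ (-ht x), by simp [mem_BB]⟩

/-- Paths in the Cayley graph for edges of the cube complex. -/
noncomputable def fp_f (t : V) (vm vp : V → FreeGroup Γ.Dart) :
    (RA Γ × Cl Γ →₀ ℤ) →ₗ[ℤ] (BB Γ × Γ.Dart →₀ ℤ) :=
  Finsupp.linearCombination ℤ fun x =>
    ∑ a ∈ x.2.1, chain (bbGen Γ) (if ht x.1 = -1 then vm a else vp a) (fp_pr t x.1)

theorem fp_f_m (t : V) (vm vp : V → FreeGroup Γ.Dart) {x : RA Γ} (hx : ht x = -1) (a : V)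
    {g : BB Γ} (hg : g.1 = x * gen Γ t) :
    fp_f t vm vp (Finsupp.single (x, fp_cl1 Γ a) 1) = chain (bbGen Γ) (vm a) g := by
  have : fp_pr t x = g := Subtype.ext (by simp [fp_pr, hx, hg])
  simp [fp_f, fp_cl1, hx, this]

theorem fp_f_p (t : V) (vm vp : V → FreeGroup Γ.Dart) {x : RA Γ} (a : V)
    {g : BB Γ} (hg : g.1 = x) :
    fp_f t vm vp (Finsupp.single (x, fp_cl1 Γ a) 1) = chain (bbGen Γ) (vp a) g := by
  have hx : ht x = 0 := hg ▸ g.2
  have : fp_pr t x = g := Subtype.ext (by simp [fp_pr, hx, hg])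
  simp [fp_f, fp_cl1, hx, this]

end aux

theorem bb_fp2 {V : Type} [Fintype V] [LinearOrder V] {Γ : SimpleGraph V} (hc : Γ.Connected)
    (h : Contr Γ) : FP2 (bbGen Γ) := by
  classical
  obtain ⟨t⟩ := hc.nonempty
  choose vm hvm using fun a : V => bbGen_surjective hc
    ⟨(gen Γ t)⁻¹ * gen Γ a, by simp [mem_BB]⟩
  choose vp hvp using fun a : V => bbGen_surjective hc
    ⟨gen Γ a * (gen Γ t)⁻¹, by simp [mem_BB]⟩
  let b : Γ.Dart ⊕ Γ.Dart → FreeGroup Γ.Dart := Sum.elim
    (fun d => FreeGroup.of d * (vm d.snd)⁻¹ * vm d.fst)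
    (fun d => vm d.fst * vp d.snd * (vp d.fst)⁻¹ * (vm d.snd)⁻¹)
  have hb : ∀ g j, chain (bbGen Γ) (b j) g ∈ LinearMap.range (bd2 (bbGen Γ) b) := fun g j =>
    ⟨Finsupp.single (g, j) 1, by simp [bd2]⟩
  refine ⟨Γ.Dart ⊕ Γ.Dart, inferInstance, b, ?_, fun w hw => ?_⟩
  · rintro (d | d)
    · refine Subtype.ext ?_
      simp [b, hvm, bbGen, mul_assoc]
    · refine Subtype.ext ?_
      have hcm := (gen_commute d.adj).eq
      simp only [b, Sum.elim_inr, map_mul, map_inv, hvm, hvp, Subgroup.coe_mul, Subgroup.coe_inv,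
        Subgroup.coe_one]
      calc _ = (gen Γ t)⁻¹ * (gen Γ d.fst * gen Γ d.snd) * (gen Γ d.snd * gen Γ d.fst)⁻¹ *
            gen Γ t := by group
        _ = 1 := by rw [hcm]; group
  have h1 : ∀ z, z - fp_f t vm vp (fp_iota Γ z) ∈ LinearMap.range (bd2 (bbGen Γ) b) := by
    intro z
    induction z using Finsupp.induction_linear with
    | zero => simp
    | add c c' h h' =>
      rw [map_add, map_add, add_sub_add_comm]
      exact add_mem h h'
    | single e n =>
      obtain ⟨g, d⟩ := e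
      have hg : ht g.1 = 0 := g.2
      have hx : ht (g.1 * (gen Γ d.fst)⁻¹) = -1 := by simp [hg]
      have e : Finsupp.single (g, d) (1 : ℤ) - fp_f t vm vp (fp_iota Γ (Finsupp.single (g, d) 1))
          = chain (bbGen Γ) (b (Sum.inl d)) g := by
        have hg' : (g * bbGen Γ d * (FreeGroup.lift (bbGen Γ) (vm d.snd))⁻¹).1
            = g.1 * (gen Γ d.fst)⁻¹ * gen Γ t := by
          simp [hvm, bbGen, mul_assoc]
        rw [fp_iota, Finsupp.linearCombination_single, one_smul, map_sub,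
          fp_f_m t vm vp hx _ hg', fp_f_m t vm vp hx _ hg']
        simp only [b, Sum.elim_inl, chain_mul, chain_inv, chain_of, map_mul, map_inv,
          FreeGroup.lift_apply_of, mul_assoc]
        abel
      rw [← mul_one n, ← smul_eq_mul, ← Finsupp.smul_single, map_smul, map_smul, ← smul_sub, e]
      exact Submodule.smul_mem _ _ (hb _ _)
  have h2 : ∀ c, Hom cdeg 2 c → HtH (-1) c →
      fp_f t vm vp (dK Γ c) ∈ LinearMap.range (bd2 (bbGen Γ) b) := by
    intro c hc2 hcm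
    rw [← Finsupp.sum_single c, Finsupp.sum, map_sum, map_sum]
    refine Submodule.sum_mem _ fun x hx => ?_
    obtain ⟨x, σ⟩ := x
    have hx1 : ht x = -1 := hcm _ hx
    obtain ⟨u, w, huw, hσ⟩ : ∃ u w, u < w ∧ σ.1 = {u, w} := by
      obtain ⟨u, w, hne, hσ⟩ := Finset.card_eq_two.1 (hc2 _ hx)
      rcases lt_or_gt_of_ne hne with h | h
      · exact ⟨u, w, h, hσ⟩
      · exact ⟨w, u, h, hσ.trans (Finset.pair_comm _ _)⟩
    have hadj : Γ.Adj u w :=
      (σ.2 u (by simp [hσ]) w (by simp [hσ])).resolve_left huw.ne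
    have hcm := (gen_commute hadj).eq
    let g : BB Γ := ⟨x * gen Γ t, by simp [mem_BB, hx1]⟩
    have e : fp_f t vm vp (dK Γ (Finsupp.single (x, σ) 1))
        = chain (bbGen Γ) (b (Sum.inr ⟨(u, w), hadj⟩)) g := by
      have g1 : (g * FreeGroup.lift (bbGen Γ) (vm u)).1 = x * gen Γ u := by
        simp [g, hvm, mul_assoc]
      have g2 : (g * (FreeGroup.lift (bbGen Γ) (vm u) * FreeGroup.lift (bbGen Γ) (vp w)) *
          (FreeGroup.lift (bbGen Γ) (vp u))⁻¹).1 = x * gen Γ w := by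
        simp only [g, hvm, hvp, Subgroup.coe_mul, Subgroup.coe_inv]
        calc _ = x * (gen Γ u * gen Γ w) * (gen Γ u)⁻¹ := by group
          _ = _ := by rw [hcm]; group
      have g3 : (g * (FreeGroup.lift (bbGen Γ) (vm u) * FreeGroup.lift (bbGen Γ) (vp w) *
          (FreeGroup.lift (bbGen Γ) (vp u))⁻¹) * (FreeGroup.lift (bbGen Γ) (vm w))⁻¹).1
          = x * gen Γ t := by
        simp only [g, hvm, hvp, Subgroup.coe_mul, Subgroup.coe_inv]
        calc _ = x * (gen Γ u * gen Γ w) * (gen Γ w * gen Γ u)⁻¹ * gen Γ t := by group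
          _ = _ := by rw [hcm]; group
      rw [fp_dK2 x σ huw hσ, map_sub, map_sub, map_sub, fp_f_p t vm vp _ g1, fp_f_p t vm vp _ g2,
        fp_f_m t vm vp hx1 w g3, fp_f_m t vm vp hx1 u (g := g) rfl]
      simp only [b, Sum.elim_inr, chain_mul, chain_inv, map_mul, map_inv]
      abel
    rw [← mul_one (c (x, σ)), ← smul_eq_mul, ← Finsupp.smul_single, map_smul, map_smul, e]
    exact Submodule.smul_mem _ _ (hb _ _)
  have hs := (Finsupp.mem_supported _ _).1 (fp_iota_supp (chain (bbGen Γ) w 1))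
  obtain ⟨c, hc1, hc2, hc3⟩ := slab_fill h (z := fp_iota Γ (chain (bbGen Γ) w 1))
    (fun x hx => (hs hx).1) (fun x hx => (hs hx).2) (by rw [fp_dK_iota, hw, mul_one, sub_self])
  have := add_mem (h1 (chain (bbGen Γ) w 1)) (h2 c hc1 hc2)
  rwa [hc3, sub_add_cancel] at this

end Crest.Agent.R197
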