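import Crest.Agent.R197.Nu
import Crest.Agent.R197.EstA
import Crest.Agent.R197.SolA

/-! Small flat labellings of the Cayley graph of the Bestvina–Brady group. -/

set_option autoImplicit false

namespace Crest.Agent.R197

open Quaternion

theorem flat_nrm_mul (c : S3) {s : ℍ[ℝ]} (hs : s ≠ 0) : nrm ((c : ℍ[ℝ]) * s) = c * nrm s := by
  have hc : (c : ℍ[ℝ]) ≠ 0 := fun h => by simpa [h] using S3.norm_coe c
  ext1
  rw [Submonoid.coe_mul, coe_nrm hs, coe_nrm (mul_ne_zero hc hs), norm_mul, S3.norm_coe, one_mul,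
    mul_smul_comm]

theorem flat_nrm_smul (c : S3) {r : ℝ} (hr : 0 < r) : nrm (r • (c : ℍ[ℝ])) = c := by
  have hc : (c : ℍ[ℝ]) ≠ 0 := fun h => by simpa [h] using S3.norm_coe c
  ext1
  rw [coe_nrm (smul_ne_zero hr.ne' hc), norm_smul, S3.norm_coe, mul_one, Real.norm_of_nonneg hr.le,
    inv_smul_smul₀ hr.ne']

theorem flat_dev {s t : ℍ[ℝ]} (hs : s ≠ 0) (ht : t ≠ 0) :
    dev ((nrm s)⁻¹ * nrm t) ≤ 2 * ‖t - s‖ / ‖s‖ := by
  have h1 : dev ((nrm s)⁻¹ * nrm t) = ‖(nrm t : ℍ[ℝ]) - nrm s‖ := by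
    have h : (((nrm s)⁻¹ * nrm t : S3) : ℍ[ℝ]) - 1 =
        ((nrm s)⁻¹ : S3) * ((nrm t : ℍ[ℝ]) - nrm s) := by
      rw [mul_sub, ← Submonoid.coe_mul, ← Submonoid.coe_mul, inv_mul_cancel]; rfl
    rw [dev, h, norm_mul, S3.norm_coe, one_mul]
  have hs' := norm_pos_iff.2 hs
  have ht' := norm_pos_iff.2 ht
  have h2 : ‖t‖⁻¹ • t - ‖s‖⁻¹ • s = ‖s‖⁻¹ • (t - s) + (‖s‖⁻¹ * (‖s‖ - ‖t‖) * ‖t‖⁻¹) • t := by
    have : ‖s‖⁻¹ * (‖s‖ - ‖t‖) * ‖t‖⁻¹ = ‖t‖⁻¹ - ‖s‖⁻¹ := by field_simp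
    rw [this, smul_sub, sub_smul]
    abel
  rw [h1, coe_nrm hs, coe_nrm ht, h2]
  refine (norm_add_le _ _).trans ?_
  have h3 : |‖s‖ - ‖t‖| ≤ ‖t - s‖ := by rw [norm_sub_rev]; exact abs_norm_sub_norm_le s t
  simp only [norm_smul, norm_mul, norm_inv, norm_norm, Real.norm_eq_abs (‖s‖ - ‖t‖)]
  rw [mul_assoc, inv_mul_cancel₀ ht'.ne', mul_one, div_eq_inv_mul]
  have := mul_le_mul_of_nonneg_left h3 (inv_pos.2 hs').le
  linarith

variable {V : Type} [Fintype V] {Γ : SimpleGraph V}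

omit [Fintype V] in
theorem flat_len_pow (a : V) (i : ℕ) : len (gen Γ a ^ i) ≤ i := by
  simpa [ltr] using len_le_length (Γ := Γ) (List.replicate i (a, true))

theorem flat_not_desc {u v a : V} (hu : a ≠ u) (hv : a ≠ v) (i j : ℕ) (b : Bool) :
    ¬ Desc (gen Γ u ^ i * gen Γ v ^ j)⁻¹ (a, b) := by
  classical
  intro h
  have h1 : len (gen Γ u ^ i * gen Γ v ^ j)⁻¹ ≤ i + j := by
    rw [len_inv]
    exact (len_mul_le _ _).trans (add_le_add (flat_len_pow u i) (flat_len_pow v j))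
  have h2 := sum_abs_ex_le_len ((gen Γ u ^ i * gen Γ v ^ j)⁻¹ * ltr Γ (a, b))
  let σ : V → ℤ := fun w => if w = a ∧ b then 1 else -1
  have h3 : ∑ w, σ w * ex ((gen Γ u ^ i * gen Γ v ^ j)⁻¹ * ltr Γ (a, b)) w ≤
      ∑ w, |ex ((gen Γ u ^ i * gen Γ v ^ j)⁻¹ * ltr Γ (a, b)) w| :=
    Finset.sum_le_sum fun w _ => by
      simp only [σ]
      split_ifs
      · rw [one_mul]; exact le_abs_self _
      · rw [neg_one_mul]; exact neg_le_abs _
  have h4 : ∑ w, σ w * ex ((gen Γ u ^ i * gen Γ v ^ j)⁻¹ * ltr Γ (a, b)) w = i + j + 1 := by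
    cases b <;>
      simp [ltr, mul_add, Finset.sum_add_distrib, Pi.single_apply, σ, hu.symm, hv.symm, add_comm]
  unfold Desc at h
  omega

/-- the data of the construction -/
structure FlatD (Γ : SimpleGraph V) where
  c : V → V → S3
  μ : RA Γ → V → ℕ
  m : RA Γ → V
  coc : ∀ a b e, AdjEq Γ a b → AdjEq Γ b e → AdjEq Γ a e → c a b * c b e = c a e
  re : ∀ a b, Γ.Adj a b → 0 ≤ (c a b : ℍ[ℝ]).re
  lip : ∀ x s a, μ (x * ltr Γ s) a ≤ μ x a + 2
  supp : ∀ x a, μ x a ≠ 0 ↔ ∃ b, Desc x⁻¹ (a, b)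
  len_le : ∀ x, len x ≤ ∑ a, μ x a
  max : ∀ x a, μ x a ≤ μ x (m x)

namespace FlatD

variable (D : FlatD Γ)

/-- the chart `u` can be used at `x` -/
def Valid (u : V) (x : RA Γ) : Prop := ∀ w, D.μ x w ≠ 0 → AdjEq Γ u w

/-- the weighted mean in the chart `u` -/
noncomputable def S (u : V) (x : RA Γ) : ℍ[ℝ] := ∑ w, (D.μ x w : ℝ) • (D.c u w : ℍ[ℝ])

/-- the weights differ by at most `n` -/
def Near (x y : RA Γ) (n : ℕ) : Prop := ∀ a, D.μ y a ≤ D.μ x a + n ∧ D.μ x a ≤ D.μ y a + n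

/-- the labelling -/
noncomputable def lab (x₀ : RA Γ) (e : BB Γ × Γ.Dart) : S3 :=
  (nrm (D.S (D.m (x₀ * e.1)) (x₀ * e.1)))⁻¹ *
    nrm (D.S (D.m (x₀ * e.1)) (x₀ * (e.1 * bbGen Γ e.2 : BB Γ)))

/-- all maximal weights are large -/
def Good (x₀ : RA Γ) (K : ℕ) : Prop := ∀ g : BB Γ, K < D.μ (x₀ * g) (D.m (x₀ * g))

theorem c_self (a : V) : D.c a a = 1 :=
  mul_eq_left.1 (D.coc a a a (Or.inl rfl) (Or.inl rfl) (Or.inl rfl))

variable {D}

theorem valid_of {x : RA Γ} {u : V} (h : D.μ x u ≠ 0) : D.Valid u x := by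
  intro w hw
  obtain ⟨b, hb⟩ := (D.supp x u).1 h
  obtain ⟨b', hb'⟩ := (D.supp x w).1 hw
  by_cases e : u = w
  · exact Or.inl e
  · exact Or.inr (desc_adj hb hb' fun h => e (congrArg Prod.fst h))

theorem S_change {x : RA Γ} {u u' : V} (h : D.Valid u x) (h' : D.Valid u' x) (e : AdjEq Γ u' u) :
    D.S u' x = D.c u' u * D.S u x := by
  rw [S, S, Finset.mul_sum]
  refine Finset.sum_congr rfl fun w _ => ?_
  by_cases hw : D.μ x w = 0
  · simp [hw]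
  · rw [mul_smul_comm, ← Submonoid.coe_mul, D.coc _ _ _ e (h w hw) (h' w hw)]

theorem le_norm_S {x : RA Γ} {u : V} (h : D.μ x u ≠ 0) : (D.μ x u : ℝ) ≤ ‖D.S u x‖ := by
  have h1 : (D.μ x u : ℝ) ≤ (D.S u x).re := by
    have e : (D.S u x).re = ∑ w, (D.μ x w : ℝ) * (D.c u w : ℍ[ℝ]).re :=
      map_sum (QuaternionAlgebra.reₗ (-1 : ℝ) 0 (-1)) _ _
    rw [e]
    refine le_trans (le_of_eq ?_) (Finset.single_le_sum
      (f := fun w => (D.μ x w : ℝ) * (D.c u w : ℍ[ℝ]).re) (fun w _ => ?_) (Finset.mem_univ u))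
    · simp [D.c_self]
    · by_cases hw : D.μ x w = 0
      · simp [hw]
      · refine mul_nonneg (Nat.cast_nonneg _) ?_
        rcases valid_of h w hw with rfl | e
        · simp [D.c_self]
        · exact D.re _ _ e
  refine h1.trans (Real.le_sqrt_of_sq_le ?_ |>.trans_eq (norm_eq_sqrt_real_inner _).symm)
  rw [Quaternion.inner_self, Quaternion.normSq_def']
  nlinarith [sq_nonneg (D.S u x).imI, sq_nonneg (D.S u x).imJ, sq_nonneg (D.S u x).imK]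

theorem S_ne {x : RA Γ} {u : V} (h : D.μ x u ≠ 0) : D.S u x ≠ 0 :=
  norm_pos_iff.1 (lt_of_lt_of_le (Nat.cast_pos.2 (Nat.pos_of_ne_zero h)) (le_norm_S h))

theorem Near.symm {x y : RA Γ} {n : ℕ} (h : D.Near x y n) : D.Near y x n := fun a => (h a).symm

theorem Near.trans {x y z : RA Γ} {n k : ℕ} (h : D.Near x y n) (h' : D.Near y z k) :
    D.Near x z (n + k) := fun a => by
  have := h a
  have := h' a
  omega

theorem near_ltr (x : RA Γ) (s : V × Bool) : D.Near x (x * ltr Γ s) 2 := fun a =>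
  ⟨D.lip x s a, by simpa [ltr_not] using D.lip (x * ltr Γ s) (s.1, !s.2) a⟩

theorem near_bb (x : RA Γ) (d : Γ.Dart) : D.Near x (x * bbGen Γ d) 4 := by
  simpa [ltr, bbGen, mul_assoc] using
    (near_ltr (D := D) x (d.fst, false)).trans (near_ltr _ (d.snd, true))

theorem Near.norm_sub {x y : RA Γ} {n : ℕ} (h : D.Near x y n) (u : V) :
    ‖D.S u y - D.S u x‖ ≤ Fintype.card V * n := by
  rw [S, S, ← Finset.sum_sub_distrib]
  refine (norm_sum_le _ _).trans ((Finset.sum_le_card_nsmul _ _ (n : ℝ) fun w _ => ?_).trans_eq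
    (by simp))
  rw [← sub_smul, norm_smul, S3.norm_coe, mul_one, Real.norm_eq_abs, abs_le]
  have h1 : (D.μ y w : ℝ) ≤ D.μ x w + n := by exact_mod_cast (h w).1
  have h2 : (D.μ x w : ℝ) ≤ D.μ y w + n := by exact_mod_cast (h w).2
  constructor <;> linarith

variable {x₀ : RA Γ} {K : ℕ}

theorem Good.ne (h : D.Good x₀ K) (hK : 4 ≤ K) (g : BB Γ) (d : Γ.Dart) :
    D.μ (x₀ * g) (D.m (x₀ * g)) ≠ 0 ∧ D.μ (x₀ * (g * bbGen Γ d : BB Γ)) (D.m (x₀ * g)) ≠ 0 := by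
  have h1 := h g
  have h2 := (near_bb (D := D) (x₀ * g) d (D.m (x₀ * g))).2
  rw [Subgroup.coe_mul, ← mul_assoc]
  omega

theorem Good.lab_eq (h : D.Good x₀ K) (hK : 4 ≤ K) {g : BB Γ} {d : Γ.Dart} {u : V}
    (h1 : D.Valid u (x₀ * g)) (h2 : D.Valid u (x₀ * (g * bbGen Γ d : BB Γ))) :
    D.lab x₀ (g, d) =
      (nrm (D.S u (x₀ * g)))⁻¹ * nrm (D.S u (x₀ * (g * bbGen Γ d : BB Γ))) := by
  obtain ⟨a1, a2⟩ := h.ne hK g d
  rw [S_change (valid_of a1) h1 (h1 _ a1), S_change (valid_of a2) h2 (h1 _ a1),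
    flat_nrm_mul _ (S_ne a1), flat_nrm_mul _ (S_ne a2), lab]
  group

theorem Good.dev_le (h : D.Good x₀ K) (hK : 4 ≤ K) (e : BB Γ × Γ.Dart) :
    dev (D.lab x₀ e) ≤ 8 * Fintype.card V / K := by
  obtain ⟨a1, a2⟩ := h.ne hK e.1 e.2
  refine (flat_dev (S_ne a1) (S_ne a2)).trans ?_
  have h1 := (near_bb (D := D) (x₀ * e.1) e.2).norm_sub (D.m (x₀ * e.1))
  have h2 : (K : ℝ) ≤ ‖D.S (D.m (x₀ * e.1)) (x₀ * e.1)‖ :=
    le_trans (by exact_mod_cast (h e.1).le) (le_norm_S a1)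
  rw [Subgroup.coe_mul, ← mul_assoc]
  refine div_le_div₀ (by positivity) ?_ (by exact_mod_cast (by omega : 0 < K)) h2
  push_cast at h1
  linarith

variable (D) in
theorem tel (w : FreeGroup Γ.Dart) : ∃ n : ℕ,
    (∀ x, D.Near x (x * (FreeGroup.lift (bbGen Γ) w : BB Γ)) n) ∧
    ∀ x₀ K, D.Good x₀ K → 4 ≤ K → ∀ (g : BB Γ) u, n < D.μ (x₀ * g) u →
      hol (bbGen Γ) (D.lab x₀) w g = (nrm (D.S u (x₀ * g)))⁻¹ *
        nrm (D.S u (x₀ * (g * FreeGroup.lift (bbGen Γ) w : BB Γ))) := by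
  induction w using FreeGroup.induction_on with
  | C1 => exact ⟨0, fun x a => by simp, fun x₀ K _ _ g u _ => by simp⟩
  | of d =>
    refine ⟨4, fun x => by simpa using near_bb x d, fun x₀ K h hK g u hu => ?_⟩
    have h2 := (near_bb (D := D) (x₀ * g) d u).2
    rw [hol_of, FreeGroup.lift_apply_of]
    refine h.lab_eq hK (valid_of (by omega)) (valid_of ?_)
    rw [Subgroup.coe_mul, ← mul_assoc]
    omega
  | inv_of d ih =>
    obtain ⟨n, h1, h2⟩ := ih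
    have h3 : ∀ x, D.Near x (x * (FreeGroup.lift (bbGen Γ) (FreeGroup.of d)⁻¹ : BB Γ)) n :=
      fun x => by
        simpa using (h1 (x * (FreeGroup.lift (bbGen Γ) (FreeGroup.of d)⁻¹ : BB Γ))).symm
    refine ⟨n + n, fun x a => by have := h3 x a; omega, fun x₀ K h hK g u hu => ?_⟩
    have h4 := (h3 (x₀ * g) u).2
    rw [hol_inv, h2 x₀ K h hK _ u (by rw [← map_inv, Subgroup.coe_mul, ← mul_assoc]; omega),
      inv_mul_cancel_right, map_inv]
    group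
  | mul w w' ih ih' =>
    obtain ⟨n, h1, h2⟩ := ih
    obtain ⟨n', h1', h2'⟩ := ih'
    refine ⟨n + n', fun x => by simpa [mul_assoc] using (h1 x).trans (h1' _),
      fun x₀ K h hK g u hu => ?_⟩
    have h4 := (h1 (x₀ * g) u).2
    rw [hol_mul, h2 x₀ K h hK g u (by omega),
      h2' x₀ K h hK _ u (by rw [Subgroup.coe_mul, ← mul_assoc]; omega), map_mul, mul_assoc g]
    group

theorem good_pow (u : V) (K : ℕ) : D.Good (gen Γ u ^ (Fintype.card V * K + 1)) K := by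
  intro g
  by_contra hc
  have h1 := abs_ht_le_len (gen Γ u ^ (Fintype.card V * K + 1) * (g : RA Γ))
  have h2 := D.len_le (gen Γ u ^ (Fintype.card V * K + 1) * g)
  have h3 := Finset.sum_le_card_nsmul Finset.univ _ K fun a _ =>
    (D.max (gen Γ u ^ (Fintype.card V * K + 1) * g) a).trans (not_lt.1 hc)
  rw [ht_mul, mem_BB.1 g.2, ht_pow, ht_gen, mul_one, add_zero, Nat.abs_cast] at h1
  rw [Finset.card_univ, smul_eq_mul] at h3
  have := h2.trans h3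
  omega

theorem mu_eq_zero {u v a : V} (hu : a ≠ u) (hv : a ≠ v) (i j : ℕ) :
    D.μ (gen Γ u ^ i * gen Γ v ^ j) a = 0 := by
  by_contra h
  obtain ⟨b, hb⟩ := (D.supp _ _).1 h
  exact flat_not_desc hu hv i j b hb

theorem valid_pow (d : Γ.Dart) (i j : ℕ) : D.Valid d.fst (gen Γ d.fst ^ i * gen Γ d.snd ^ j) := by
  intro w hw
  by_cases h1 : w = d.fst
  · exact Or.inl h1.symm
  by_cases h2 : w = d.snd
  · exact Or.inr (h2 ▸ d.adj)
  exact absurd (mu_eq_zero h1 h2 i j) hw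

theorem nrm_pow (u v : V) {T : ℕ} (hT : 0 < T) : nrm (D.S u (gen Γ v ^ T)) = D.c u v := by
  have h0 : ∀ a, a ≠ v → D.μ (gen Γ v ^ T) a = 0 := fun a ha => by
    simpa using mu_eq_zero (D := D) ha ha T 0
  have h1 := abs_ht_le_len (gen Γ v ^ T)
  have h2 := D.len_le (gen Γ v ^ T)
  rw [ht_pow, ht_gen, mul_one, Nat.abs_cast] at h1
  rw [Finset.sum_eq_single v (fun a _ ha => h0 a ha) (by simp)] at h2
  rw [S, Finset.sum_eq_single v (fun a _ ha => by simp [h0 a ha]) (by simp)]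
  exact flat_nrm_smul _ (Nat.cast_pos.2 (by omega))

theorem Good.dart (h : D.Good x₀ K) (hK : 4 ≤ K) (d : Γ.Dart) {T : ℕ} {g : BB Γ}
    (hg : x₀ * g = gen Γ d.fst ^ T) (i j : ℕ) (hij : j + i = T) :
    x₀ * (g * bbGen Γ d ^ i : BB Γ) = gen Γ d.fst ^ j * gen Γ d.snd ^ i ∧
    hol (bbGen Γ) (D.lab x₀) (FreeGroup.of d ^ i) g = (nrm (D.S d.fst (gen Γ d.fst ^ T)))⁻¹ *
      nrm (D.S d.fst (gen Γ d.fst ^ j * gen Γ d.snd ^ i)) := by
  induction i generalizing j with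
  | zero => subst hij; simp [hg]
  | succ i ih =>
    obtain ⟨h1, h2⟩ := ih (j + 1) (by omega)
    have h3 : x₀ * (g * bbGen Γ d ^ i * bbGen Γ d : BB Γ) =
        gen Γ d.fst ^ j * gen Γ d.snd ^ (i + 1) := by
      rw [Subgroup.coe_mul, ← mul_assoc, h1, pow_succ, mul_assoc _ (gen Γ d.fst),
        ((gen_commute d.adj).pow_right i).eq, pow_succ]
      simp [bbGen, mul_assoc]
    refine ⟨by rw [pow_succ, ← mul_assoc g, h3], ?_⟩
    rw [pow_succ (FreeGroup.of d), hol_mul, h2, hol_of, map_pow, FreeGroup.lift_apply_of,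
      h.lab_eq hK (u := d.fst) (h1 ▸ valid_pow d _ _) (h3 ▸ valid_pow d _ _), h1, h3]
    group

theorem Good.walk (h : D.Good x₀ K) (hK : 4 ≤ K) {T : ℕ} (hT : 0 < T) {a e : V} (q : Γ.Walk a e)
    (g : BB Γ) (hg : x₀ * g = gen Γ a ^ T) :
    x₀ * (g * FreeGroup.lift (bbGen Γ) (q.darts.map fun d => FreeGroup.of d ^ T).prod : BB Γ) =
      gen Γ e ^ T ∧
    hol (bbGen Γ) (D.lab x₀) (q.darts.map fun d => FreeGroup.of d ^ T).prod g =
      (q.darts.map fun d => D.c d.fst d.snd).prod := by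
  induction q generalizing g with
  | nil => simp [hg]
  | @cons a b e hab q ih =>
    obtain ⟨h1, h2⟩ := h.dart hK ⟨(a, b), hab⟩ hg T 0 (zero_add T)
    rw [pow_zero, one_mul] at h1 h2
    obtain ⟨h3, h4⟩ := ih _ h1
    simp only [SimpleGraph.Walk.darts_cons, List.map_cons, List.prod_cons]
    rw [hol_mul, h2, map_mul, map_pow, FreeGroup.lift_apply_of, h4, ← mul_assoc g, h3,
      nrm_pow _ _ hT, nrm_pow _ _ hT, D.c_self, inv_one, one_mul]
    exact ⟨rfl, rfl⟩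

end FlatD

theorem bb_smallFlat {V : Type} [Fintype V] {Γ : SimpleGraph V} (h : Coc Γ) :
    SmallFlat (bbGen Γ) := by
  obtain ⟨c, h1, h2, u, p, hp⟩ := h
  obtain ⟨μ, m1, m2, m3⟩ := exists_mu Γ
  have : Nonempty V := ⟨u⟩
  choose m hm using fun x => Finite.exists_max (μ x)
  let D : FlatD Γ := ⟨c, μ, m, h1, h2, m1, m2, m3, hm⟩
  intro ε hε B _ b hb
  choose n hn using fun j => D.tel (b j)
  obtain ⟨K₀, hK₀⟩ := exists_nat_ge (8 * Fintype.card V / ε)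
  let K := K₀ + 4 + ∑ j, n j
  have hK : 4 ≤ K := by omega
  have hg := FlatD.good_pow (D := D) u K
  refine ⟨D.lab (gen Γ u ^ (Fintype.card V * K + 1)), fun e => (hg.dev_le hK e).trans ?_,
    fun j g => ?_, ?_⟩
  · have hK' : (K₀ : ℝ) ≤ K := by exact_mod_cast (by omega : K₀ ≤ K)
    rw [div_le_iff₀ (by exact_mod_cast (by omega : 0 < K)), mul_comm ε, ← div_le_iff₀ hε]
    exact hK₀.trans hK'
  · have h3 := Finset.single_le_sum (f := n) (fun _ _ => Nat.zero_le _) (Finset.mem_univ j)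
    rw [(hn j).2 _ K hg hK g _ (lt_of_le_of_lt (by omega) (hg g)), hb, mul_one, inv_mul_cancel]
  · obtain ⟨h3, h4⟩ := hg.walk hK (Nat.succ_pos _) p 1 (mul_one _)
    refine ⟨_, ?_, fun h => hp (h4.symm.trans h)⟩
    rw [one_mul, mul_eq_left] at h3
    exact Subtype.ext h3

end Crest.Agent.R197
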