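import Crest.Agent.R197.LenA

/-! Formal properties of the cubical chain complex; equivariant contractions. -/

set_option autoImplicit false

namespace Crest.Agent.R197

section hom

variable {X : Type} {deg : X → ℕ} {k : ℕ}

theorem Hom.zero : Hom deg k (0 : X →₀ ℤ) := by
  intro x hx
  simp at hx

theorem Hom.add {c c' : X →₀ ℤ} (h : Hom deg k c) (h' : Hom deg k c') : Hom deg k (c + c') := by
  classical
  intro x hx
  rcases Finset.mem_union.1 (Finsupp.support_add hx) with h1 | h1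
  exacts [h x h1, h' x h1]

theorem Hom.sub {c c' : X →₀ ℤ} (h : Hom deg k c) (h' : Hom deg k c') : Hom deg k (c - c') := by
  classical
  intro x hx
  rcases Finset.mem_union.1 (Finsupp.support_sub hx) with h1 | h1
  exacts [h x h1, h' x h1]

theorem Hom.neg {c : X →₀ ℤ} (h : Hom deg k c) : Hom deg k (-c) := by
  intro x hx
  rw [Finsupp.support_neg] at hx
  exact h x hx

theorem Hom.single {x : X} (h : deg x = k) (n : ℤ) : Hom deg k (Finsupp.single x n) := by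
  intro y hy
  rw [Finset.mem_singleton.1 (Finsupp.support_single_subset hy), h]

/-- Induction on homogeneous chains. -/
theorem Hom.induction {P : (X →₀ ℤ) → Prop} (h0 : P 0) (ha : ∀ c c', P c → P c' → P (c + c'))
    (hs : ∀ x n, deg x = k → P (Finsupp.single x n)) {c : X →₀ ℤ} (h : Hom deg k c) : P c := by
  rw [← Finsupp.sum_single c]
  exact Finset.sum_induction _ P ha h0 fun x hx => hs x _ (h x hx)

theorem kosa_eq_sum {M : Type} [AddCommGroup M] (L : (X →₀ ℤ) →ₗ[ℤ] M) (c : X →₀ ℤ) :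
    L c = ∑ x ∈ c.support, c x • L (Finsupp.single x 1) := by
  conv_lhs => rw [← Finsupp.sum_single c, Finsupp.sum, map_sum]
  refine Finset.sum_congr rfl fun x _ => ?_
  rw [← map_smul, Finsupp.smul_single_one]

theorem kosa_lin {Y : Type} (L : (X →₀ ℤ) →ₗ[ℤ] (Y →₀ ℤ)) {q : Y → Prop} {c : X →₀ ℤ}
    (h : ∀ x ∈ c.support, ∀ y ∈ (L (Finsupp.single x 1)).support, q y) :
    ∀ y ∈ (L c).support, q y := by
  classical
  intro y hy
  rw [kosa_eq_sum] at hy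
  obtain ⟨x, hx, h1⟩ := Finset.mem_biUnion.1 (Finsupp.support_finsetSum hy)
  exact h x hx y (Finsupp.support_smul h1)

theorem kosa_ext {M : Type} [AddCommGroup M] (L L' : (X →₀ ℤ) →ₗ[ℤ] M) {c : X →₀ ℤ}
    (h : ∀ x ∈ c.support, L (Finsupp.single x 1) = L' (Finsupp.single x 1)) : L c = L' c := by
  rw [kosa_eq_sum L, kosa_eq_sum L']
  exact Finset.sum_congr rfl fun x hx => by rw [h x hx]

theorem kosa_mem_sum {ι : Type} {s : Finset ι} {f : ι → X} {n : ι → ℤ} {y : X}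
    (hy : y ∈ (∑ a ∈ s, Finsupp.single (f a) (n a)).support) : ∃ a ∈ s, y = f a := by
  classical
  obtain ⟨a, ha, h1⟩ := Finset.mem_biUnion.1 (Finsupp.support_finsetSum hy)
  exact ⟨a, ha, Finset.mem_singleton.1 (Finsupp.support_single_subset h1)⟩

theorem kosa_mem_map {Y : Type} {f : X → Y} {c : X →₀ ℤ} {y : Y}
    (hy : y ∈ (Finsupp.mapDomain f c).support) : ∃ x ∈ c.support, y = f x := by
  classical
  obtain ⟨x, hx, h⟩ := Finset.mem_image.1 (Finsupp.mapDomain_support hy)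
  exact ⟨x, hx, h.symm⟩

end hom

variable {V : Type} [LinearOrder V] {Γ : SimpleGraph V}

theorem kosa_sg_lt {a b : V} {s : Finset V} (ha : a ∈ s) (hab : a < b) :
    sg b s = -sg b (s.erase a) := by
  have h : a ∈ s.filter (· < b) := Finset.mem_filter.2 ⟨ha, hab⟩
  rw [sg, sg, Finset.filter_erase, ← Finset.card_erase_add_one h, pow_succ, mul_neg_one]

theorem kosa_sg_ge {a b : V} (s : Finset V) (hab : a < b) : sg a (s.erase b) = sg a s := by
  rw [sg, sg, Finset.filter_erase, Finset.erase_eq_of_notMem]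
  exact fun h => hab.not_gt (Finset.mem_filter.1 h).2

theorem kosa_sg {a b : V} {s : Finset V} (ha : a ∈ s) (hb : b ∈ s) (hab : a ≠ b) :
    sg a s * sg b (s.erase a) + sg b s * sg a (s.erase b) = 0 := by
  rcases lt_or_gt_of_ne hab with h | h
  · rw [kosa_sg_lt ha h, kosa_sg_ge s h]
    ring
  · rw [kosa_sg_lt hb h, kosa_sg_ge s h]
    ring

theorem kosa_anti {M : Type} [AddCommGroup M] (s : Finset V) (T : V → V → M)
    (hT : ∀ a ∈ s, ∀ b ∈ s, T a b = T b a) :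
    ∑ a ∈ s, sg a s • ∑ b ∈ s.erase a, sg b (s.erase a) • T a b = 0 := by
  simp only [Finset.smul_sum, smul_smul]
  rw [Finset.sum_sigma']
  refine Finset.sum_involution (fun p _ => ⟨p.2, p.1⟩) (fun p hp => ?_) (fun p hp _ h => ?_)
    (fun p hp => ?_) fun p _ => rfl
  · obtain ⟨h1, h2⟩ := Finset.mem_sigma.1 hp
    obtain ⟨h3, h4⟩ := Finset.mem_erase.1 h2
    rw [hT _ h4 _ h1, ← add_smul, kosa_sg h1 h4 h3.symm, zero_smul]
  · exact (Finset.mem_erase.1 (Finset.mem_sigma.1 hp).2).1 (congrArg Sigma.fst h)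
  · obtain ⟨h1, h2⟩ := Finset.mem_sigma.1 hp
    obtain ⟨h3, h4⟩ := Finset.mem_erase.1 h2
    exact Finset.mem_sigma.2 ⟨h4, Finset.mem_erase.2 ⟨h3.symm, h1⟩⟩

theorem kosa_er_comm (σ : Cl Γ) (a b : V) : (σ.er a).er b = (σ.er b).er a :=
  Subtype.ext Finset.erase_right_comm

theorem kosa_dL (σ : Cl Γ) :
    dL Γ (Finsupp.single σ 1) = ∑ a ∈ σ.1, Finsupp.single (σ.er a) (sg a σ.1) := by
  rw [dL, Finsupp.linearCombination_single, one_smul]

theorem kosa_dm (x : RA Γ × Cl Γ) :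
    dm Γ (Finsupp.single x 1) = ∑ a ∈ x.2.1, Finsupp.single (x.1, x.2.er a) (sg a x.2.1) := by
  rw [dm, Finsupp.linearCombination_single, one_smul]

theorem kosa_dp (x : RA Γ × Cl Γ) : dp Γ (Finsupp.single x 1) =
    ∑ a ∈ x.2.1, Finsupp.single (x.1 * gen Γ a, x.2.er a) (sg a x.2.1) := by
  rw [dp, Finsupp.linearCombination_single, one_smul]

theorem kosa_dK (x : RA Γ × Cl Γ) : dK Γ (Finsupp.single x 1) = ∑ a ∈ x.2.1, sg a x.2.1 •
    (Finsupp.single (x.1 * gen Γ a, x.2.er a) 1 - Finsupp.single (x.1, x.2.er a) 1) := by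
  rw [dK, LinearMap.sub_apply, kosa_dm, kosa_dp, ← Finset.sum_sub_distrib]
  simp only [smul_sub, Finsupp.smul_single_one]

omit [LinearOrder V] in
theorem kosa_commute {a b : V} (h : AdjEq Γ a b) : Commute (gen Γ a) (gen Γ b) := by
  rcases h with rfl | h
  exacts [Commute.refl _, gen_commute h]

theorem kosa_card_er (σ : Cl Γ) {a : V} (ha : a ∈ σ.1) : (σ.er a).1.card + 1 = σ.1.card :=
  Finset.card_erase_add_one ha

theorem dL_dL (c : Cl Γ →₀ ℤ) : dL Γ (dL Γ c) = 0 := by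
  refine kosa_ext (dL Γ ∘ₗ dL Γ) 0 fun σ _ => ?_
  rw [LinearMap.comp_apply, kosa_dL, map_sum, LinearMap.zero_apply,
    ← kosa_anti σ.1 (fun a b => Finsupp.single ((σ.er a).er b) (1 : ℤ))
      fun a _ b _ => by rw [kosa_er_comm]]
  refine Finset.sum_congr rfl fun a _ => ?_
  rw [← Finsupp.smul_single_one, map_smul, kosa_dL]
  simp only [Finsupp.smul_single_one]
  rfl

theorem dK_dK (c : RA Γ × Cl Γ →₀ ℤ) : dK Γ (dK Γ c) = 0 := by
  refine kosa_ext (dK Γ ∘ₗ dK Γ) 0 fun x _ => ?_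
  rw [LinearMap.comp_apply, kosa_dK, map_sum, LinearMap.zero_apply,
    ← kosa_anti x.2.1 (fun a b =>
      (Finsupp.single (x.1 * gen Γ a * gen Γ b, (x.2.er a).er b) (1 : ℤ) -
        Finsupp.single (x.1 * gen Γ a, (x.2.er a).er b) 1) -
      (Finsupp.single (x.1 * gen Γ b, (x.2.er a).er b) 1 -
        Finsupp.single (x.1, (x.2.er a).er b) 1)) fun a ha b hb => by
      rw [kosa_er_comm, mul_assoc, (kosa_commute (x.2.2 a ha b hb)).eq, ← mul_assoc]
      abel]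
  refine Finset.sum_congr rfl fun a _ => ?_
  rw [map_smul, map_sub, kosa_dK, kosa_dK, ← Finset.sum_sub_distrib]
  simp only [← smul_sub]
  rfl

theorem Hom.dm {k : ℕ} {c : RA Γ × Cl Γ →₀ ℤ} (h : Hom cdeg (k + 1) c) : Hom cdeg k (dm Γ c) := by
  refine kosa_lin _ fun x hx y hy => ?_
  rw [kosa_dm] at hy
  obtain ⟨a, ha, rfl⟩ := kosa_mem_sum hy
  exact Nat.succ_injective ((kosa_card_er x.2 ha).trans (h x hx))

theorem Hom.dp {k : ℕ} {c : RA Γ × Cl Γ →₀ ℤ} (h : Hom cdeg (k + 1) c) : Hom cdeg k (dp Γ c) := by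
  refine kosa_lin _ fun x hx y hy => ?_
  rw [kosa_dp] at hy
  obtain ⟨a, ha, rfl⟩ := kosa_mem_sum hy
  exact Nat.succ_injective ((kosa_card_er x.2 ha).trans (h x hx))

theorem Hom.dK {k : ℕ} {c : RA Γ × Cl Γ →₀ ℤ} (h : Hom cdeg (k + 1) c) : Hom cdeg k (dK Γ c) := by
  exact h.dp.sub h.dm

theorem HtH.dm {j : ℤ} {c : RA Γ × Cl Γ →₀ ℤ} (h : HtH j c) : HtH j (dm Γ c) := by
  refine kosa_lin _ fun x hx y hy => ?_
  rw [kosa_dm] at hy
  obtain ⟨a, -, rfl⟩ := kosa_mem_sum hy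
  exact h x hx

theorem HtH.dp {j : ℤ} {c : RA Γ × Cl Γ →₀ ℤ} (h : HtH j c) : HtH (j + 1) (dp Γ c) := by
  refine kosa_lin _ fun x hx y hy => ?_
  rw [kosa_dp] at hy
  obtain ⟨a, -, rfl⟩ := kosa_mem_sum hy
  rw [ht_mul, ht_gen, h x hx]

/-- left translation as a linear map -/
noncomputable def kosa_trl (g : RA Γ) : (RA Γ × Cl Γ →₀ ℤ) →ₗ[ℤ] (RA Γ × Cl Γ →₀ ℤ) :=
  Finsupp.lmapDomain ℤ ℤ fun x => (g * x.1, x.2)

omit [LinearOrder V] in
theorem kosa_trl_single (g : RA Γ) (x : RA Γ × Cl Γ) (n : ℤ) :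
    kosa_trl g (Finsupp.single x n) = Finsupp.single (g * x.1, x.2) n := Finsupp.mapDomain_single

theorem dm_trl (g : RA Γ) (c : RA Γ × Cl Γ →₀ ℤ) : dm Γ (trl g c) = trl g (dm Γ c) := by
  refine kosa_ext (dm Γ ∘ₗ kosa_trl g) (kosa_trl g ∘ₗ dm Γ) fun x _ => ?_
  simp only [LinearMap.comp_apply, kosa_trl_single, kosa_dm, map_sum]

theorem dp_trl (g : RA Γ) (c : RA Γ × Cl Γ →₀ ℤ) : dp Γ (trl g c) = trl g (dp Γ c) := by
  refine kosa_ext (dp Γ ∘ₗ kosa_trl g) (kosa_trl g ∘ₗ dp Γ) fun x _ => ?_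
  simp only [LinearMap.comp_apply, kosa_trl_single, kosa_dp, map_sum, mul_assoc]

theorem dK_trl (g : RA Γ) (c : RA Γ × Cl Γ →₀ ℤ) : dK Γ (trl g c) = trl g (dK Γ c) := by
  rw [dK, LinearMap.sub_apply, LinearMap.sub_apply, dm_trl, dp_trl]
  exact (map_sub (kosa_trl g) _ _).symm

theorem aug_dK {c : RA Γ × Cl Γ →₀ ℤ} (h : Hom cdeg 1 c) : aug (dK Γ c) = 0 := by
  refine kosa_ext (Finsupp.linearCombination ℤ (fun _ => (1 : ℤ)) ∘ₗ dK Γ) 0 (c := c)
    (fun x _ => ?_) |>.symm.trans ?_ |>.symm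
  · simp only [LinearMap.comp_apply, kosa_dK, map_sum, map_smul, map_sub,
      Finsupp.linearCombination_single, sub_self, smul_zero, Finset.sum_const_zero,
      LinearMap.zero_apply]
  · simp only [LinearMap.comp_apply, Finsupp.linearCombination_apply, smul_eq_mul, mul_one, aug]

/-- the product of the generators of a clique -/
def kosa_top (σ : Cl Γ) : RA Γ :=
  σ.1.noncommProd (gen Γ) fun a ha b hb _ => kosa_commute (σ.2 a ha b hb)

theorem kosa_top_er (σ : Cl Γ) {a : V} (ha : a ∈ σ.1) :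
    gen Γ a * kosa_top (σ.er a) = kosa_top σ := Finset.mul_noncommProd_erase _ ha _ _

omit [LinearOrder V] in
theorem kosa_ht_top (σ : Cl Γ) : ht (kosa_top σ) = σ.1.card := by
  rw [ht, kosa_top, Finset.map_noncommProd, Finset.noncommProd_eq_prod]
  simp [htHom]

/-- the cubes at a fixed vertex -/
noncomputable def kosa_i (x : RA Γ) : (Cl Γ →₀ ℤ) →ₗ[ℤ] (RA Γ × Cl Γ →₀ ℤ) :=
  Finsupp.lmapDomain ℤ ℤ fun t => (x, t)

omit [LinearOrder V] in
theorem kosa_i_single (x : RA Γ) (t : Cl Γ) (n : ℤ) :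
    kosa_i x (Finsupp.single t n) = Finsupp.single (x, t) n := Finsupp.mapDomain_single

omit [LinearOrder V] in
theorem kosa_mem_i {x : RA Γ} {c : Cl Γ →₀ ℤ} {y : RA Γ × Cl Γ} (hy : y ∈ (kosa_i x c).support) :
    ∃ t ∈ c.support, y = (x, t) := kosa_mem_map hy

theorem kosa_dm_i (x : RA Γ) (c : Cl Γ →₀ ℤ) : dm Γ (kosa_i x c) = kosa_i x (dL Γ c) := by
  refine kosa_ext (dm Γ ∘ₗ kosa_i x) (kosa_i x ∘ₗ dL Γ) fun t _ => ?_
  simp only [LinearMap.comp_apply, kosa_i_single, kosa_dm, kosa_dL, map_sum]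

/-- right multiplication of the base vertex by a function of the clique -/
noncomputable def kosa_U (w : Cl Γ → RA Γ) : (RA Γ × Cl Γ →₀ ℤ) →ₗ[ℤ] (RA Γ × Cl Γ →₀ ℤ) :=
  Finsupp.lmapDomain ℤ ℤ fun x => (x.1 * w x.2, x.2)

omit [LinearOrder V] in
theorem kosa_U_single (w : Cl Γ → RA Γ) (x : RA Γ × Cl Γ) (n : ℤ) :
    kosa_U w (Finsupp.single x n) = Finsupp.single (x.1 * w x.2, x.2) n := Finsupp.mapDomain_single

omit [LinearOrder V] in
theorem kosa_U_U {w w' : Cl Γ → RA Γ} (h : ∀ t, w t * w' t = 1) (c : RA Γ × Cl Γ →₀ ℤ) :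
    kosa_U w' (kosa_U w c) = c := by
  refine kosa_ext (kosa_U w' ∘ₗ kosa_U w) LinearMap.id fun x _ => ?_
  simp only [LinearMap.comp_apply, kosa_U_single, mul_assoc, h, mul_one, LinearMap.id_apply]

omit [LinearOrder V] in
theorem kosa_U_trl (w : Cl Γ → RA Γ) (g : RA Γ) (c : RA Γ × Cl Γ →₀ ℤ) :
    kosa_U w (trl g c) = trl g (kosa_U w c) := by
  refine kosa_ext (kosa_U w ∘ₗ kosa_trl g) (kosa_trl g ∘ₗ kosa_U w) fun x _ => ?_
  simp only [LinearMap.comp_apply, kosa_U_single, kosa_trl_single, mul_assoc]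

omit [LinearOrder V] in
theorem kosa_mem_U {w : Cl Γ → RA Γ} {c : RA Γ × Cl Γ →₀ ℤ} {y : RA Γ × Cl Γ}
    (hy : y ∈ (kosa_U w c).support) : ∃ x ∈ c.support, y = (x.1 * w x.2, x.2) := kosa_mem_map hy

omit [LinearOrder V] in
theorem kosa_U_hom (w : Cl Γ → RA Γ) {k : ℕ} {c : RA Γ × Cl Γ →₀ ℤ} (h : Hom cdeg k c) :
    Hom cdeg k (kosa_U w c) := by
  intro y hy
  obtain ⟨x, hx, rfl⟩ := kosa_mem_U hy
  exact h x hx

theorem kosa_U_dp (c : RA Γ × Cl Γ →₀ ℤ) : kosa_U kosa_top (dp Γ c) = dm Γ (kosa_U kosa_top c) := by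
  refine kosa_ext (kosa_U kosa_top ∘ₗ dp Γ) (dm Γ ∘ₗ kosa_U kosa_top) fun x _ => ?_
  simp only [LinearMap.comp_apply, kosa_U_single, kosa_dm, kosa_dp, map_sum]
  exact Finset.sum_congr rfl fun a ha => by rw [mul_assoc, kosa_top_er _ ha]

theorem exists_KPM [Fintype V] (h : Contr Γ) : ∃ km kp, KPM Γ km kp := by
  obtain ⟨k, h1, h3, h2⟩ := h
  obtain ⟨km, e1⟩ : ∃ km : (RA Γ × Cl Γ →₀ ℤ) →ₗ[ℤ] (RA Γ × Cl Γ →₀ ℤ),
      ∀ x, km (Finsupp.single x 1) = kosa_i x.1 (k (Finsupp.single x.2 1)) :=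
    ⟨Finsupp.linearCombination ℤ fun x => kosa_i x.1 (k (Finsupp.single x.2 1)), fun x => by
      rw [Finsupp.linearCombination_single, one_smul]⟩
  have e2 : ∀ x c, km (kosa_i x c) = kosa_i x (k c) := fun x c =>
    kosa_ext (km ∘ₗ kosa_i x) (kosa_i x ∘ₗ k) fun t _ => by
      simp only [LinearMap.comp_apply, kosa_i_single, e1]
  have e3 : ∀ x, dm Γ (Finsupp.single x 1) = kosa_i x.1 (dL Γ (Finsupp.single x.2 1)) := fun x => by
    rw [← kosa_dm_i, kosa_i_single]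
  have m1 : ∀ g c, km (trl g c) = trl g (km c) := fun g c =>
    kosa_ext (km ∘ₗ kosa_trl g) (kosa_trl g ∘ₗ km) fun x _ => by
      simp only [LinearMap.comp_apply, kosa_trl_single, e1]
      exact kosa_ext (kosa_i (g * x.1)) (kosa_trl g ∘ₗ kosa_i x.1) fun t _ => by
        simp only [LinearMap.comp_apply, kosa_trl_single, kosa_i_single]
  have m2 : ∀ j c, Hom cdeg j c → Hom cdeg (j + 1) (km c) := fun j c hc =>
    kosa_lin _ fun x hx y hy => by
      rw [e1] at hy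
      obtain ⟨t, ht', rfl⟩ := kosa_mem_i hy
      rw [← hc x hx]
      exact h1 x.2 t ht'
  have m3 : ∀ c, Hom cdeg 3 c → km (dm Γ c) = c := fun c hc =>
    kosa_ext (km ∘ₗ dm Γ) LinearMap.id fun x hx => by
      rw [LinearMap.comp_apply, e3, e2, h3 _ (hc x hx), kosa_i_single, LinearMap.id_apply]
  have m4 : ∀ c, Hom cdeg 2 c → dm Γ (km c) + km (dm Γ c) = c := fun c hc =>
    kosa_ext (dm Γ ∘ₗ km + km ∘ₗ dm Γ) LinearMap.id fun x hx => by
      rw [LinearMap.add_apply, LinearMap.comp_apply, LinearMap.comp_apply, e3, e2, e1, kosa_dm_i,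
        ← map_add, h2 _ (hc x hx), kosa_i_single, LinearMap.id_apply]
  have u1 := kosa_U_U (Γ := Γ) (w := kosa_top) (w' := fun t => (kosa_top t)⁻¹)
    fun t => mul_inv_cancel _
  have u2 := kosa_U_U (Γ := Γ) (w' := kosa_top) (w := fun t => (kosa_top t)⁻¹)
    fun t => inv_mul_cancel _
  obtain ⟨kp, e4⟩ : ∃ kp : (RA Γ × Cl Γ →₀ ℤ) →ₗ[ℤ] (RA Γ × Cl Γ →₀ ℤ),
      ∀ c, kp c = kosa_U (fun t => (kosa_top t)⁻¹) (km (kosa_U kosa_top c)) :=
    ⟨kosa_U (fun t => (kosa_top t)⁻¹) ∘ₗ km ∘ₗ kosa_U kosa_top, fun _ => rfl⟩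
  refine ⟨km, kp, m1, fun g c => ?_, m2, fun j c hc => ?_, fun j c hc => ?_, fun j c hc => ?_, m3,
    fun c hc => ?_, m4, fun c hc => ?_⟩
  · simp only [e4, kosa_U_trl, m1]
  · rw [e4]
    exact kosa_U_hom _ (m2 _ _ (kosa_U_hom _ hc))
  · refine kosa_lin _ fun x hx y hy => ?_
    rw [e1] at hy
    obtain ⟨t, -, rfl⟩ := kosa_mem_i hy
    exact hc x hx
  · refine kosa_lin _ fun x hx y hy => ?_
    rw [e4, kosa_U_single, e1] at hy
    obtain ⟨z, hz, rfl⟩ := kosa_mem_U hy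
    obtain ⟨t, ht', rfl⟩ := kosa_mem_i hz
    have h4 : t.1.card = x.2.1.card + 1 := h1 x.2 t ht'
    simp only [ht_mul, ht_inv, kosa_ht_top, hc x hx, h4]
    push_cast
    ring
  · rw [e4, kosa_U_dp, m3 _ (kosa_U_hom _ hc), u1]
  · rw [e4, e4, kosa_U_dp, ← u1 (dp Γ _), kosa_U_dp, u2, ← map_add, m4 _ (kosa_U_hom _ hc), u1]

end Crest.Agent.R197
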