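import Crest.Agent.R197.LenA

/-! Descents in right-angled Artin groups (via pilings). -/

set_option autoImplicit false

namespace Crest.Agent.R197

variable {V : Type} {Γ : SimpleGraph V}

namespace Pil

/-- pilings: one stack for each vertex -/
abbrev St (V : Type) : Type := V → List (Option Bool)

open Classical in
/-- put a tile on top -/
noncomputable def put (Γ : SimpleGraph V) (s : V × Bool) (π : St V) : St V := fun d =>
  if Γ.Adj s.1 d then π d else (if s.1 = d then some s.2 else none) :: π d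

open Classical in
/-- remove a tile -/
noncomputable def pop (Γ : SimpleGraph V) (a : V) (π : St V) : St V := fun d =>
  if Γ.Adj a d then π d else (π d).tail

/-- the piling of a word (whose last letter is the head of the list) -/
noncomputable def pil (Γ : SimpleGraph V) : List (V × Bool) → St V
  | [] => fun _ => []
  | s :: l => put Γ s (pil Γ l)

/-- the product of a reversed word -/
def pr (Γ : SimpleGraph V) : List (V × Bool) → RA Γ
  | [] => 1
  | s :: l => pr Γ l * ltr Γ s

/-- the tile `s` is on top -/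
def Top (π : St V) (s : V × Bool) : Prop := (π s.1).head? = some (some s.2)

/-- reduced words -/
inductive Red (Γ : SimpleGraph V) : List (V × Bool) → Prop
  | nil : Red Γ []
  | cons {l : List (V × Bool)} {s : V × Bool} : Red Γ l → ¬ Top (pil Γ l) (s.1, !s.2) →
      Red Γ (s :: l)

theorem pr_eq (l : List (V × Bool)) : pr Γ l = (l.reverse.map (ltr Γ)).prod := by
  induction l with
  | nil => simp [pr]
  | cons s l ih => simp [pr, ih]

theorem put_adj {s : V × Bool} {d : V} (h : Γ.Adj s.1 d) (π : St V) : put Γ s π d = π d := by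
  simp [put, h]

theorem pop_adj {a d : V} (h : Γ.Adj a d) (π : St V) : pop Γ a π d = π d := by
  simp [pop, h]

theorem put_self (s : V × Bool) (π : St V) : put Γ s π s.1 = some s.2 :: π s.1 := by
  simp [put]

theorem put_other {s : V × Bool} {d : V} (h : ¬ Γ.Adj s.1 d) (h' : s.1 ≠ d) (π : St V) :
    put Γ s π d = none :: π d := by
  simp [put, h, h']

theorem top_put (s : V × Bool) (π : St V) : Top (put Γ s π) s := by
  simp [Top, put_self]

theorem pop_put (s : V × Bool) (π : St V) : pop Γ s.1 (put Γ s π) = π := by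
  funext d
  by_cases h : Γ.Adj s.1 d <;> simp [pop, put, h]

theorem put_comm {s t : V × Bool} (h : Γ.Adj s.1 t.1) (π : St V) :
    put Γ s (put Γ t π) = put Γ t (put Γ s π) := by
  funext d
  by_cases h1 : Γ.Adj s.1 d
  · by_cases h2 : Γ.Adj t.1 d <;> simp [put, h1, h2]
  · by_cases h2 : Γ.Adj t.1 d
    · simp [put, h1, h2]
    · have h3 : s.1 ≠ d := fun e => h2 (e ▸ h.symm)
      have h4 : t.1 ≠ d := fun e => h1 (e ▸ h)
      simp [put, h1, h2, h3, h4]

theorem pop_comm (a b : V) (π : St V) : pop Γ a (pop Γ b π) = pop Γ b (pop Γ a π) := by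
  funext d
  by_cases h1 : Γ.Adj a d <;> by_cases h2 : Γ.Adj b d <;> simp [pop, h1, h2]

/-- a tile on top can be removed -/
theorem key {l : List (V × Bool)} (hl : Red Γ l) {t : V × Bool} (ht : Top (pil Γ l) t) :
    ∃ l', Red Γ (t :: l') ∧ pil Γ l = put Γ t (pil Γ l') ∧ l'.length + 1 = l.length ∧
      pr Γ l = pr Γ l' * ltr Γ t := by
  induction hl with
  | nil => simp [Top, pil] at ht
  | @cons l s hl hs ih =>
    by_cases h1 : Γ.Adj s.1 t.1
    · have ht' : Top (pil Γ l) t := by
        unfold Top at ht ⊢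
        rwa [pil, put_adj h1] at ht
      obtain ⟨l', r1, r2, r3, r4⟩ := ih ht'
      cases r1 with
      | cons r1 r1' =>
        refine ⟨s :: l', Red.cons (Red.cons r1 ?_) ?_, ?_, by simp [r3], ?_⟩
        · unfold Top at hs ⊢
          rwa [r2, put_adj h1.symm] at hs
        · unfold Top at r1' ⊢
          rwa [pil, put_adj h1]
        · rw [pil, pil, r2, put_comm h1]
        · rw [pr, pr, r4, mul_assoc, mul_assoc, (ltr_commute h1).eq]
    · by_cases h2 : s.1 = t.1
      · have : s = t := by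
          unfold Top at ht
          rw [pil, ← h2, put_self] at ht
          simp only [List.head?_cons, Option.some.injEq] at ht
          exact Prod.ext h2 ht
        subst this
        exact ⟨l, Red.cons hl hs, rfl, rfl, rfl⟩
      · unfold Top at ht
        rw [pil, put_other h1 h2] at ht
        simp at ht

theorem length_eq {l : List (V × Bool)} (hl : Red Γ l) :
    ∀ l', Red Γ l' → pil Γ l = pil Γ l' → l.length = l'.length := by
  induction hl with
  | nil =>
    intro l' _ e
    cases l' with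
    | nil => rfl
    | cons s l' =>
      have := congrFun e s.1
      rw [pil, pil, put_self] at this
      simp at this
  | @cons l s _ _ ih =>
    intro l' hl' e
    obtain ⟨m, r1, r2, r3, -⟩ := key hl' (t := s) (by rw [← e]; exact top_put _ _)
    cases r1 with
    | cons r1 _ =>
      have : pil Γ l = pil Γ m := by
        have := congrArg (pop Γ s.1) (e.trans r2)
        rwa [pil, pop_put, pop_put] at this
      rw [List.length_cons, ih m r1 this, r3]

open Classical in
/-- the action of a letter -/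
noncomputable def act (Γ : SimpleGraph V) (s : V × Bool) (π : St V) : St V :=
  if Top π (s.1, !s.2) then pop Γ s.1 π else put Γ s π

theorem act_adj {s : V × Bool} {d : V} (h : Γ.Adj s.1 d) (π : St V) : act Γ s π d = π d := by
  unfold act
  split_ifs
  exacts [pop_adj h π, put_adj h π]

theorem step {l : List (V × Bool)} (hl : Red Γ l) (s : V × Bool) :
    ∃ l', Red Γ l' ∧ pil Γ l' = act Γ s (pil Γ l) ∧ pr Γ l' = pr Γ l * ltr Γ s ∧
      (Top (pil Γ l) (s.1, !s.2) → l'.length + 1 = l.length) ∧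
      (¬ Top (pil Γ l) (s.1, !s.2) → l'.length = l.length + 1) := by
  by_cases h : Top (pil Γ l) (s.1, !s.2)
  · obtain ⟨m, r1, r2, r3, r4⟩ := key hl h
    cases r1 with
    | cons r1 _ =>
      refine ⟨m, r1, ?_, ?_, fun _ => r3, fun h' => absurd h h'⟩
      · rw [act, if_pos h, r2]
        exact (pop_put (s.1, !s.2) _).symm
      · rw [r4, ltr_not]; simp
  · exact ⟨s :: l, Red.cons hl h, by rw [act, if_neg h, pil], rfl, fun h' => absurd h' h,
      fun _ => rfl⟩

/-- good pilings -/
def Om (Γ : SimpleGraph V) : Type := {π : St V // ∃ l, Red Γ l ∧ pil Γ l = π}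

/-- the action on good pilings -/
noncomputable def actO (Γ : SimpleGraph V) (s : V × Bool) (π : Om Γ) : Om Γ :=
  ⟨act Γ s π.1, by
    obtain ⟨l, hl, e⟩ := π.2
    obtain ⟨l', h1, h2, -⟩ := step hl s
    exact ⟨l', h1, by rw [h2, e]⟩⟩

theorem actO_inv (s : V × Bool) (π : Om Γ) : actO Γ (s.1, !s.2) (actO Γ s π) = π := by
  obtain ⟨π, l, hl, rfl⟩ := π
  refine Subtype.ext ?_
  show act Γ (s.1, !s.2) (act Γ s (pil Γ l)) = pil Γ l
  by_cases h : Top (pil Γ l) (s.1, !s.2)
  · obtain ⟨m, r1, r2, -⟩ := key hl h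
    cases r1 with
    | cons _ r1 =>
      have e : act Γ s (pil Γ l) = pil Γ m := by
        rw [act, if_pos h, r2]
        exact pop_put (s.1, !s.2) _
      rw [e, act, if_neg r1, r2]
  · have e : act Γ s (pil Γ l) = put Γ s (pil Γ l) := by rw [act, if_neg h]
    have h2 : Top (put Γ s (pil Γ l)) ((s.1, !s.2).1, !(s.1, !s.2).2) := by
      simpa using top_put s _
    rw [e, act, if_pos h2]
    exact pop_put s _

theorem put_pop {s t : V × Bool} (h : Γ.Adj s.1 t.1) {l : List (V × Bool)} (hl : Red Γ l)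
    (ht : Top (pil Γ l) t) :
    put Γ s (pop Γ t.1 (pil Γ l)) = pop Γ t.1 (put Γ s (pil Γ l)) := by
  obtain ⟨m, -, r2, -⟩ := key hl ht
  rw [r2, pop_put, put_comm h, pop_put]

theorem actO_comm {s t : V × Bool} (h : Γ.Adj s.1 t.1) (π : Om Γ) :
    actO Γ s (actO Γ t π) = actO Γ t (actO Γ s π) := by
  obtain ⟨π, l, hl, rfl⟩ := π
  refine Subtype.ext ?_
  show act Γ s (act Γ t (pil Γ l)) = act Γ t (act Γ s (pil Γ l))
  have e1 : Top (act Γ t (pil Γ l)) (s.1, !s.2) ↔ Top (pil Γ l) (s.1, !s.2) := by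
    unfold Top; rw [act_adj h.symm]
  have e2 : Top (act Γ s (pil Γ l)) (t.1, !t.2) ↔ Top (pil Γ l) (t.1, !t.2) := by
    unfold Top; rw [act_adj h]
  by_cases h1 : Top (pil Γ l) (s.1, !s.2) <;> by_cases h2 : Top (pil Γ l) (t.1, !t.2)
  · rw [act, if_pos (e1.2 h1), act.eq_1 Γ t (act Γ s _), if_pos (e2.2 h2), act, if_pos h2, act,
      if_pos h1, pop_comm]
  · rw [act, if_pos (e1.2 h1), act.eq_1 Γ t (act Γ s _), if_neg (mt e2.1 h2), act, if_neg h2, act,
      if_pos h1]
    exact (put_pop (s := t) (t := (s.1, !s.2)) h.symm hl h1).symm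
  · rw [act, if_neg (mt e1.1 h1), act.eq_1 Γ t (act Γ s _), if_pos (e2.2 h2), act, if_pos h2, act,
      if_neg h1]
    exact put_pop (s := s) (t := (t.1, !t.2)) h hl h2
  · rw [act, if_neg (mt e1.1 h1), act.eq_1 Γ t (act Γ s _), if_neg (mt e2.1 h2), act, if_neg h2,
      act, if_neg h1, put_comm h]

/-- the inverse generator as a permutation -/
noncomputable def perm (Γ : SimpleGraph V) (a : V) : Equiv.Perm (Om Γ) where
  toFun := actO Γ (a, false)
  invFun := actO Γ (a, true)
  left_inv := actO_inv (a, false)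
  right_inv := actO_inv (a, true)

/-- the action of the group -/
noncomputable def rho (Γ : SimpleGraph V) : RA Γ →* Equiv.Perm (Om Γ) :=
  raLift (perm Γ) fun a b h => Equiv.ext fun π => actO_comm (s := (a, false)) (t := (b, false)) h π

/-- the piling of a group element -/
noncomputable def Pi (x : RA Γ) : Om Γ := rho Γ x⁻¹ ⟨fun _ => [], [], Red.nil, rfl⟩

theorem Pi_mul (x : RA Γ) (s : V × Bool) : Pi (x * ltr Γ s) = actO Γ s (Pi x) := by
  unfold Pi
  rw [mul_inv_rev, map_mul, Equiv.Perm.mul_apply]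
  obtain ⟨a, _ | _⟩ := s
  · have : (ltr Γ (a, false))⁻¹ = gen Γ a := by simp [ltr]
    rw [this, rho, raLift_gen]
    rfl
  · have : (ltr Γ (a, true))⁻¹ = (gen Γ a)⁻¹ := by simp [ltr]
    rw [this, map_inv, rho, raLift_gen]
    rfl

theorem Pi_pr {l : List (V × Bool)} (hl : Red Γ l) : (Pi (pr Γ l)).1 = pil Γ l := by
  induction hl with
  | nil => simp [Pi, pr, pil]
  | @cons l s _ hs ih =>
    rw [pr, Pi_mul]
    show act Γ s (Pi (pr Γ l)).1 = _
    rw [ih, act, if_neg hs, pil]

theorem exists_red (w : List (V × Bool)) :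
    ∃ l, Red Γ l ∧ pr Γ l = pr Γ w ∧ l.length ≤ w.length := by
  induction w with
  | nil => exact ⟨[], Red.nil, rfl, le_rfl⟩
  | cons s w ih =>
    obtain ⟨l, h1, h2, h3⟩ := ih
    obtain ⟨l', r1, -, r3, r4, r5⟩ := step h1 s
    refine ⟨l', r1, by rw [r3, h2, pr], ?_⟩
    rw [List.length_cons]
    by_cases h : Top (pil Γ l) (s.1, !s.2)
    · have := r4 h; omega
    · have := r5 h; omega

theorem exists_red' (x : RA Γ) : ∃ l, Red Γ l ∧ pr Γ l = x ∧ l.length ≤ len x := by
  obtain ⟨w, h1, h2⟩ := exists_geodesic x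
  obtain ⟨l, r1, r2, r3⟩ := exists_red (Γ := Γ) w.reverse
  refine ⟨l, r1, ?_, ?_⟩
  · rw [r2, pr_eq, List.reverse_reverse, h2]
  · rwa [List.length_reverse, h1] at r3

theorem len_pr {l : List (V × Bool)} (hl : Red Γ l) : len (pr Γ l) = l.length := by
  refine le_antisymm ?_ ?_
  · have := len_le_length (Γ := Γ) l.reverse
    rwa [← pr_eq, List.length_reverse] at this
  · obtain ⟨m, r1, r2, r3⟩ := exists_red' (pr Γ l)
    rwa [length_eq hl m r1 (by rw [← Pi_pr hl, ← Pi_pr r1, r2])]

theorem desc_iff_top (x : RA Γ) (s : V × Bool) : Desc x s ↔ Top (Pi x).1 (s.1, !s.2) := by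
  obtain ⟨l, hl, rfl, -⟩ := exists_red' x
  obtain ⟨l', r1, -, r3, r4, r5⟩ := step hl s
  rw [Desc, ← r3, len_pr hl, len_pr r1, Pi_pr hl]
  by_cases h : Top (pil Γ l) (s.1, !s.2)
  · have := r4 h
    exact ⟨fun _ => h, fun _ => by omega⟩
  · have := r5 h
    exact ⟨fun _ => by omega, fun h' => absurd h' h⟩

end Pil

theorem desc_adj {x : RA Γ} {s t : V × Bool} (hs : Desc x s) (ht : Desc x t) (hst : s ≠ t) :
    Γ.Adj s.1 t.1 := by
  rw [Pil.desc_iff_top] at hs ht
  obtain ⟨l, hl, e⟩ := (Pil.Pi x).2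
  rw [← e] at hs ht
  obtain ⟨m, -, r2, -⟩ := Pil.key hl hs
  by_contra h
  unfold Pil.Top at ht
  by_cases h2 : s.1 = t.1
  · dsimp only at ht
    rw [r2, ← h2, Pil.put_self (s.1, !s.2)] at ht
    simp only [List.head?_cons, Option.some.injEq, Bool.not_inj_iff] at ht
    exact hst (Prod.ext h2 ht)
  · dsimp only at ht
    rw [r2, Pil.put_other (s := (s.1, !s.2)) h h2] at ht
    simp at ht

theorem desc_mul_iff {x : RA Γ} {s t : V × Bool} (h : Γ.Adj s.1 t.1) :
    Desc (x * ltr Γ s) t ↔ Desc x t := by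
  rw [Pil.desc_iff_top, Pil.desc_iff_top, Pil.Pi_mul]
  show Pil.Top (Pil.act Γ s _) _ ↔ _
  unfold Pil.Top
  rw [Pil.act_adj h]

end Crest.Agent.R197
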