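import Crest.Agent.R197.KosA
import Crest.Agent.R197.LenB

/-! The cubical chain complex is a resolution. -/

set_option autoImplicit false

namespace Crest.Agent.R197

open Finsupp

theorem kosb_map {X Y : Type} [AddCommGroup Y] (φ : (X →₀ ℤ) →ₗ[ℤ] Y) (S : Set X)
    (T : Submodule ℤ Y) (h : ∀ x ∈ S, φ (single x 1) ∈ T) {c : X →₀ ℤ}
    (hc : c ∈ supported ℤ ℤ S) : φ c ∈ T := by
  rw [supported_eq_span_single] at hc
  have : Submodule.span ℤ ((fun i => single i (1 : ℤ)) '' S) ≤ T.comap φ := by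
    rw [Submodule.span_le]
    rintro _ ⟨x, hx, rfl⟩
    exact h x hx
  exact this hc

theorem kosb_hom_iff {X : Type} {deg : X → ℕ} {k : ℕ} {c : X →₀ ℤ} :
    Hom deg k c ↔ c ∈ supported ℤ ℤ {x | deg x = k} := Iff.rfl

/-- Algebraic Morse theory for a level-preserving matching. -/
theorem kosb_morse {X : Type} (d : (X →₀ ℤ) →ₗ[ℤ] (X →₀ ℤ)) (lev deg : X → ℕ) (U : X → Prop)
    (R : X → X → Prop) (hdd : ∀ c, d (d c) = 0)
    (hdeg : ∀ k c, Hom deg (k + 1) c → Hom deg k (d c))
    (hlev : ∀ x, d (single x 1) ∈ supported ℤ ℤ {y | lev y ≤ lev x})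
    (h1 : ∀ q, ¬ U q → 0 < lev q → ∃ Q, R q Q) (h2 : ∀ Q, U Q → ∃ q, R q Q)
    (h3 : ∀ q Q Q', R q Q → R q Q' → Q = Q')
    (h4 : ∀ q Q, R q Q → ¬ U q ∧ lev q = lev Q ∧ deg Q = deg q + 1 ∧ ∃ σ : ℤ, σ * σ = 1 ∧
      d (single Q 1) - single q σ ∈ supported ℤ ℤ {y | lev y < lev Q ∨ (lev y = lev Q ∧ U y)})
    (k n : ℕ) (c : X →₀ ℤ) (hc : c ∈ supported ℤ ℤ {y | lev y < n + 1}) (hk : Hom deg k c)
    (hd : d c = 0) :
    ∃ c', Hom deg (k + 1) c' ∧ c - d c' ∈ supported ℤ ℤ {y | lev y < 1} := by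
  classical
  have hch : ∀ q, ∃ v : X →₀ ℤ, ((¬ ∃ Q, R q Q) → v = 0) ∧ ∀ Q, R q Q → ∃ σ : ℤ, σ * σ = 1 ∧
      v = single Q σ ∧ d (single Q 1) - single q σ ∈
        supported ℤ ℤ {y | lev y < lev Q ∨ (lev y = lev Q ∧ U y)} := by
    intro q
    by_cases hq : ∃ Q, R q Q
    · obtain ⟨Q, hQ⟩ := hq
      obtain ⟨-, -, -, σ, hσ, hG⟩ := h4 q Q hQ
      refine ⟨single Q σ, fun h => absurd ⟨Q, hQ⟩ h, fun Q' hQ' => ?_⟩
      obtain rfl := h3 q Q Q' hQ hQ'
      exact ⟨σ, hσ, rfl, hG⟩
    · exact ⟨0, fun _ => rfl, fun Q hQ => absurd ⟨Q, hQ⟩ hq⟩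
  choose v hv0 hv using hch
  set h : (X →₀ ℤ) →ₗ[ℤ] (X →₀ ℤ) := linearCombination ℤ v with hh
  have hs : ∀ q, h (single q 1) = v q := fun q => by simp [hh]
  have hU : ∀ q, U q → v q = 0 := fun q hq => hv0 q fun ⟨Q, hQ⟩ => (h4 q Q hQ).1 hq
  have hF : ∀ m c, c ∈ supported ℤ ℤ {y | lev y < m} → h c ∈ supported ℤ ℤ {y | lev y < m} := by
    intro m c hc
    refine kosb_map h _ _ (fun x hx => ?_) hc
    rw [hs]
    by_cases hq : ∃ Q, R x Q
    · obtain ⟨Q, hQ⟩ := hq
      obtain ⟨σ, -, e, -⟩ := hv x Q hQ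
      rw [e]
      refine single_mem_supported ℤ _ ?_
      show lev Q < m
      rw [← (h4 x Q hQ).2.1]
      exact hx
    · rw [hv0 x hq]; exact zero_mem _
  have hH : ∀ m c, Hom deg m c → Hom deg (m + 1) (h c) := by
    intro m c hc
    rw [kosb_hom_iff] at hc ⊢
    refine kosb_map h _ _ (fun x hx => ?_) hc
    rw [hs]
    by_cases hq : ∃ Q, R x Q
    · obtain ⟨Q, hQ⟩ := hq
      obtain ⟨σ, -, e, -⟩ := hv x Q hQ
      rw [e]
      refine single_mem_supported ℤ _ ?_
      show deg Q = m + 1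
      rw [(h4 x Q hQ).2.2.1, show deg x = m from hx]
    · rw [hv0 x hq]; exact zero_mem _
  have dF : ∀ m c, c ∈ supported ℤ ℤ {y | lev y < m} → d c ∈ supported ℤ ℤ {y | lev y < m} := by
    intro m c hc
    refine kosb_map d _ _ (fun x hx => supported_mono (fun y hy => ?_) (hlev x)) hc
    exact lt_of_le_of_lt (show lev y ≤ lev x from hy) (show lev x < m from hx)
  have hG : ∀ m c, c ∈ supported ℤ ℤ {y | lev y < m ∨ (lev y = m ∧ U y)} →
      h c ∈ supported ℤ ℤ {y | lev y < m} := by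
    intro m c hc
    refine kosb_map h _ _ (fun x hx => ?_) hc
    rcases hx with hx | hx
    · exact hF m _ (single_mem_supported ℤ _ hx)
    · rw [hs, hU x hx.2]; exact zero_mem _
  have s1 : ∀ m c, 0 < m → c ∈ supported ℤ ℤ {y | lev y < m + 1} →
      c - d (h c) ∈ supported ℤ ℤ {y | lev y < m ∨ (lev y = m ∧ U y)} := by
    intro m c hm hc
    refine kosb_map (LinearMap.id - d ∘ₗ h) _ _ (fun x hx => ?_) hc
    show single x 1 - d (h (single x 1)) ∈ _
    rcases Nat.lt_succ_iff_lt_or_eq.1 hx with hx | hx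
    · exact supported_mono (fun y hy => Or.inl hy) (sub_mem (single_mem_supported ℤ _ hx)
        (dF m _ (hF m _ (single_mem_supported ℤ _ hx))))
    · by_cases hxU : U x
      · rw [hs, hU x hxU, map_zero, sub_zero]
        exact single_mem_supported ℤ _ (Or.inr ⟨hx, hxU⟩)
      · obtain ⟨Q, hQ⟩ := h1 x hxU (hx ▸ hm)
        obtain ⟨σ, hσ, e, hm'⟩ := hv x Q hQ
        rw [← (h4 x Q hQ).2.1, hx] at hm'
        have e2 : single x 1 - d (h (single x 1)) = -σ • (d (single Q 1) - single x σ) := by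
          rw [hs, e, ← smul_single_one Q σ, map_smul, smul_sub, smul_single, smul_eq_mul, neg_mul,
            hσ, single_neg, neg_smul]
          abel
        rw [e2]
        exact Submodule.smul_mem _ _ hm'
  have s2 : ∀ m c, c ∈ supported ℤ ℤ {y | lev y < m ∨ (lev y = m ∧ U y)} →
      c - h (d c) ∈ supported ℤ ℤ {y | lev y < m} := by
    intro m c hc
    refine kosb_map (LinearMap.id - h ∘ₗ d) _ _ (fun x hx => ?_) hc
    show single x 1 - h (d (single x 1)) ∈ _
    rcases hx with hx | ⟨hx, hxU⟩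
    · exact sub_mem (single_mem_supported ℤ _ hx) (hF m _ (dF m _ (single_mem_supported ℤ _ hx)))
    · obtain ⟨q, hq⟩ := h2 x hxU
      obtain ⟨σ, hσ, e, hm'⟩ := hv q x hq
      rw [hx] at hm'
      have e2 : single x 1 - h (d (single x 1)) = -h (d (single x 1) - single q σ) := by
        rw [map_sub, ← smul_single_one q σ, map_smul, hs, e, smul_single, smul_eq_mul, hσ]
        abel
      rw [e2]
      exact neg_mem (hG m _ hm')
  induction n generalizing c with
  | zero => exact ⟨0, Hom.zero, by simpa using hc⟩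
  | succ n ih =>
    have a1 := s1 (n + 1) c n.succ_pos hc
    have a2 : d (c - d (h c)) = 0 := by rw [map_sub, hd, hdd, sub_zero]
    have a3 := s2 (n + 1) _ a1
    rw [a2, map_zero, sub_zero] at a3
    obtain ⟨c', b1, b2⟩ := ih _ a3 (hk.sub (hdeg k _ (hH k c hk))) a2
    refine ⟨h c + c', (hH k c hk).add b1, ?_⟩
    rw [map_add, ← sub_sub]
    exact b2

section

variable {V : Type} [Fintype V] [LinearOrder V] {Γ : SimpleGraph V}

open Classical in
/-- distance of the far vertex of a cube -/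
noncomputable def kosbLev (q : RA Γ × Cl Γ) : ℕ :=
  len q.1 + (q.2.1.filter fun a => ¬ Desc q.1 (a, true)).card

open Classical in
/-- the face containing the far vertex -/
noncomputable def kosbNear (b : V) (q : RA Γ × Cl Γ) : RA Γ × Cl Γ :=
  (if Desc q.1 (b, true) then q.1 else q.1 * gen Γ b, q.2.er b)

open Classical in
/-- the opposite face -/
noncomputable def kosbOpp (b : V) (q : RA Γ × Cl Γ) : RA Γ × Cl Γ :=
  (if Desc q.1 (b, true) then q.1 * gen Γ b else q.1, q.2.er b)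

open Classical in
/-- the sign of the face containing the far vertex -/
noncomputable def kosbSg (b : V) (q : RA Γ × Cl Γ) : ℤ :=
  if Desc q.1 (b, true) then -sg b q.2.1 else sg b q.2.1

/-- the descending directions at the far vertex -/
def kosbD (q : RA Γ × Cl Γ) (a : V) : Prop :=
  a ∈ q.2.1 ∨ ((∀ b ∈ q.2.1, Γ.Adj a b) ∧ ∃ e, Desc q.1 (a, e))

/-- the least descending direction -/
def kosbA (q : RA Γ × Cl Γ) (a : V) : Prop := kosbD q a ∧ ∀ b, kosbD q b → a ≤ b

omit [Fintype V] in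
theorem kosb_dK (q : RA Γ × Cl Γ) : dK Γ (single q 1) =
    ∑ b ∈ q.2.1, (single (kosbNear b q) (kosbSg b q) - single (kosbOpp b q) (kosbSg b q)) := by
  simp only [dK, dp, dm, LinearMap.sub_apply, linearCombination_single, one_smul,
    ← Finset.sum_sub_distrib]
  refine Finset.sum_congr rfl fun b _ => ?_
  unfold kosbNear kosbOpp kosbSg
  split_ifs
  · simp only [single_neg]; abel
  · rfl

omit [Fintype V] [LinearOrder V] in
theorem kosb_ltr_true (b : V) : ltr Γ (b, true) = gen Γ b := by simp [ltr]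

omit [Fintype V] [LinearOrder V] in
theorem kosb_ltr_false (b : V) : ltr Γ (b, false) = (gen Γ b)⁻¹ := by simp [ltr]

omit [Fintype V] [LinearOrder V] in
theorem kosb_adj (s : Cl Γ) {a b : V} (ha : a ∈ s.1) (hb : b ∈ s.1) (h : a ≠ b) : Γ.Adj a b :=
  (s.2 a ha b hb).resolve_left h

omit [Fintype V] [LinearOrder V] in
theorem kosb_desc_gen {x : RA Γ} {a b : V} (h : Γ.Adj b a) (e : Bool) :
    Desc (x * gen Γ b) (a, e) ↔ Desc x (a, e) := by
  rw [← kosb_ltr_true]
  exact desc_mul_iff (s := (b, true)) (t := (a, e)) h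

omit [Fintype V] [LinearOrder V] in
theorem kosb_back {x : RA Γ} {b : V} (h : ¬ Desc x (b, true)) : Desc (x * gen Γ b) (b, false) := by
  rw [← kosb_ltr_true]
  exact (desc_back (s := (b, true))).2 h

omit [Fintype V] in
theorem kosb_lev_faces {q : RA Γ × Cl Γ} {b : V} (hb : b ∈ q.2.1) :
    kosbLev (kosbNear b q) = kosbLev q ∧ kosbLev (kosbOpp b q) < kosbLev q := by
  classical
  obtain ⟨x, s⟩ := q
  have e1 : ((s.er b).1.filter fun a => ¬ Desc (x * gen Γ b) (a, true)) =
      (s.er b).1.filter fun a => ¬ Desc x (a, true) := by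
    refine Finset.filter_congr fun a ha => ?_
    have ha' := Finset.mem_erase.1 ha
    rw [kosb_desc_gen (kosb_adj s hb ha'.2 ha'.1.symm)]
  have e2 : ((s.er b).1.filter fun a => ¬ Desc x (a, true)) =
      (s.1.filter fun a => ¬ Desc x (a, true)).erase b := Finset.filter_erase _ _ _
  unfold kosbLev kosbNear kosbOpp
  by_cases h : Desc x (b, true)
  · have e3 : (s.1.filter fun a => ¬ Desc x (a, true)).erase b =
        s.1.filter fun a => ¬ Desc x (a, true) :=
      Finset.erase_eq_of_notMem (by simp [h])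
    have e4 := desc_iff.1 h
    rw [kosb_ltr_true] at e4
    simp only [h, if_true]
    rw [e1, e2, e3]
    omega
  · have e3 : ((s.1.filter fun a => ¬ Desc x (a, true)).erase b).card + 1 =
        (s.1.filter fun a => ¬ Desc x (a, true)).card :=
      Finset.card_erase_add_one (Finset.mem_filter.2 ⟨hb, h⟩)
    have e4 := not_desc_iff.1 h
    rw [kosb_ltr_true] at e4
    simp only [h, if_false]
    rw [e1, e2]
    omega

omit [Fintype V] in
theorem kosb_D_near {q : RA Γ × Cl Γ} {b : V} (hb : b ∈ q.2.1) (a : V) :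
    kosbD (kosbNear b q) a ↔ kosbD q a := by
  classical
  obtain ⟨x, s⟩ := q
  have hmem : ∀ c, c ∈ (s.er b).1 ↔ c ≠ b ∧ c ∈ s.1 := fun c => Finset.mem_erase
  -- the base point `y` of the face has a descent in direction `b`
  obtain ⟨y, hy, ⟨e0, hyb⟩, hyx⟩ : ∃ y, kosbNear b (x, s) = (y, s.er b) ∧ (∃ e, Desc y (b, e)) ∧
      ∀ a e, Γ.Adj b a → (Desc y (a, e) ↔ Desc x (a, e)) := by
    unfold kosbNear
    by_cases h : Desc x (b, true)
    · exact ⟨x, by simp [h], ⟨true, h⟩, fun _ _ _ => Iff.rfl⟩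
    · exact ⟨x * gen Γ b, by simp [h], ⟨false, kosb_back h⟩, fun a e hab => kosb_desc_gen hab e⟩
  rw [hy]
  unfold kosbD
  simp only [hmem]
  constructor
  · rintro (h | ⟨h1, e, h2⟩)
    · exact Or.inl h.2
    · by_cases hab : a = b
      · exact Or.inl (hab ▸ hb)
      · have hadj : Γ.Adj a b := desc_adj h2 hyb (fun h => hab (congrArg Prod.fst h))
        refine Or.inr ⟨fun c hc => ?_, e, (hyx a e hadj.symm).1 h2⟩
        by_cases hcb : c = b
        · exact hcb ▸ hadj
        · exact h1 c ⟨hcb, hc⟩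
  · rintro (h | ⟨h1, e, h2⟩)
    · by_cases hab : a = b
      · subst hab
        exact Or.inr ⟨fun c hc => kosb_adj s hb hc.2 hc.1.symm, e0, hyb⟩
      · exact Or.inl ⟨hab, h⟩
    · exact Or.inr ⟨fun c hc => h1 c hc.2, e, (hyx a e (h1 b hb).symm).2 h2⟩

omit [Fintype V] in
theorem kosb_A_near {q : RA Γ × Cl Γ} {b : V} (hb : b ∈ q.2.1) (a : V) :
    kosbA (kosbNear b q) a ↔ kosbA q a := by
  simp only [kosbA, kosb_D_near hb]

omit [Fintype V] in
theorem kosb_A_unique {q : RA Γ × Cl Γ} {a a' : V} (h : kosbA q a) (h' : kosbA q a') : a = a' :=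
  le_antisymm (h.2 a' h'.1) (h'.2 a h.1)

omit [Fintype V] in
theorem kosb_sg_sq (b : V) (q : RA Γ × Cl Γ) : kosbSg b q * kosbSg b q = 1 := by
  have : sg b q.2.1 * sg b q.2.1 = 1 := by
    unfold sg
    rw [← mul_pow]; simp
  unfold kosbSg
  split_ifs
  · rw [neg_mul_neg, this]
  · exact this

end

theorem dK_exact {V : Type} [Fintype V] [LinearOrder V] {Γ : SimpleGraph V} {k : ℕ}
    {c : RA Γ × Cl Γ →₀ ℤ} (h : Hom cdeg k c) (hd : dK Γ c = 0) (h0 : k = 0 → aug c = 0) :
    ∃ c', Hom cdeg (k + 1) c' ∧ dK Γ c' = c := by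
  classical
  obtain ⟨c', hc1, hc2⟩ := kosb_morse (dK Γ) kosbLev cdeg (fun q => ∃ a ∈ q.2.1, kosbA q a)
    (fun q Q => ∃ a ∈ Q.2.1, kosbA Q a ∧ q = kosbNear a Q) dK_dK (fun k c hc => hc.dK)
    (fun q => by
      rw [kosb_dK]
      exact sum_mem fun b hb => sub_mem (single_mem_supported ℤ _ (kosb_lev_faces hb).1.le)
        (single_mem_supported ℤ _ (kosb_lev_faces hb).2.le))
    (fun q hU hl => by
      obtain ⟨x, s⟩ := q
      have hne : (Finset.univ.filter fun a => kosbD (x, s) a).Nonempty := by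
        rcases s.1.eq_empty_or_nonempty with hs | ⟨a, ha⟩
        · have hx : x ≠ 1 := by
            rintro rfl
            simp [kosbLev, hs, len_eq_zero.2 (rfl : (1 : RA Γ) = 1)] at hl
          obtain ⟨⟨a, e⟩, ha⟩ := exists_desc hx
          exact ⟨a, Finset.mem_filter.2 ⟨Finset.mem_univ _, Or.inr ⟨by simp [hs], e, ha⟩⟩⟩
        · exact ⟨a, Finset.mem_filter.2 ⟨Finset.mem_univ _, Or.inl ha⟩⟩
      set a := (Finset.univ.filter fun a => kosbD (x, s) a).min' hne with ha
      have hA : kosbA (x, s) a := ⟨(Finset.mem_filter.1 (Finset.min'_mem _ hne)).2,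
        fun b hb => Finset.min'_le _ _ (Finset.mem_filter.2 ⟨Finset.mem_univ _, hb⟩)⟩
      have has : a ∉ s.1 := fun h => hU ⟨a, h, hA⟩
      obtain ⟨h1, e, h2⟩ := hA.1.resolve_left has
      let s' : Cl Γ := ⟨insert a s.1, fun b hb c hc => by
        rcases Finset.mem_insert.1 hb with rfl | hb <;> rcases Finset.mem_insert.1 hc with rfl | hc
        · exact Or.inl rfl
        · exact Or.inr (h1 c hc)
        · exact Or.inr (h1 b hb).symm
        · exact s.2 b hb c hc⟩
      have hs' : s'.er a = s := Subtype.ext (Finset.erase_insert has)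
      have ha' : a ∈ s'.1 := Finset.mem_insert_self _ _
      obtain ⟨y, hy⟩ : ∃ y, (x, s) = kosbNear a (y, s') := by
        cases e
        · refine ⟨x * (gen Γ a)⁻¹, ?_⟩
          have h3 : ¬ Desc (x * (gen Γ a)⁻¹) (a, true) := by
            rw [← kosb_ltr_false]
            exact fun h => (desc_back (s := (a, false))).1 h h2
          simp [kosbNear, h3, hs']
        · exact ⟨x, by simp [kosbNear, show Desc x (a, true) from h2, hs']⟩
      exact ⟨(y, s'), a, ha', (kosb_A_near (q := (y, s')) ha' a).1 (hy ▸ hA), hy⟩)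
    (fun Q ⟨a, ha, hA⟩ => ⟨_, a, ha, hA, rfl⟩)
    (fun q Q Q' ⟨a, ha, hA, e⟩ ⟨a', ha', hA', e'⟩ => by
      have h1 : kosbA q a := e ▸ (kosb_A_near ha a).2 hA
      have h2 : kosbA q a' := e' ▸ (kosb_A_near ha' a').2 hA'
      obtain rfl := kosb_A_unique h1 h2
      rw [e] at e'
      obtain ⟨x, s⟩ := Q
      obtain ⟨x', s'⟩ := Q'
      have h3 : s.1.erase a = s'.1.erase a := congrArg (fun q : RA Γ × Cl Γ => q.2.1) e'
      have h4 : s = s' := Subtype.ext (by
        rw [← Finset.insert_erase ha, ← Finset.insert_erase ha']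
        exact congrArg _ h3)
      have h5 := congrArg Prod.fst e'
      simp only [kosbNear] at h5
      have key : ∀ y y' : RA Γ, Desc y (a, true) → ¬ Desc y' (a, true) → y ≠ y' * gen Γ a := by
        rintro y y' hy hy' rfl
        exact (desc_adj hy (kosb_back hy') (by simp)).ne rfl
      rw [h4]
      congr 1
      split_ifs at h5 with i1 i2 i2
      · exact h5
      · exact absurd h5 (key _ _ i1 i2)
      · exact absurd h5.symm (key _ _ i2 i1)
      · exact mul_right_cancel h5)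
    (fun q Q ⟨a, ha, hA, e⟩ => by
      subst e
      refine ⟨?_, (kosb_lev_faces ha).1, ?_, kosbSg a Q, kosb_sg_sq a Q, ?_⟩
      · rintro ⟨a', ha', hA'⟩
        exact (Finset.mem_erase.1 ha').1 (kosb_A_unique ((kosb_A_near ha a').1 hA') hA)
      · exact (Finset.card_erase_add_one ha).symm
      · rw [kosb_dK, ← Finset.add_sum_erase _ _ ha, add_sub_right_comm, sub_sub_cancel_left]
        refine add_mem (neg_mem (single_mem_supported ℤ _ (Or.inl (kosb_lev_faces ha).2)))
          (sum_mem fun b hb => ?_)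
        have hb' := Finset.mem_erase.1 hb
        exact sub_mem (single_mem_supported ℤ _ (Or.inr ⟨(kosb_lev_faces hb'.2).1, a,
          Finset.mem_erase.2 ⟨hb'.1.symm, ha⟩, (kosb_A_near hb'.2 a).2 hA⟩))
          (single_mem_supported ℤ _ (Or.inl (kosb_lev_faces hb'.2).2)))
    k (c.support.sup kosbLev) c
    (fun x hx => Nat.lt_succ_of_le (Finset.le_sup (f := kosbLev) hx)) h hd
  refine ⟨c', hc1, ?_⟩
  let q0 : RA Γ × Cl Γ := (1, ⟨∅, by simp⟩)
  have hsupp : (c - dK Γ c').support ⊆ {q0} := by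
    intro q hq
    obtain ⟨x, s⟩ := q
    have h1 : kosbLev (x, s) < 1 := hc2 hq
    unfold kosbLev at h1
    have hx : x = 1 := len_eq_zero.1 (by simp only at h1; omega)
    subst hx
    have h2 : (s.1.filter fun a => ¬ Desc (1 : RA Γ) (a, true)) = ∅ :=
      Finset.card_eq_zero.1 (by simp only at h1; omega)
    have h3 : s.1 = ∅ := by
      rw [Finset.filter_eq_empty_iff] at h2
      refine Finset.eq_empty_of_forall_notMem fun a ha => h2 ha ?_
      unfold Desc
      rw [len_eq_zero.2 (rfl : (1 : RA Γ) = 1)]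
      exact Nat.not_lt_zero _
    rw [Finset.mem_singleton]
    exact Prod.ext rfl (Subtype.ext h3)
  have hm := support_subset_singleton.1 hsupp
  have hz : (c - dK Γ c') q0 = 0 := by
    rcases Nat.eq_zero_or_pos k with rfl | hk
    · have h1 : aug (c - dK Γ c') = aug c - aug (dK Γ c') :=
        Finsupp.sum_sub_index fun _ _ _ => rfl
      rw [h0 rfl, aug_dK hc1, sub_zero, hm] at h1
      rwa [aug, sum_single_index rfl] at h1
    · by_contra hne
      have := (h.sub hc1.dK) q0 (mem_support_iff.2 hne)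
      simp only [cdeg, q0, Finset.card_empty] at this
      omega
  rw [hz, single_zero, sub_eq_zero] at hm
  exact hm.symm

end Crest.Agent.R197
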