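import Crest.Agent.R197.LDataB

/-! The barycentric subdivision of the 2-skeleton of the Poincaré dodecahedral space. -/

set_option autoImplicit false

namespace Crest.Agent.R197

theorem exists_good_graph : ∃ Γ : SimpleGraph (Fin 21), Γ.Connected ∧
    (∀ σ : Cl Γ, σ.1.card ≤ 3) ∧ (∃ a b c, Γ.Adj a b ∧ Γ.Adj b c ∧ Γ.Adj a c) ∧ Acyc Γ ∧
    Coc Γ :=
  ⟨LD.Gr, LD.connected, LD.card_le,
    ⟨0, 5, 15, (by decide +kernel : LD.adjB _ _ = true), (by decide +kernel : LD.adjB _ _ = true),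
      (by decide +kernel : LD.adjB _ _ = true)⟩, LD.acyc, LD.coc⟩

end Crest.Agent.R197
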