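import Crest.Agent.R197.RDefs

/-! The barycentric subdivision of the 2-skeleton of the Poincaré dodecahedral space:
the graph and its cohomology. -/

set_option autoImplicit false

namespace Crest.Agent.R197.LD

/-- Adjacency table. -/
def adjB (a b : Fin 21) : Bool := Nat.testBit 78585182256904454311354473267261008814570149126017571952079162291556688124302345221274532555719211625376283720247230216189784336672 (21 * a.val + b.val)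

theorem adjB_symm : ∀ a b, adjB a b = true → adjB b a = true := by decide +kernel

theorem adjB_irrefl : ∀ a, ¬ adjB a a = true := by decide +kernel

/-- The graph. -/
def Gr : SimpleGraph (Fin 21) where
  Adj a b := adjB a b = true
  symm := ⟨fun a b => adjB_symm a b⟩
  loopless := ⟨adjB_irrefl⟩

theorem adj_iff (a b : Fin 21) : Gr.Adj a b ↔ adjB a b = true := Iff.rfl

theorem near : ∀ v : Fin 21, v = 0 ∨ adjB 0 v = true ∨ ∃ w, adjB 0 w = true ∧ adjB w v = true := by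
  decide +kernel

theorem connected : Gr.Connected := by
  have h : ∀ v, Gr.Reachable 0 v := fun v => by
    rcases near v with rfl | h | ⟨w, h, h'⟩
    · rfl
    · exact SimpleGraph.Adj.reachable h
    · exact (SimpleGraph.Adj.reachable (G := Gr) h).trans (SimpleGraph.Adj.reachable h')
  exact ⟨fun u v => (h u).symm.trans (h v)⟩

/-- The dimension of the cell of which a vertex is the barycentre. -/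
def col (a : Fin 21) : Fin 3 := if a.val < 5 then 0 else if a.val < 15 then 1 else 2

theorem col_ne : ∀ a b, adjB a b = true → col a ≠ col b := by decide +kernel

theorem card_le (σ : Cl Gr) : σ.1.card ≤ 3 := by
  have h := Finset.card_le_card_of_injOn (s := σ.1) (t := Finset.univ) col
    (fun _ _ => Finset.mem_univ _) fun a ha b hb hab => by
      rcases σ.2 a ha b hb with h | h
      · exact h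
      · exact absurd hab (col_ne a b h)
  simpa using h

/-- The triangles. -/
def triL : List (Fin 21 × Fin 21 × Fin 21) :=
  [(0, 5, 15), (0, 5, 16), (0, 5, 19), (0, 8, 15), (0, 8, 18), (0, 8, 20), (0, 11, 16),
   (0, 11, 17), (0, 11, 18), (0, 13, 17), (0, 13, 19), (0, 13, 20), (1, 5, 15), (1, 5, 16),
   (1, 5, 19), (1, 9, 15), (1, 9, 17), (1, 9, 18), (1, 12, 16), (1, 12, 17), (1, 12, 20),
   (1, 14, 18), (1, 14, 19), (1, 14, 20), (2, 6, 15), (2, 6, 16), (2, 6, 20), (2, 7, 15),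
   (2, 7, 17), (2, 7, 19), (2, 11, 16), (2, 11, 17), (2, 11, 18), (2, 14, 18), (2, 14, 19),
   (2, 14, 20), (3, 6, 15), (3, 6, 16), (3, 6, 20), (3, 9, 15), (3, 9, 17), (3, 9, 18),
   (3, 10, 16), (3, 10, 18), (3, 10, 19), (3, 13, 17), (3, 13, 19), (3, 13, 20), (4, 7, 15),
   (4, 7, 17), (4, 7, 19), (4, 8, 15), (4, 8, 18), (4, 8, 20), (4, 10, 16), (4, 10, 18),
   (4, 10, 19), (4, 12, 16), (4, 12, 17), (4, 12, 20)]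

/-- The edges. -/
def edgL : List (Fin 21 × Fin 21) :=
  [(0, 5), (0, 8), (0, 11), (0, 13), (0, 15), (0, 16), (0, 17), (0, 18), (0, 19), (0, 20),
   (1, 5), (1, 9), (1, 12), (1, 14), (1, 15), (1, 16), (1, 17), (1, 18), (1, 19), (1, 20),
   (2, 6), (2, 7), (2, 11), (2, 14), (2, 15), (2, 16), (2, 17), (2, 18), (2, 19), (2, 20),
   (3, 6), (3, 9), (3, 10), (3, 13), (3, 15), (3, 16), (3, 17), (3, 18), (3, 19), (3, 20),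
   (4, 7), (4, 8), (4, 10), (4, 12), (4, 15), (4, 16), (4, 17), (4, 18), (4, 19), (4, 20),
   (5, 15), (5, 16), (5, 19), (6, 15), (6, 16), (6, 20), (7, 15), (7, 17), (7, 19), (8, 15),
   (8, 18), (8, 20), (9, 15), (9, 17), (9, 18), (10, 16), (10, 18), (10, 19), (11, 16), (11, 17),
   (11, 18), (12, 16), (12, 17), (12, 20), (13, 17), (13, 19), (13, 20), (14, 18), (14, 19), (14, 20)]

theorem tri_mem : ∀ a b c : Fin 21, a < b → b < c → adjB a b = true → adjB b c = true →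
    adjB a c = true → (a, b, c) ∈ triL := by decide +kernel

theorem edg_mem : ∀ a b : Fin 21, a < b → adjB a b = true → (a, b) ∈ edgL := by decide +kernel

/-- The primitive of a 2-cochain. -/
def fN (φ : Fin 21 → Fin 21 → Fin 21 → ℤ) : ℕ → ℕ → ℤ
  | 1, 9 => φ 0 5 15 - φ 1 5 15 + φ 1 9 15
  | 1, 12 => φ 0 5 16 - φ 1 5 16 + φ 1 12 16
  | 1, 14 => φ 0 5 15 - φ 0 8 15 + φ 0 8 20 - φ 0 11 17 + φ 0 11 18 + φ 0 13 17 - φ 0 13 20 - φ 1 5 15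
      + φ 1 9 15 - φ 1 9 17 + φ 1 12 17 - φ 1 12 20 + φ 1 14 20 - φ 2 6 15 + φ 2 6 20 + φ 2 7 15
      - φ 2 7 17 + φ 2 11 17 - φ 2 11 18 + φ 2 14 18 - φ 2 14 20 + φ 3 6 15 - φ 3 6 20
      - φ 3 9 15 + φ 3 9 17 - φ 3 13 17 + φ 3 13 20 - φ 4 7 15 + φ 4 7 17 + φ 4 8 15 - φ 4 8 20
      - φ 4 12 17 + φ 4 12 20
  | 1, 15 => φ 0 5 15 - φ 1 5 15
  | 1, 16 => φ 0 5 16 - φ 1 5 16
  | 1, 17 => φ 0 5 16 - φ 0 8 18 + φ 0 8 20 - φ 0 11 16 + φ 0 11 18 + φ 0 13 17 - φ 0 13 20 - φ 1 5 16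
      - φ 1 9 17 + φ 1 9 18 + φ 1 12 16 - φ 1 12 20 - φ 1 14 18 + φ 1 14 20 - φ 2 6 16
      + φ 2 6 20 + φ 2 11 16 - φ 2 11 18 + φ 2 14 18 - φ 2 14 20 + φ 3 6 16 - φ 3 6 20
      + φ 3 9 17 - φ 3 9 18 - φ 3 10 16 + φ 3 10 18 - φ 3 13 17 + φ 3 13 20 + φ 4 8 18
      - φ 4 8 20 + φ 4 10 16 - φ 4 10 18 - φ 4 12 16 + φ 4 12 20
  | 1, 18 => φ 0 5 15 - φ 0 8 15 + φ 0 8 20 - φ 0 11 17 + φ 0 11 18 + φ 0 13 17 - φ 0 13 20 - φ 1 5 15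
      + φ 1 9 15 - φ 1 9 17 + φ 1 12 17 - φ 1 12 20 - φ 1 14 18 + φ 1 14 20 - φ 2 6 15
      + φ 2 6 20 + φ 2 7 15 - φ 2 7 17 + φ 2 11 17 - φ 2 11 18 + φ 2 14 18 - φ 2 14 20
      + φ 3 6 15 - φ 3 6 20 - φ 3 9 15 + φ 3 9 17 - φ 3 13 17 + φ 3 13 20 - φ 4 7 15 + φ 4 7 17
      + φ 4 8 15 - φ 4 8 20 - φ 4 12 17 + φ 4 12 20
  | 1, 19 => φ 0 5 19 - φ 1 5 19
  | 1, 20 => φ 0 5 19 - φ 0 8 18 + φ 0 8 20 - φ 0 11 17 + φ 0 11 18 + φ 0 13 17 - φ 0 13 19 - φ 1 5 19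
      - φ 1 9 17 + φ 1 9 18 + φ 1 12 17 - φ 1 12 20 - φ 1 14 18 + φ 1 14 19 - φ 2 7 17
      + φ 2 7 19 + φ 2 11 17 - φ 2 11 18 + φ 2 14 18 - φ 2 14 19 + φ 3 9 17 - φ 3 9 18
      + φ 3 10 18 - φ 3 10 19 - φ 3 13 17 + φ 3 13 19 + φ 4 7 17 - φ 4 7 19 + φ 4 8 18
      - φ 4 8 20 - φ 4 10 18 + φ 4 10 19 - φ 4 12 17 + φ 4 12 20
  | 2, 6 => -φ 0 5 16 + φ 0 5 19 + φ 0 8 15 - φ 0 8 20 + φ 0 11 16 - φ 0 13 19 + φ 0 13 20 + φ 1 5 16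
      - φ 1 5 19 - φ 1 12 16 + φ 1 12 20 + φ 1 14 19 - φ 1 14 20 + φ 2 6 15 + φ 2 6 16
      - φ 2 6 20 - φ 2 7 15 + φ 2 7 19 - φ 2 11 16 - φ 2 14 19 + φ 2 14 20 - φ 3 6 16 + φ 3 6 20
      + φ 3 10 16 - φ 3 10 19 + φ 3 13 19 - φ 3 13 20 + φ 4 7 15 - φ 4 7 19 - φ 4 8 15
      + φ 4 8 20 - φ 4 10 16 + φ 4 10 19 + φ 4 12 16 - φ 4 12 20
  | 2, 7 => -φ 0 5 16 + φ 0 5 19 + φ 0 8 15 - φ 0 8 20 + φ 0 11 16 - φ 0 13 19 + φ 0 13 20 + φ 1 5 16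
      - φ 1 5 19 - φ 1 12 16 + φ 1 12 20 + φ 1 14 19 - φ 1 14 20 + φ 2 6 16 - φ 2 6 20
      + φ 2 7 19 - φ 2 11 16 - φ 2 14 19 + φ 2 14 20 - φ 3 6 16 + φ 3 6 20 + φ 3 10 16
      - φ 3 10 19 + φ 3 13 19 - φ 3 13 20 + φ 4 7 15 - φ 4 7 19 - φ 4 8 15 + φ 4 8 20
      - φ 4 10 16 + φ 4 10 19 + φ 4 12 16 - φ 4 12 20
  | 2, 14 => φ 0 11 18 - φ 2 11 18 + φ 2 14 18
  | 2, 15 => -φ 0 5 16 + φ 0 5 19 + φ 0 8 15 - φ 0 8 20 + φ 0 11 16 - φ 0 13 19 + φ 0 13 20 + φ 1 5 16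
      - φ 1 5 19 - φ 1 12 16 + φ 1 12 20 + φ 1 14 19 - φ 1 14 20 + φ 2 6 16 - φ 2 6 20
      - φ 2 7 15 + φ 2 7 19 - φ 2 11 16 - φ 2 14 19 + φ 2 14 20 - φ 3 6 16 + φ 3 6 20
      + φ 3 10 16 - φ 3 10 19 + φ 3 13 19 - φ 3 13 20 + φ 4 7 15 - φ 4 7 19 - φ 4 8 15
      + φ 4 8 20 - φ 4 10 16 + φ 4 10 19 + φ 4 12 16 - φ 4 12 20
  | 2, 16 => φ 0 11 16 - φ 2 11 16
  | 2, 17 => φ 0 11 17 - φ 2 11 17
  | 2, 18 => φ 0 11 18 - φ 2 11 18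
  | 2, 19 => -φ 0 5 15 + φ 0 5 19 + φ 0 8 15 - φ 0 8 20 + φ 0 11 17 - φ 0 13 17 + φ 0 13 20 + φ 1 5 15
      - φ 1 5 19 - φ 1 9 15 + φ 1 9 17 - φ 1 12 17 + φ 1 12 20 + φ 1 14 19 - φ 1 14 20
      + φ 2 6 15 - φ 2 6 20 - φ 2 7 15 + φ 2 7 17 - φ 2 11 17 - φ 2 14 19 + φ 2 14 20 - φ 3 6 15
      + φ 3 6 20 + φ 3 9 15 - φ 3 9 17 + φ 3 13 17 - φ 3 13 20 + φ 4 7 15 - φ 4 7 17 - φ 4 8 15
      + φ 4 8 20 + φ 4 12 17 - φ 4 12 20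
  | 2, 20 => -φ 0 5 15 + φ 0 5 19 + φ 0 8 15 - φ 0 8 18 + φ 0 11 18 - φ 0 13 19 + φ 0 13 20 + φ 1 5 15
      - φ 1 5 19 - φ 1 9 15 + φ 1 9 18 - φ 1 14 18 + φ 1 14 19 + φ 2 6 15 - φ 2 6 20 - φ 2 7 15
      + φ 2 7 19 - φ 2 11 18 + φ 2 14 18 - φ 2 14 19 - φ 3 6 15 + φ 3 6 20 + φ 3 9 15 - φ 3 9 18
      + φ 3 10 18 - φ 3 10 19 + φ 3 13 19 - φ 3 13 20 + φ 4 7 15 - φ 4 7 19 - φ 4 8 15
      + φ 4 8 18 - φ 4 10 18 + φ 4 10 19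
  | 3, 6 => φ 0 5 15 - φ 0 5 16 + φ 0 8 18 - φ 0 8 20 + φ 0 11 16 - φ 0 11 18 + φ 0 13 20 - φ 1 5 15
      + φ 1 5 16 + φ 1 9 15 - φ 1 9 18 - φ 1 12 16 + φ 1 12 20 + φ 1 14 18 - φ 1 14 20
      + φ 2 6 16 - φ 2 6 20 - φ 2 11 16 + φ 2 11 18 - φ 2 14 18 + φ 2 14 20 + φ 3 6 15
      - φ 3 6 16 + φ 3 6 20 - φ 3 9 15 + φ 3 9 18 + φ 3 10 16 - φ 3 10 18 - φ 3 13 20 - φ 4 8 18
      + φ 4 8 20 - φ 4 10 16 + φ 4 10 18 + φ 4 12 16 - φ 4 12 20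
  | 3, 9 => φ 0 5 15 - φ 0 5 16 + φ 0 8 18 - φ 0 8 20 + φ 0 11 16 - φ 0 11 18 + φ 0 13 20 - φ 1 5 15
      + φ 1 5 16 + φ 1 9 15 - φ 1 9 18 - φ 1 12 16 + φ 1 12 20 + φ 1 14 18 - φ 1 14 20
      + φ 2 6 16 - φ 2 6 20 - φ 2 11 16 + φ 2 11 18 - φ 2 14 18 + φ 2 14 20 - φ 3 6 16
      + φ 3 6 20 + φ 3 9 18 + φ 3 10 16 - φ 3 10 18 - φ 3 13 20 - φ 4 8 18 + φ 4 8 20
      - φ 4 10 16 + φ 4 10 18 + φ 4 12 16 - φ 4 12 20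
  | 3, 10 => φ 0 5 15 - φ 0 5 19 - φ 0 8 15 + φ 0 8 18 + φ 0 11 16 - φ 0 11 18 + φ 0 13 19 - φ 1 5 15
      + φ 1 5 19 + φ 1 9 15 - φ 1 9 18 + φ 1 14 18 - φ 1 14 19 - φ 2 6 15 + φ 2 6 16 + φ 2 7 15
      - φ 2 7 19 - φ 2 11 16 + φ 2 11 18 - φ 2 14 18 + φ 2 14 19 + φ 3 6 15 - φ 3 6 16
      - φ 3 9 15 + φ 3 9 18 + φ 3 10 16 - φ 3 10 18 + φ 3 10 19 - φ 3 13 19 - φ 4 7 15
      + φ 4 7 19 + φ 4 8 15 - φ 4 8 18 + φ 4 10 18 - φ 4 10 19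
  | 3, 15 => φ 0 5 15 - φ 0 5 16 + φ 0 8 18 - φ 0 8 20 + φ 0 11 16 - φ 0 11 18 + φ 0 13 20 - φ 1 5 15
      + φ 1 5 16 + φ 1 9 15 - φ 1 9 18 - φ 1 12 16 + φ 1 12 20 + φ 1 14 18 - φ 1 14 20
      + φ 2 6 16 - φ 2 6 20 - φ 2 11 16 + φ 2 11 18 - φ 2 14 18 + φ 2 14 20 - φ 3 6 16
      + φ 3 6 20 - φ 3 9 15 + φ 3 9 18 + φ 3 10 16 - φ 3 10 18 - φ 3 13 20 - φ 4 8 18 + φ 4 8 20
      - φ 4 10 16 + φ 4 10 18 + φ 4 12 16 - φ 4 12 20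
  | 3, 16 => φ 0 5 15 - φ 0 5 19 - φ 0 8 15 + φ 0 8 18 + φ 0 11 16 - φ 0 11 18 + φ 0 13 19 - φ 1 5 15
      + φ 1 5 19 + φ 1 9 15 - φ 1 9 18 + φ 1 14 18 - φ 1 14 19 - φ 2 6 15 + φ 2 6 16 + φ 2 7 15
      - φ 2 7 19 - φ 2 11 16 + φ 2 11 18 - φ 2 14 18 + φ 2 14 19 + φ 3 6 15 - φ 3 6 16
      - φ 3 9 15 + φ 3 9 18 - φ 3 10 18 + φ 3 10 19 - φ 3 13 19 - φ 4 7 15 + φ 4 7 19 + φ 4 8 15
      - φ 4 8 18 + φ 4 10 18 - φ 4 10 19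
  | 3, 17 => φ 0 13 17 - φ 3 13 17
  | 3, 18 => φ 0 5 15 - φ 0 5 16 - φ 0 8 15 + φ 0 8 18 + φ 0 11 16 - φ 0 11 17 + φ 0 13 17 - φ 1 5 15
      + φ 1 5 16 + φ 1 9 15 - φ 1 9 17 - φ 1 12 16 + φ 1 12 17 - φ 2 6 15 + φ 2 6 16 + φ 2 7 15
      - φ 2 7 17 - φ 2 11 16 + φ 2 11 17 + φ 3 6 15 - φ 3 6 16 - φ 3 9 15 + φ 3 9 17 + φ 3 10 16
      - φ 3 10 18 - φ 3 13 17 - φ 4 7 15 + φ 4 7 17 + φ 4 8 15 - φ 4 8 18 - φ 4 10 16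
      + φ 4 10 18 + φ 4 12 16 - φ 4 12 17
  | 3, 19 => φ 0 13 19 - φ 3 13 19
  | 3, 20 => φ 0 13 20 - φ 3 13 20
  | 4, 7 => φ 0 8 15 + φ 4 7 15 - φ 4 8 15
  | 4, 10 => φ 0 5 16 - φ 0 5 19 + φ 0 8 18 + φ 0 11 17 - φ 0 11 18 - φ 0 13 17 + φ 0 13 19 - φ 1 5 16
      + φ 1 5 19 + φ 1 9 17 - φ 1 9 18 + φ 1 12 16 - φ 1 12 17 + φ 1 14 18 - φ 1 14 19
      + φ 2 7 17 - φ 2 7 19 - φ 2 11 17 + φ 2 11 18 - φ 2 14 18 + φ 2 14 19 - φ 3 9 17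
      + φ 3 9 18 - φ 3 10 18 + φ 3 10 19 + φ 3 13 17 - φ 3 13 19 - φ 4 7 17 + φ 4 7 19
      - φ 4 8 18 + φ 4 10 16 + φ 4 10 18 - φ 4 10 19 - φ 4 12 16 + φ 4 12 17
  | 4, 12 => φ 0 5 16 - φ 0 5 19 + φ 0 8 18 + φ 0 11 17 - φ 0 11 18 - φ 0 13 17 + φ 0 13 19 - φ 1 5 16
      + φ 1 5 19 + φ 1 9 17 - φ 1 9 18 + φ 1 12 16 - φ 1 12 17 + φ 1 14 18 - φ 1 14 19
      + φ 2 7 17 - φ 2 7 19 - φ 2 11 17 + φ 2 11 18 - φ 2 14 18 + φ 2 14 19 - φ 3 9 17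
      + φ 3 9 18 - φ 3 10 18 + φ 3 10 19 + φ 3 13 17 - φ 3 13 19 - φ 4 7 17 + φ 4 7 19
      - φ 4 8 18 + φ 4 10 18 - φ 4 10 19 + φ 4 12 17
  | 4, 15 => φ 0 8 15 - φ 4 8 15
  | 4, 16 => φ 0 5 16 - φ 0 5 19 + φ 0 8 18 + φ 0 11 17 - φ 0 11 18 - φ 0 13 17 + φ 0 13 19 - φ 1 5 16
      + φ 1 5 19 + φ 1 9 17 - φ 1 9 18 + φ 1 12 16 - φ 1 12 17 + φ 1 14 18 - φ 1 14 19
      + φ 2 7 17 - φ 2 7 19 - φ 2 11 17 + φ 2 11 18 - φ 2 14 18 + φ 2 14 19 - φ 3 9 17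
      + φ 3 9 18 - φ 3 10 18 + φ 3 10 19 + φ 3 13 17 - φ 3 13 19 - φ 4 7 17 + φ 4 7 19
      - φ 4 8 18 + φ 4 10 18 - φ 4 10 19 - φ 4 12 16 + φ 4 12 17
  | 4, 17 => φ 0 5 16 - φ 0 5 19 + φ 0 8 20 - φ 0 11 16 + φ 0 11 17 + φ 0 13 19 - φ 0 13 20 - φ 1 5 16
      + φ 1 5 19 + φ 1 12 16 - φ 1 12 20 - φ 1 14 19 + φ 1 14 20 - φ 2 6 16 + φ 2 6 20
      + φ 2 7 17 - φ 2 7 19 + φ 2 11 16 - φ 2 11 17 + φ 2 14 19 - φ 2 14 20 + φ 3 6 16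
      - φ 3 6 20 - φ 3 10 16 + φ 3 10 19 - φ 3 13 19 + φ 3 13 20 - φ 4 7 17 + φ 4 7 19
      - φ 4 8 20 + φ 4 10 16 - φ 4 10 19 - φ 4 12 16 + φ 4 12 20
  | 4, 18 => φ 0 8 18 - φ 4 8 18
  | 4, 19 => -φ 0 5 15 + φ 0 5 16 + φ 0 8 15 - φ 0 11 16 + φ 0 11 17 - φ 0 13 17 + φ 0 13 19 + φ 1 5 15
      - φ 1 5 16 - φ 1 9 15 + φ 1 9 17 + φ 1 12 16 - φ 1 12 17 + φ 2 6 15 - φ 2 6 16 - φ 2 7 15
      + φ 2 7 17 + φ 2 11 16 - φ 2 11 17 - φ 3 6 15 + φ 3 6 16 + φ 3 9 15 - φ 3 9 17 - φ 3 10 16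
      + φ 3 10 19 + φ 3 13 17 - φ 3 13 19 + φ 4 7 15 - φ 4 7 17 - φ 4 8 15 + φ 4 10 16
      - φ 4 10 19 - φ 4 12 16 + φ 4 12 17
  | 4, 20 => φ 0 8 20 - φ 4 8 20
  | 5, 15 => φ 0 5 15
  | 5, 16 => φ 0 5 16
  | 5, 19 => φ 0 5 19
  | 6, 16 => φ 0 5 16 - φ 0 5 19 - φ 0 8 15 + φ 0 8 20 + φ 0 13 19 - φ 0 13 20 - φ 1 5 16 + φ 1 5 19
      + φ 1 12 16 - φ 1 12 20 - φ 1 14 19 + φ 1 14 20 - φ 2 6 15 + φ 2 6 20 + φ 2 7 15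
      - φ 2 7 19 + φ 2 14 19 - φ 2 14 20 + φ 3 6 16 - φ 3 6 20 - φ 3 10 16 + φ 3 10 19
      - φ 3 13 19 + φ 3 13 20 - φ 4 7 15 + φ 4 7 19 + φ 4 8 15 - φ 4 8 20 + φ 4 10 16
      - φ 4 10 19 - φ 4 12 16 + φ 4 12 20
  | 6, 20 => -φ 0 5 15 + φ 0 5 16 - φ 0 8 18 + φ 0 8 20 - φ 0 11 16 + φ 0 11 18 + φ 1 5 15 - φ 1 5 16
      - φ 1 9 15 + φ 1 9 18 + φ 1 12 16 - φ 1 12 20 - φ 1 14 18 + φ 1 14 20 - φ 2 6 16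
      + φ 2 6 20 + φ 2 11 16 - φ 2 11 18 + φ 2 14 18 - φ 2 14 20 - φ 3 6 15 + φ 3 6 16
      + φ 3 9 15 - φ 3 9 18 - φ 3 10 16 + φ 3 10 18 + φ 4 8 18 - φ 4 8 20 + φ 4 10 16
      - φ 4 10 18 - φ 4 12 16 + φ 4 12 20
  | 7, 17 => φ 0 5 16 - φ 0 5 19 - φ 0 8 15 + φ 0 8 20 - φ 0 11 16 + φ 0 11 17 + φ 0 13 19 - φ 0 13 20
      - φ 1 5 16 + φ 1 5 19 + φ 1 12 16 - φ 1 12 20 - φ 1 14 19 + φ 1 14 20 - φ 2 6 16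
      + φ 2 6 20 + φ 2 7 17 - φ 2 7 19 + φ 2 11 16 - φ 2 11 17 + φ 2 14 19 - φ 2 14 20
      + φ 3 6 16 - φ 3 6 20 - φ 3 10 16 + φ 3 10 19 - φ 3 13 19 + φ 3 13 20 - φ 4 7 15
      + φ 4 7 19 + φ 4 8 15 - φ 4 8 20 + φ 4 10 16 - φ 4 10 19 - φ 4 12 16 + φ 4 12 20
  | 7, 19 => -φ 0 5 15 + φ 0 5 16 - φ 0 11 16 + φ 0 11 17 - φ 0 13 17 + φ 0 13 19 + φ 1 5 15 - φ 1 5 16
      - φ 1 9 15 + φ 1 9 17 + φ 1 12 16 - φ 1 12 17 + φ 2 6 15 - φ 2 6 16 - φ 2 7 15 + φ 2 7 17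
      + φ 2 11 16 - φ 2 11 17 - φ 3 6 15 + φ 3 6 16 + φ 3 9 15 - φ 3 9 17 - φ 3 10 16
      + φ 3 10 19 + φ 3 13 17 - φ 3 13 19 - φ 4 7 17 + φ 4 7 19 + φ 4 10 16 - φ 4 10 19
      - φ 4 12 16 + φ 4 12 17
  | 8, 15 => φ 0 8 15
  | 8, 18 => φ 0 8 18
  | 8, 20 => φ 0 8 20
  | 9, 17 => -φ 0 5 15 + φ 0 5 16 - φ 0 8 18 + φ 0 8 20 - φ 0 11 16 + φ 0 11 18 + φ 0 13 17 - φ 0 13 20
      + φ 1 5 15 - φ 1 5 16 - φ 1 9 15 + φ 1 9 18 + φ 1 12 16 - φ 1 12 20 - φ 1 14 18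
      + φ 1 14 20 - φ 2 6 16 + φ 2 6 20 + φ 2 11 16 - φ 2 11 18 + φ 2 14 18 - φ 2 14 20
      + φ 3 6 16 - φ 3 6 20 + φ 3 9 17 - φ 3 9 18 - φ 3 10 16 + φ 3 10 18 - φ 3 13 17
      + φ 3 13 20 + φ 4 8 18 - φ 4 8 20 + φ 4 10 16 - φ 4 10 18 - φ 4 12 16 + φ 4 12 20
  | 9, 18 => -φ 0 8 15 + φ 0 8 20 - φ 0 11 17 + φ 0 11 18 + φ 0 13 17 - φ 0 13 20 - φ 1 9 17 + φ 1 9 18
      + φ 1 12 17 - φ 1 12 20 - φ 1 14 18 + φ 1 14 20 - φ 2 6 15 + φ 2 6 20 + φ 2 7 15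
      - φ 2 7 17 + φ 2 11 17 - φ 2 11 18 + φ 2 14 18 - φ 2 14 20 + φ 3 6 15 - φ 3 6 20
      - φ 3 9 15 + φ 3 9 17 - φ 3 13 17 + φ 3 13 20 - φ 4 7 15 + φ 4 7 17 + φ 4 8 15 - φ 4 8 20
      - φ 4 12 17 + φ 4 12 20
  | 10, 18 => -φ 0 5 16 + φ 0 5 19 - φ 0 11 17 + φ 0 11 18 + φ 0 13 17 - φ 0 13 19 + φ 1 5 16 - φ 1 5 19
      - φ 1 9 17 + φ 1 9 18 - φ 1 12 16 + φ 1 12 17 - φ 1 14 18 + φ 1 14 19 - φ 2 7 17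
      + φ 2 7 19 + φ 2 11 17 - φ 2 11 18 + φ 2 14 18 - φ 2 14 19 + φ 3 9 17 - φ 3 9 18
      + φ 3 10 18 - φ 3 10 19 - φ 3 13 17 + φ 3 13 19 + φ 4 7 17 - φ 4 7 19 - φ 4 10 16
      + φ 4 10 19 + φ 4 12 16 - φ 4 12 17
  | 10, 19 => -φ 0 5 15 + φ 0 5 19 + φ 0 8 15 - φ 0 8 18 - φ 0 11 16 + φ 0 11 18 + φ 1 5 15 - φ 1 5 19
      - φ 1 9 15 + φ 1 9 18 - φ 1 14 18 + φ 1 14 19 + φ 2 6 15 - φ 2 6 16 - φ 2 7 15 + φ 2 7 19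
      + φ 2 11 16 - φ 2 11 18 + φ 2 14 18 - φ 2 14 19 - φ 3 6 15 + φ 3 6 16 + φ 3 9 15
      - φ 3 9 18 - φ 3 10 16 + φ 3 10 18 + φ 4 7 15 - φ 4 7 19 - φ 4 8 15 + φ 4 8 18 - φ 4 10 18
      + φ 4 10 19
  | 11, 16 => φ 0 11 16
  | 11, 17 => φ 0 11 17
  | 11, 18 => φ 0 11 18
  | 12, 17 => -φ 0 8 18 + φ 0 8 20 - φ 0 11 16 + φ 0 11 18 + φ 0 13 17 - φ 0 13 20 - φ 1 9 17 + φ 1 9 18
      + φ 1 12 17 - φ 1 12 20 - φ 1 14 18 + φ 1 14 20 - φ 2 6 16 + φ 2 6 20 + φ 2 11 16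
      - φ 2 11 18 + φ 2 14 18 - φ 2 14 20 + φ 3 6 16 - φ 3 6 20 + φ 3 9 17 - φ 3 9 18
      - φ 3 10 16 + φ 3 10 18 - φ 3 13 17 + φ 3 13 20 + φ 4 8 18 - φ 4 8 20 + φ 4 10 16
      - φ 4 10 18 - φ 4 12 16 + φ 4 12 20
  | 12, 20 => -φ 0 5 16 + φ 0 5 19 - φ 0 8 18 + φ 0 8 20 - φ 0 11 17 + φ 0 11 18 + φ 0 13 17 - φ 0 13 19
      + φ 1 5 16 - φ 1 5 19 - φ 1 9 17 + φ 1 9 18 - φ 1 12 16 + φ 1 12 17 - φ 1 14 18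
      + φ 1 14 19 - φ 2 7 17 + φ 2 7 19 + φ 2 11 17 - φ 2 11 18 + φ 2 14 18 - φ 2 14 19
      + φ 3 9 17 - φ 3 9 18 + φ 3 10 18 - φ 3 10 19 - φ 3 13 17 + φ 3 13 19 + φ 4 7 17
      - φ 4 7 19 + φ 4 8 18 - φ 4 8 20 - φ 4 10 18 + φ 4 10 19 - φ 4 12 17 + φ 4 12 20
  | 13, 17 => φ 0 13 17
  | 13, 19 => φ 0 13 19
  | 13, 20 => φ 0 13 20
  | 14, 19 => -φ 0 5 15 + φ 0 5 19 + φ 0 8 15 - φ 0 8 20 + φ 0 11 17 - φ 0 11 18 - φ 0 13 17 + φ 0 13 20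
      + φ 1 5 15 - φ 1 5 19 - φ 1 9 15 + φ 1 9 17 - φ 1 12 17 + φ 1 12 20 + φ 1 14 19
      - φ 1 14 20 + φ 2 6 15 - φ 2 6 20 - φ 2 7 15 + φ 2 7 17 - φ 2 11 17 + φ 2 11 18
      - φ 2 14 18 + φ 2 14 20 - φ 3 6 15 + φ 3 6 20 + φ 3 9 15 - φ 3 9 17 + φ 3 13 17
      - φ 3 13 20 + φ 4 7 15 - φ 4 7 17 - φ 4 8 15 + φ 4 8 20 + φ 4 12 17 - φ 4 12 20
  | 14, 20 => -φ 0 5 15 + φ 0 5 19 + φ 0 8 15 - φ 0 8 18 - φ 0 13 19 + φ 0 13 20 + φ 1 5 15 - φ 1 5 19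
      - φ 1 9 15 + φ 1 9 18 - φ 1 14 18 + φ 1 14 19 + φ 2 6 15 - φ 2 6 20 - φ 2 7 15 + φ 2 7 19
      - φ 2 14 19 + φ 2 14 20 - φ 3 6 15 + φ 3 6 20 + φ 3 9 15 - φ 3 9 18 + φ 3 10 18
      - φ 3 10 19 + φ 3 13 19 - φ 3 13 20 + φ 4 7 15 - φ 4 7 19 - φ 4 8 15 + φ 4 8 18
      - φ 4 10 18 + φ 4 10 19
  | _, _ => 0

theorem h2 (φ : Fin 21 → Fin 21 → Fin 21 → ℤ) : ∃ f : Fin 21 → Fin 21 → ℤ, ∀ a b c, a < b → b < c →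
    Gr.Adj a b → Gr.Adj b c → Gr.Adj a c → f b c - f a c + f a b = φ a b c := by
  refine ⟨fun a b => fN φ a.val b.val, fun a b c h1 h2 h3 h4 h5 => ?_⟩
  have h := tri_mem a b c h1 h2 h3 h4 h5
  simp only [triL, List.mem_cons, Prod.mk.injEq, List.not_mem_nil, or_false] at h
  rcases h with ⟨rfl, rfl, rfl⟩
    | ⟨rfl, rfl, rfl⟩
    | ⟨rfl, rfl, rfl⟩
    | ⟨rfl, rfl, rfl⟩
    | ⟨rfl, rfl, rfl⟩
    | ⟨rfl, rfl, rfl⟩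
    | ⟨rfl, rfl, rfl⟩
    | ⟨rfl, rfl, rfl⟩
    | ⟨rfl, rfl, rfl⟩
    | ⟨rfl, rfl, rfl⟩
    | ⟨rfl, rfl, rfl⟩
    | ⟨rfl, rfl, rfl⟩
    | ⟨rfl, rfl, rfl⟩
    | ⟨rfl, rfl, rfl⟩
    | ⟨rfl, rfl, rfl⟩
    | ⟨rfl, rfl, rfl⟩
    | ⟨rfl, rfl, rfl⟩
    | ⟨rfl, rfl, rfl⟩
    | ⟨rfl, rfl, rfl⟩
    | ⟨rfl, rfl, rfl⟩
    | ⟨rfl, rfl, rfl⟩
    | ⟨rfl, rfl, rfl⟩
    | ⟨rfl, rfl, rfl⟩
    | ⟨rfl, rfl, rfl⟩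
    | ⟨rfl, rfl, rfl⟩
    | ⟨rfl, rfl, rfl⟩
    | ⟨rfl, rfl, rfl⟩
    | ⟨rfl, rfl, rfl⟩
    | ⟨rfl, rfl, rfl⟩
    | ⟨rfl, rfl, rfl⟩
    | ⟨rfl, rfl, rfl⟩
    | ⟨rfl, rfl, rfl⟩
    | ⟨rfl, rfl, rfl⟩
    | ⟨rfl, rfl, rfl⟩
    | ⟨rfl, rfl, rfl⟩
    | ⟨rfl, rfl, rfl⟩
    | ⟨rfl, rfl, rfl⟩
    | ⟨rfl, rfl, rfl⟩
    | ⟨rfl, rfl, rfl⟩
    | ⟨rfl, rfl, rfl⟩
    | ⟨rfl, rfl, rfl⟩
    | ⟨rfl, rfl, rfl⟩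
    | ⟨rfl, rfl, rfl⟩
    | ⟨rfl, rfl, rfl⟩
    | ⟨rfl, rfl, rfl⟩
    | ⟨rfl, rfl, rfl⟩
    | ⟨rfl, rfl, rfl⟩
    | ⟨rfl, rfl, rfl⟩
    | ⟨rfl, rfl, rfl⟩
    | ⟨rfl, rfl, rfl⟩
    | ⟨rfl, rfl, rfl⟩
    | ⟨rfl, rfl, rfl⟩
    | ⟨rfl, rfl, rfl⟩
    | ⟨rfl, rfl, rfl⟩
    | ⟨rfl, rfl, rfl⟩
    | ⟨rfl, rfl, rfl⟩
    | ⟨rfl, rfl, rfl⟩
    | ⟨rfl, rfl, rfl⟩
    | ⟨rfl, rfl, rfl⟩
    | ⟨rfl, rfl, rfl⟩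
  · change (φ 0 5 15) -
      (0) +
      (0) = φ 0 5 15
    ring
  · change (φ 0 5 16) -
      (0) +
      (0) = φ 0 5 16
    ring
  · change (φ 0 5 19) -
      (0) +
      (0) = φ 0 5 19
    ring
  · change (φ 0 8 15) -
      (0) +
      (0) = φ 0 8 15
    ring
  · change (φ 0 8 18) -
      (0) +
      (0) = φ 0 8 18
    ring
  · change (φ 0 8 20) -
      (0) +
      (0) = φ 0 8 20
    ring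
  · change (φ 0 11 16) -
      (0) +
      (0) = φ 0 11 16
    ring
  · change (φ 0 11 17) -
      (0) +
      (0) = φ 0 11 17
    ring
  · change (φ 0 11 18) -
      (0) +
      (0) = φ 0 11 18
    ring
  · change (φ 0 13 17) -
      (0) +
      (0) = φ 0 13 17
    ring
  · change (φ 0 13 19) -
      (0) +
      (0) = φ 0 13 19
    ring
  · change (φ 0 13 20) -
      (0) +
      (0) = φ 0 13 20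
    ring
  · change (φ 0 5 15) -
      (φ 0 5 15 - φ 1 5 15) +
      (0) = φ 1 5 15
    ring
  · change (φ 0 5 16) -
      (φ 0 5 16 - φ 1 5 16) +
      (0) = φ 1 5 16
    ring
  · change (φ 0 5 19) -
      (φ 0 5 19 - φ 1 5 19) +
      (0) = φ 1 5 19
    ring
  · change (0) -
      (φ 0 5 15 - φ 1 5 15) +
      (φ 0 5 15 - φ 1 5 15 + φ 1 9 15) = φ 1 9 15
    ring
  · change (-φ 0 5 15 + φ 0 5 16 - φ 0 8 18 + φ 0 8 20 - φ 0 11 16 + φ 0 11 18 + φ 0 13 17 - φ 0 13 20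
      + φ 1 5 15 - φ 1 5 16 - φ 1 9 15 + φ 1 9 18 + φ 1 12 16 - φ 1 12 20 - φ 1 14 18
      + φ 1 14 20 - φ 2 6 16 + φ 2 6 20 + φ 2 11 16 - φ 2 11 18 + φ 2 14 18 - φ 2 14 20
      + φ 3 6 16 - φ 3 6 20 + φ 3 9 17 - φ 3 9 18 - φ 3 10 16 + φ 3 10 18 - φ 3 13 17
      + φ 3 13 20 + φ 4 8 18 - φ 4 8 20 + φ 4 10 16 - φ 4 10 18 - φ 4 12 16 + φ 4 12 20) -
      (φ 0 5 16 - φ 0 8 18 + φ 0 8 20 - φ 0 11 16 + φ 0 11 18 + φ 0 13 17 - φ 0 13 20 - φ 1 5 16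
      - φ 1 9 17 + φ 1 9 18 + φ 1 12 16 - φ 1 12 20 - φ 1 14 18 + φ 1 14 20 - φ 2 6 16
      + φ 2 6 20 + φ 2 11 16 - φ 2 11 18 + φ 2 14 18 - φ 2 14 20 + φ 3 6 16 - φ 3 6 20
      + φ 3 9 17 - φ 3 9 18 - φ 3 10 16 + φ 3 10 18 - φ 3 13 17 + φ 3 13 20 + φ 4 8 18
      - φ 4 8 20 + φ 4 10 16 - φ 4 10 18 - φ 4 12 16 + φ 4 12 20) +
      (φ 0 5 15 - φ 1 5 15 + φ 1 9 15) = φ 1 9 17
    ring
  · change (-φ 0 8 15 + φ 0 8 20 - φ 0 11 17 + φ 0 11 18 + φ 0 13 17 - φ 0 13 20 - φ 1 9 17 + φ 1 9 18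
      + φ 1 12 17 - φ 1 12 20 - φ 1 14 18 + φ 1 14 20 - φ 2 6 15 + φ 2 6 20 + φ 2 7 15
      - φ 2 7 17 + φ 2 11 17 - φ 2 11 18 + φ 2 14 18 - φ 2 14 20 + φ 3 6 15 - φ 3 6 20
      - φ 3 9 15 + φ 3 9 17 - φ 3 13 17 + φ 3 13 20 - φ 4 7 15 + φ 4 7 17 + φ 4 8 15 - φ 4 8 20
      - φ 4 12 17 + φ 4 12 20) -
      (φ 0 5 15 - φ 0 8 15 + φ 0 8 20 - φ 0 11 17 + φ 0 11 18 + φ 0 13 17 - φ 0 13 20 - φ 1 5 15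
      + φ 1 9 15 - φ 1 9 17 + φ 1 12 17 - φ 1 12 20 - φ 1 14 18 + φ 1 14 20 - φ 2 6 15
      + φ 2 6 20 + φ 2 7 15 - φ 2 7 17 + φ 2 11 17 - φ 2 11 18 + φ 2 14 18 - φ 2 14 20
      + φ 3 6 15 - φ 3 6 20 - φ 3 9 15 + φ 3 9 17 - φ 3 13 17 + φ 3 13 20 - φ 4 7 15 + φ 4 7 17
      + φ 4 8 15 - φ 4 8 20 - φ 4 12 17 + φ 4 12 20) +
      (φ 0 5 15 - φ 1 5 15 + φ 1 9 15) = φ 1 9 18
    ring
  · change (0) -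
      (φ 0 5 16 - φ 1 5 16) +
      (φ 0 5 16 - φ 1 5 16 + φ 1 12 16) = φ 1 12 16
    ring
  · change (-φ 0 8 18 + φ 0 8 20 - φ 0 11 16 + φ 0 11 18 + φ 0 13 17 - φ 0 13 20 - φ 1 9 17 + φ 1 9 18
      + φ 1 12 17 - φ 1 12 20 - φ 1 14 18 + φ 1 14 20 - φ 2 6 16 + φ 2 6 20 + φ 2 11 16
      - φ 2 11 18 + φ 2 14 18 - φ 2 14 20 + φ 3 6 16 - φ 3 6 20 + φ 3 9 17 - φ 3 9 18
      - φ 3 10 16 + φ 3 10 18 - φ 3 13 17 + φ 3 13 20 + φ 4 8 18 - φ 4 8 20 + φ 4 10 16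
      - φ 4 10 18 - φ 4 12 16 + φ 4 12 20) -
      (φ 0 5 16 - φ 0 8 18 + φ 0 8 20 - φ 0 11 16 + φ 0 11 18 + φ 0 13 17 - φ 0 13 20 - φ 1 5 16
      - φ 1 9 17 + φ 1 9 18 + φ 1 12 16 - φ 1 12 20 - φ 1 14 18 + φ 1 14 20 - φ 2 6 16
      + φ 2 6 20 + φ 2 11 16 - φ 2 11 18 + φ 2 14 18 - φ 2 14 20 + φ 3 6 16 - φ 3 6 20
      + φ 3 9 17 - φ 3 9 18 - φ 3 10 16 + φ 3 10 18 - φ 3 13 17 + φ 3 13 20 + φ 4 8 18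
      - φ 4 8 20 + φ 4 10 16 - φ 4 10 18 - φ 4 12 16 + φ 4 12 20) +
      (φ 0 5 16 - φ 1 5 16 + φ 1 12 16) = φ 1 12 17
    ring
  · change (-φ 0 5 16 + φ 0 5 19 - φ 0 8 18 + φ 0 8 20 - φ 0 11 17 + φ 0 11 18 + φ 0 13 17 - φ 0 13 19
      + φ 1 5 16 - φ 1 5 19 - φ 1 9 17 + φ 1 9 18 - φ 1 12 16 + φ 1 12 17 - φ 1 14 18
      + φ 1 14 19 - φ 2 7 17 + φ 2 7 19 + φ 2 11 17 - φ 2 11 18 + φ 2 14 18 - φ 2 14 19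
      + φ 3 9 17 - φ 3 9 18 + φ 3 10 18 - φ 3 10 19 - φ 3 13 17 + φ 3 13 19 + φ 4 7 17
      - φ 4 7 19 + φ 4 8 18 - φ 4 8 20 - φ 4 10 18 + φ 4 10 19 - φ 4 12 17 + φ 4 12 20) -
      (φ 0 5 19 - φ 0 8 18 + φ 0 8 20 - φ 0 11 17 + φ 0 11 18 + φ 0 13 17 - φ 0 13 19 - φ 1 5 19
      - φ 1 9 17 + φ 1 9 18 + φ 1 12 17 - φ 1 12 20 - φ 1 14 18 + φ 1 14 19 - φ 2 7 17
      + φ 2 7 19 + φ 2 11 17 - φ 2 11 18 + φ 2 14 18 - φ 2 14 19 + φ 3 9 17 - φ 3 9 18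
      + φ 3 10 18 - φ 3 10 19 - φ 3 13 17 + φ 3 13 19 + φ 4 7 17 - φ 4 7 19 + φ 4 8 18
      - φ 4 8 20 - φ 4 10 18 + φ 4 10 19 - φ 4 12 17 + φ 4 12 20) +
      (φ 0 5 16 - φ 1 5 16 + φ 1 12 16) = φ 1 12 20
    ring
  · change (0) -
      (φ 0 5 15 - φ 0 8 15 + φ 0 8 20 - φ 0 11 17 + φ 0 11 18 + φ 0 13 17 - φ 0 13 20 - φ 1 5 15
      + φ 1 9 15 - φ 1 9 17 + φ 1 12 17 - φ 1 12 20 - φ 1 14 18 + φ 1 14 20 - φ 2 6 15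
      + φ 2 6 20 + φ 2 7 15 - φ 2 7 17 + φ 2 11 17 - φ 2 11 18 + φ 2 14 18 - φ 2 14 20
      + φ 3 6 15 - φ 3 6 20 - φ 3 9 15 + φ 3 9 17 - φ 3 13 17 + φ 3 13 20 - φ 4 7 15 + φ 4 7 17
      + φ 4 8 15 - φ 4 8 20 - φ 4 12 17 + φ 4 12 20) +
      (φ 0 5 15 - φ 0 8 15 + φ 0 8 20 - φ 0 11 17 + φ 0 11 18 + φ 0 13 17 - φ 0 13 20 - φ 1 5 15
      + φ 1 9 15 - φ 1 9 17 + φ 1 12 17 - φ 1 12 20 + φ 1 14 20 - φ 2 6 15 + φ 2 6 20 + φ 2 7 15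
      - φ 2 7 17 + φ 2 11 17 - φ 2 11 18 + φ 2 14 18 - φ 2 14 20 + φ 3 6 15 - φ 3 6 20
      - φ 3 9 15 + φ 3 9 17 - φ 3 13 17 + φ 3 13 20 - φ 4 7 15 + φ 4 7 17 + φ 4 8 15 - φ 4 8 20
      - φ 4 12 17 + φ 4 12 20) = φ 1 14 18
    ring
  · change (-φ 0 5 15 + φ 0 5 19 + φ 0 8 15 - φ 0 8 20 + φ 0 11 17 - φ 0 11 18 - φ 0 13 17 + φ 0 13 20
      + φ 1 5 15 - φ 1 5 19 - φ 1 9 15 + φ 1 9 17 - φ 1 12 17 + φ 1 12 20 + φ 1 14 19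
      - φ 1 14 20 + φ 2 6 15 - φ 2 6 20 - φ 2 7 15 + φ 2 7 17 - φ 2 11 17 + φ 2 11 18
      - φ 2 14 18 + φ 2 14 20 - φ 3 6 15 + φ 3 6 20 + φ 3 9 15 - φ 3 9 17 + φ 3 13 17
      - φ 3 13 20 + φ 4 7 15 - φ 4 7 17 - φ 4 8 15 + φ 4 8 20 + φ 4 12 17 - φ 4 12 20) -
      (φ 0 5 19 - φ 1 5 19) +
      (φ 0 5 15 - φ 0 8 15 + φ 0 8 20 - φ 0 11 17 + φ 0 11 18 + φ 0 13 17 - φ 0 13 20 - φ 1 5 15
      + φ 1 9 15 - φ 1 9 17 + φ 1 12 17 - φ 1 12 20 + φ 1 14 20 - φ 2 6 15 + φ 2 6 20 + φ 2 7 15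
      - φ 2 7 17 + φ 2 11 17 - φ 2 11 18 + φ 2 14 18 - φ 2 14 20 + φ 3 6 15 - φ 3 6 20
      - φ 3 9 15 + φ 3 9 17 - φ 3 13 17 + φ 3 13 20 - φ 4 7 15 + φ 4 7 17 + φ 4 8 15 - φ 4 8 20
      - φ 4 12 17 + φ 4 12 20) = φ 1 14 19
    ring
  · change (-φ 0 5 15 + φ 0 5 19 + φ 0 8 15 - φ 0 8 18 - φ 0 13 19 + φ 0 13 20 + φ 1 5 15 - φ 1 5 19
      - φ 1 9 15 + φ 1 9 18 - φ 1 14 18 + φ 1 14 19 + φ 2 6 15 - φ 2 6 20 - φ 2 7 15 + φ 2 7 19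
      - φ 2 14 19 + φ 2 14 20 - φ 3 6 15 + φ 3 6 20 + φ 3 9 15 - φ 3 9 18 + φ 3 10 18
      - φ 3 10 19 + φ 3 13 19 - φ 3 13 20 + φ 4 7 15 - φ 4 7 19 - φ 4 8 15 + φ 4 8 18
      - φ 4 10 18 + φ 4 10 19) -
      (φ 0 5 19 - φ 0 8 18 + φ 0 8 20 - φ 0 11 17 + φ 0 11 18 + φ 0 13 17 - φ 0 13 19 - φ 1 5 19
      - φ 1 9 17 + φ 1 9 18 + φ 1 12 17 - φ 1 12 20 - φ 1 14 18 + φ 1 14 19 - φ 2 7 17
      + φ 2 7 19 + φ 2 11 17 - φ 2 11 18 + φ 2 14 18 - φ 2 14 19 + φ 3 9 17 - φ 3 9 18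
      + φ 3 10 18 - φ 3 10 19 - φ 3 13 17 + φ 3 13 19 + φ 4 7 17 - φ 4 7 19 + φ 4 8 18
      - φ 4 8 20 - φ 4 10 18 + φ 4 10 19 - φ 4 12 17 + φ 4 12 20) +
      (φ 0 5 15 - φ 0 8 15 + φ 0 8 20 - φ 0 11 17 + φ 0 11 18 + φ 0 13 17 - φ 0 13 20 - φ 1 5 15
      + φ 1 9 15 - φ 1 9 17 + φ 1 12 17 - φ 1 12 20 + φ 1 14 20 - φ 2 6 15 + φ 2 6 20 + φ 2 7 15
      - φ 2 7 17 + φ 2 11 17 - φ 2 11 18 + φ 2 14 18 - φ 2 14 20 + φ 3 6 15 - φ 3 6 20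
      - φ 3 9 15 + φ 3 9 17 - φ 3 13 17 + φ 3 13 20 - φ 4 7 15 + φ 4 7 17 + φ 4 8 15 - φ 4 8 20
      - φ 4 12 17 + φ 4 12 20) = φ 1 14 20
    ring
  · change (0) -
      (-φ 0 5 16 + φ 0 5 19 + φ 0 8 15 - φ 0 8 20 + φ 0 11 16 - φ 0 13 19 + φ 0 13 20 + φ 1 5 16
      - φ 1 5 19 - φ 1 12 16 + φ 1 12 20 + φ 1 14 19 - φ 1 14 20 + φ 2 6 16 - φ 2 6 20
      - φ 2 7 15 + φ 2 7 19 - φ 2 11 16 - φ 2 14 19 + φ 2 14 20 - φ 3 6 16 + φ 3 6 20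
      + φ 3 10 16 - φ 3 10 19 + φ 3 13 19 - φ 3 13 20 + φ 4 7 15 - φ 4 7 19 - φ 4 8 15
      + φ 4 8 20 - φ 4 10 16 + φ 4 10 19 + φ 4 12 16 - φ 4 12 20) +
      (-φ 0 5 16 + φ 0 5 19 + φ 0 8 15 - φ 0 8 20 + φ 0 11 16 - φ 0 13 19 + φ 0 13 20 + φ 1 5 16
      - φ 1 5 19 - φ 1 12 16 + φ 1 12 20 + φ 1 14 19 - φ 1 14 20 + φ 2 6 15 + φ 2 6 16
      - φ 2 6 20 - φ 2 7 15 + φ 2 7 19 - φ 2 11 16 - φ 2 14 19 + φ 2 14 20 - φ 3 6 16 + φ 3 6 20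
      + φ 3 10 16 - φ 3 10 19 + φ 3 13 19 - φ 3 13 20 + φ 4 7 15 - φ 4 7 19 - φ 4 8 15
      + φ 4 8 20 - φ 4 10 16 + φ 4 10 19 + φ 4 12 16 - φ 4 12 20) = φ 2 6 15
    ring
  · change (φ 0 5 16 - φ 0 5 19 - φ 0 8 15 + φ 0 8 20 + φ 0 13 19 - φ 0 13 20 - φ 1 5 16 + φ 1 5 19
      + φ 1 12 16 - φ 1 12 20 - φ 1 14 19 + φ 1 14 20 - φ 2 6 15 + φ 2 6 20 + φ 2 7 15
      - φ 2 7 19 + φ 2 14 19 - φ 2 14 20 + φ 3 6 16 - φ 3 6 20 - φ 3 10 16 + φ 3 10 19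
      - φ 3 13 19 + φ 3 13 20 - φ 4 7 15 + φ 4 7 19 + φ 4 8 15 - φ 4 8 20 + φ 4 10 16
      - φ 4 10 19 - φ 4 12 16 + φ 4 12 20) -
      (φ 0 11 16 - φ 2 11 16) +
      (-φ 0 5 16 + φ 0 5 19 + φ 0 8 15 - φ 0 8 20 + φ 0 11 16 - φ 0 13 19 + φ 0 13 20 + φ 1 5 16
      - φ 1 5 19 - φ 1 12 16 + φ 1 12 20 + φ 1 14 19 - φ 1 14 20 + φ 2 6 15 + φ 2 6 16
      - φ 2 6 20 - φ 2 7 15 + φ 2 7 19 - φ 2 11 16 - φ 2 14 19 + φ 2 14 20 - φ 3 6 16 + φ 3 6 20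
      + φ 3 10 16 - φ 3 10 19 + φ 3 13 19 - φ 3 13 20 + φ 4 7 15 - φ 4 7 19 - φ 4 8 15
      + φ 4 8 20 - φ 4 10 16 + φ 4 10 19 + φ 4 12 16 - φ 4 12 20) = φ 2 6 16
    ring
  · change (-φ 0 5 15 + φ 0 5 16 - φ 0 8 18 + φ 0 8 20 - φ 0 11 16 + φ 0 11 18 + φ 1 5 15 - φ 1 5 16
      - φ 1 9 15 + φ 1 9 18 + φ 1 12 16 - φ 1 12 20 - φ 1 14 18 + φ 1 14 20 - φ 2 6 16
      + φ 2 6 20 + φ 2 11 16 - φ 2 11 18 + φ 2 14 18 - φ 2 14 20 - φ 3 6 15 + φ 3 6 16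
      + φ 3 9 15 - φ 3 9 18 - φ 3 10 16 + φ 3 10 18 + φ 4 8 18 - φ 4 8 20 + φ 4 10 16
      - φ 4 10 18 - φ 4 12 16 + φ 4 12 20) -
      (-φ 0 5 15 + φ 0 5 19 + φ 0 8 15 - φ 0 8 18 + φ 0 11 18 - φ 0 13 19 + φ 0 13 20 + φ 1 5 15
      - φ 1 5 19 - φ 1 9 15 + φ 1 9 18 - φ 1 14 18 + φ 1 14 19 + φ 2 6 15 - φ 2 6 20 - φ 2 7 15
      + φ 2 7 19 - φ 2 11 18 + φ 2 14 18 - φ 2 14 19 - φ 3 6 15 + φ 3 6 20 + φ 3 9 15 - φ 3 9 18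
      + φ 3 10 18 - φ 3 10 19 + φ 3 13 19 - φ 3 13 20 + φ 4 7 15 - φ 4 7 19 - φ 4 8 15
      + φ 4 8 18 - φ 4 10 18 + φ 4 10 19) +
      (-φ 0 5 16 + φ 0 5 19 + φ 0 8 15 - φ 0 8 20 + φ 0 11 16 - φ 0 13 19 + φ 0 13 20 + φ 1 5 16
      - φ 1 5 19 - φ 1 12 16 + φ 1 12 20 + φ 1 14 19 - φ 1 14 20 + φ 2 6 15 + φ 2 6 16
      - φ 2 6 20 - φ 2 7 15 + φ 2 7 19 - φ 2 11 16 - φ 2 14 19 + φ 2 14 20 - φ 3 6 16 + φ 3 6 20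
      + φ 3 10 16 - φ 3 10 19 + φ 3 13 19 - φ 3 13 20 + φ 4 7 15 - φ 4 7 19 - φ 4 8 15
      + φ 4 8 20 - φ 4 10 16 + φ 4 10 19 + φ 4 12 16 - φ 4 12 20) = φ 2 6 20
    ring
  · change (0) -
      (-φ 0 5 16 + φ 0 5 19 + φ 0 8 15 - φ 0 8 20 + φ 0 11 16 - φ 0 13 19 + φ 0 13 20 + φ 1 5 16
      - φ 1 5 19 - φ 1 12 16 + φ 1 12 20 + φ 1 14 19 - φ 1 14 20 + φ 2 6 16 - φ 2 6 20
      - φ 2 7 15 + φ 2 7 19 - φ 2 11 16 - φ 2 14 19 + φ 2 14 20 - φ 3 6 16 + φ 3 6 20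
      + φ 3 10 16 - φ 3 10 19 + φ 3 13 19 - φ 3 13 20 + φ 4 7 15 - φ 4 7 19 - φ 4 8 15
      + φ 4 8 20 - φ 4 10 16 + φ 4 10 19 + φ 4 12 16 - φ 4 12 20) +
      (-φ 0 5 16 + φ 0 5 19 + φ 0 8 15 - φ 0 8 20 + φ 0 11 16 - φ 0 13 19 + φ 0 13 20 + φ 1 5 16
      - φ 1 5 19 - φ 1 12 16 + φ 1 12 20 + φ 1 14 19 - φ 1 14 20 + φ 2 6 16 - φ 2 6 20
      + φ 2 7 19 - φ 2 11 16 - φ 2 14 19 + φ 2 14 20 - φ 3 6 16 + φ 3 6 20 + φ 3 10 16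
      - φ 3 10 19 + φ 3 13 19 - φ 3 13 20 + φ 4 7 15 - φ 4 7 19 - φ 4 8 15 + φ 4 8 20
      - φ 4 10 16 + φ 4 10 19 + φ 4 12 16 - φ 4 12 20) = φ 2 7 15
    ring
  · change (φ 0 5 16 - φ 0 5 19 - φ 0 8 15 + φ 0 8 20 - φ 0 11 16 + φ 0 11 17 + φ 0 13 19 - φ 0 13 20
      - φ 1 5 16 + φ 1 5 19 + φ 1 12 16 - φ 1 12 20 - φ 1 14 19 + φ 1 14 20 - φ 2 6 16
      + φ 2 6 20 + φ 2 7 17 - φ 2 7 19 + φ 2 11 16 - φ 2 11 17 + φ 2 14 19 - φ 2 14 20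
      + φ 3 6 16 - φ 3 6 20 - φ 3 10 16 + φ 3 10 19 - φ 3 13 19 + φ 3 13 20 - φ 4 7 15
      + φ 4 7 19 + φ 4 8 15 - φ 4 8 20 + φ 4 10 16 - φ 4 10 19 - φ 4 12 16 + φ 4 12 20) -
      (φ 0 11 17 - φ 2 11 17) +
      (-φ 0 5 16 + φ 0 5 19 + φ 0 8 15 - φ 0 8 20 + φ 0 11 16 - φ 0 13 19 + φ 0 13 20 + φ 1 5 16
      - φ 1 5 19 - φ 1 12 16 + φ 1 12 20 + φ 1 14 19 - φ 1 14 20 + φ 2 6 16 - φ 2 6 20
      + φ 2 7 19 - φ 2 11 16 - φ 2 14 19 + φ 2 14 20 - φ 3 6 16 + φ 3 6 20 + φ 3 10 16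
      - φ 3 10 19 + φ 3 13 19 - φ 3 13 20 + φ 4 7 15 - φ 4 7 19 - φ 4 8 15 + φ 4 8 20
      - φ 4 10 16 + φ 4 10 19 + φ 4 12 16 - φ 4 12 20) = φ 2 7 17
    ring
  · change (-φ 0 5 15 + φ 0 5 16 - φ 0 11 16 + φ 0 11 17 - φ 0 13 17 + φ 0 13 19 + φ 1 5 15 - φ 1 5 16
      - φ 1 9 15 + φ 1 9 17 + φ 1 12 16 - φ 1 12 17 + φ 2 6 15 - φ 2 6 16 - φ 2 7 15 + φ 2 7 17
      + φ 2 11 16 - φ 2 11 17 - φ 3 6 15 + φ 3 6 16 + φ 3 9 15 - φ 3 9 17 - φ 3 10 16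
      + φ 3 10 19 + φ 3 13 17 - φ 3 13 19 - φ 4 7 17 + φ 4 7 19 + φ 4 10 16 - φ 4 10 19
      - φ 4 12 16 + φ 4 12 17) -
      (-φ 0 5 15 + φ 0 5 19 + φ 0 8 15 - φ 0 8 20 + φ 0 11 17 - φ 0 13 17 + φ 0 13 20 + φ 1 5 15
      - φ 1 5 19 - φ 1 9 15 + φ 1 9 17 - φ 1 12 17 + φ 1 12 20 + φ 1 14 19 - φ 1 14 20
      + φ 2 6 15 - φ 2 6 20 - φ 2 7 15 + φ 2 7 17 - φ 2 11 17 - φ 2 14 19 + φ 2 14 20 - φ 3 6 15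
      + φ 3 6 20 + φ 3 9 15 - φ 3 9 17 + φ 3 13 17 - φ 3 13 20 + φ 4 7 15 - φ 4 7 17 - φ 4 8 15
      + φ 4 8 20 + φ 4 12 17 - φ 4 12 20) +
      (-φ 0 5 16 + φ 0 5 19 + φ 0 8 15 - φ 0 8 20 + φ 0 11 16 - φ 0 13 19 + φ 0 13 20 + φ 1 5 16
      - φ 1 5 19 - φ 1 12 16 + φ 1 12 20 + φ 1 14 19 - φ 1 14 20 + φ 2 6 16 - φ 2 6 20
      + φ 2 7 19 - φ 2 11 16 - φ 2 14 19 + φ 2 14 20 - φ 3 6 16 + φ 3 6 20 + φ 3 10 16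
      - φ 3 10 19 + φ 3 13 19 - φ 3 13 20 + φ 4 7 15 - φ 4 7 19 - φ 4 8 15 + φ 4 8 20
      - φ 4 10 16 + φ 4 10 19 + φ 4 12 16 - φ 4 12 20) = φ 2 7 19
    ring
  · change (φ 0 11 16) -
      (φ 0 11 16 - φ 2 11 16) +
      (0) = φ 2 11 16
    ring
  · change (φ 0 11 17) -
      (φ 0 11 17 - φ 2 11 17) +
      (0) = φ 2 11 17
    ring
  · change (φ 0 11 18) -
      (φ 0 11 18 - φ 2 11 18) +
      (0) = φ 2 11 18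
    ring
  · change (0) -
      (φ 0 11 18 - φ 2 11 18) +
      (φ 0 11 18 - φ 2 11 18 + φ 2 14 18) = φ 2 14 18
    ring
  · change (-φ 0 5 15 + φ 0 5 19 + φ 0 8 15 - φ 0 8 20 + φ 0 11 17 - φ 0 11 18 - φ 0 13 17 + φ 0 13 20
      + φ 1 5 15 - φ 1 5 19 - φ 1 9 15 + φ 1 9 17 - φ 1 12 17 + φ 1 12 20 + φ 1 14 19
      - φ 1 14 20 + φ 2 6 15 - φ 2 6 20 - φ 2 7 15 + φ 2 7 17 - φ 2 11 17 + φ 2 11 18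
      - φ 2 14 18 + φ 2 14 20 - φ 3 6 15 + φ 3 6 20 + φ 3 9 15 - φ 3 9 17 + φ 3 13 17
      - φ 3 13 20 + φ 4 7 15 - φ 4 7 17 - φ 4 8 15 + φ 4 8 20 + φ 4 12 17 - φ 4 12 20) -
      (-φ 0 5 15 + φ 0 5 19 + φ 0 8 15 - φ 0 8 20 + φ 0 11 17 - φ 0 13 17 + φ 0 13 20 + φ 1 5 15
      - φ 1 5 19 - φ 1 9 15 + φ 1 9 17 - φ 1 12 17 + φ 1 12 20 + φ 1 14 19 - φ 1 14 20
      + φ 2 6 15 - φ 2 6 20 - φ 2 7 15 + φ 2 7 17 - φ 2 11 17 - φ 2 14 19 + φ 2 14 20 - φ 3 6 15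
      + φ 3 6 20 + φ 3 9 15 - φ 3 9 17 + φ 3 13 17 - φ 3 13 20 + φ 4 7 15 - φ 4 7 17 - φ 4 8 15
      + φ 4 8 20 + φ 4 12 17 - φ 4 12 20) +
      (φ 0 11 18 - φ 2 11 18 + φ 2 14 18) = φ 2 14 19
    ring
  · change (-φ 0 5 15 + φ 0 5 19 + φ 0 8 15 - φ 0 8 18 - φ 0 13 19 + φ 0 13 20 + φ 1 5 15 - φ 1 5 19
      - φ 1 9 15 + φ 1 9 18 - φ 1 14 18 + φ 1 14 19 + φ 2 6 15 - φ 2 6 20 - φ 2 7 15 + φ 2 7 19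
      - φ 2 14 19 + φ 2 14 20 - φ 3 6 15 + φ 3 6 20 + φ 3 9 15 - φ 3 9 18 + φ 3 10 18
      - φ 3 10 19 + φ 3 13 19 - φ 3 13 20 + φ 4 7 15 - φ 4 7 19 - φ 4 8 15 + φ 4 8 18
      - φ 4 10 18 + φ 4 10 19) -
      (-φ 0 5 15 + φ 0 5 19 + φ 0 8 15 - φ 0 8 18 + φ 0 11 18 - φ 0 13 19 + φ 0 13 20 + φ 1 5 15
      - φ 1 5 19 - φ 1 9 15 + φ 1 9 18 - φ 1 14 18 + φ 1 14 19 + φ 2 6 15 - φ 2 6 20 - φ 2 7 15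
      + φ 2 7 19 - φ 2 11 18 + φ 2 14 18 - φ 2 14 19 - φ 3 6 15 + φ 3 6 20 + φ 3 9 15 - φ 3 9 18
      + φ 3 10 18 - φ 3 10 19 + φ 3 13 19 - φ 3 13 20 + φ 4 7 15 - φ 4 7 19 - φ 4 8 15
      + φ 4 8 18 - φ 4 10 18 + φ 4 10 19) +
      (φ 0 11 18 - φ 2 11 18 + φ 2 14 18) = φ 2 14 20
    ring
  · change (0) -
      (φ 0 5 15 - φ 0 5 16 + φ 0 8 18 - φ 0 8 20 + φ 0 11 16 - φ 0 11 18 + φ 0 13 20 - φ 1 5 15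
      + φ 1 5 16 + φ 1 9 15 - φ 1 9 18 - φ 1 12 16 + φ 1 12 20 + φ 1 14 18 - φ 1 14 20
      + φ 2 6 16 - φ 2 6 20 - φ 2 11 16 + φ 2 11 18 - φ 2 14 18 + φ 2 14 20 - φ 3 6 16
      + φ 3 6 20 - φ 3 9 15 + φ 3 9 18 + φ 3 10 16 - φ 3 10 18 - φ 3 13 20 - φ 4 8 18 + φ 4 8 20
      - φ 4 10 16 + φ 4 10 18 + φ 4 12 16 - φ 4 12 20) +
      (φ 0 5 15 - φ 0 5 16 + φ 0 8 18 - φ 0 8 20 + φ 0 11 16 - φ 0 11 18 + φ 0 13 20 - φ 1 5 15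
      + φ 1 5 16 + φ 1 9 15 - φ 1 9 18 - φ 1 12 16 + φ 1 12 20 + φ 1 14 18 - φ 1 14 20
      + φ 2 6 16 - φ 2 6 20 - φ 2 11 16 + φ 2 11 18 - φ 2 14 18 + φ 2 14 20 + φ 3 6 15
      - φ 3 6 16 + φ 3 6 20 - φ 3 9 15 + φ 3 9 18 + φ 3 10 16 - φ 3 10 18 - φ 3 13 20 - φ 4 8 18
      + φ 4 8 20 - φ 4 10 16 + φ 4 10 18 + φ 4 12 16 - φ 4 12 20) = φ 3 6 15
    ring
  · change (φ 0 5 16 - φ 0 5 19 - φ 0 8 15 + φ 0 8 20 + φ 0 13 19 - φ 0 13 20 - φ 1 5 16 + φ 1 5 19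
      + φ 1 12 16 - φ 1 12 20 - φ 1 14 19 + φ 1 14 20 - φ 2 6 15 + φ 2 6 20 + φ 2 7 15
      - φ 2 7 19 + φ 2 14 19 - φ 2 14 20 + φ 3 6 16 - φ 3 6 20 - φ 3 10 16 + φ 3 10 19
      - φ 3 13 19 + φ 3 13 20 - φ 4 7 15 + φ 4 7 19 + φ 4 8 15 - φ 4 8 20 + φ 4 10 16
      - φ 4 10 19 - φ 4 12 16 + φ 4 12 20) -
      (φ 0 5 15 - φ 0 5 19 - φ 0 8 15 + φ 0 8 18 + φ 0 11 16 - φ 0 11 18 + φ 0 13 19 - φ 1 5 15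
      + φ 1 5 19 + φ 1 9 15 - φ 1 9 18 + φ 1 14 18 - φ 1 14 19 - φ 2 6 15 + φ 2 6 16 + φ 2 7 15
      - φ 2 7 19 - φ 2 11 16 + φ 2 11 18 - φ 2 14 18 + φ 2 14 19 + φ 3 6 15 - φ 3 6 16
      - φ 3 9 15 + φ 3 9 18 - φ 3 10 18 + φ 3 10 19 - φ 3 13 19 - φ 4 7 15 + φ 4 7 19 + φ 4 8 15
      - φ 4 8 18 + φ 4 10 18 - φ 4 10 19) +
      (φ 0 5 15 - φ 0 5 16 + φ 0 8 18 - φ 0 8 20 + φ 0 11 16 - φ 0 11 18 + φ 0 13 20 - φ 1 5 15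
      + φ 1 5 16 + φ 1 9 15 - φ 1 9 18 - φ 1 12 16 + φ 1 12 20 + φ 1 14 18 - φ 1 14 20
      + φ 2 6 16 - φ 2 6 20 - φ 2 11 16 + φ 2 11 18 - φ 2 14 18 + φ 2 14 20 + φ 3 6 15
      - φ 3 6 16 + φ 3 6 20 - φ 3 9 15 + φ 3 9 18 + φ 3 10 16 - φ 3 10 18 - φ 3 13 20 - φ 4 8 18
      + φ 4 8 20 - φ 4 10 16 + φ 4 10 18 + φ 4 12 16 - φ 4 12 20) = φ 3 6 16
    ring
  · change (-φ 0 5 15 + φ 0 5 16 - φ 0 8 18 + φ 0 8 20 - φ 0 11 16 + φ 0 11 18 + φ 1 5 15 - φ 1 5 16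
      - φ 1 9 15 + φ 1 9 18 + φ 1 12 16 - φ 1 12 20 - φ 1 14 18 + φ 1 14 20 - φ 2 6 16
      + φ 2 6 20 + φ 2 11 16 - φ 2 11 18 + φ 2 14 18 - φ 2 14 20 - φ 3 6 15 + φ 3 6 16
      + φ 3 9 15 - φ 3 9 18 - φ 3 10 16 + φ 3 10 18 + φ 4 8 18 - φ 4 8 20 + φ 4 10 16
      - φ 4 10 18 - φ 4 12 16 + φ 4 12 20) -
      (φ 0 13 20 - φ 3 13 20) +
      (φ 0 5 15 - φ 0 5 16 + φ 0 8 18 - φ 0 8 20 + φ 0 11 16 - φ 0 11 18 + φ 0 13 20 - φ 1 5 15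
      + φ 1 5 16 + φ 1 9 15 - φ 1 9 18 - φ 1 12 16 + φ 1 12 20 + φ 1 14 18 - φ 1 14 20
      + φ 2 6 16 - φ 2 6 20 - φ 2 11 16 + φ 2 11 18 - φ 2 14 18 + φ 2 14 20 + φ 3 6 15
      - φ 3 6 16 + φ 3 6 20 - φ 3 9 15 + φ 3 9 18 + φ 3 10 16 - φ 3 10 18 - φ 3 13 20 - φ 4 8 18
      + φ 4 8 20 - φ 4 10 16 + φ 4 10 18 + φ 4 12 16 - φ 4 12 20) = φ 3 6 20
    ring
  · change (0) -
      (φ 0 5 15 - φ 0 5 16 + φ 0 8 18 - φ 0 8 20 + φ 0 11 16 - φ 0 11 18 + φ 0 13 20 - φ 1 5 15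
      + φ 1 5 16 + φ 1 9 15 - φ 1 9 18 - φ 1 12 16 + φ 1 12 20 + φ 1 14 18 - φ 1 14 20
      + φ 2 6 16 - φ 2 6 20 - φ 2 11 16 + φ 2 11 18 - φ 2 14 18 + φ 2 14 20 - φ 3 6 16
      + φ 3 6 20 - φ 3 9 15 + φ 3 9 18 + φ 3 10 16 - φ 3 10 18 - φ 3 13 20 - φ 4 8 18 + φ 4 8 20
      - φ 4 10 16 + φ 4 10 18 + φ 4 12 16 - φ 4 12 20) +
      (φ 0 5 15 - φ 0 5 16 + φ 0 8 18 - φ 0 8 20 + φ 0 11 16 - φ 0 11 18 + φ 0 13 20 - φ 1 5 15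
      + φ 1 5 16 + φ 1 9 15 - φ 1 9 18 - φ 1 12 16 + φ 1 12 20 + φ 1 14 18 - φ 1 14 20
      + φ 2 6 16 - φ 2 6 20 - φ 2 11 16 + φ 2 11 18 - φ 2 14 18 + φ 2 14 20 - φ 3 6 16
      + φ 3 6 20 + φ 3 9 18 + φ 3 10 16 - φ 3 10 18 - φ 3 13 20 - φ 4 8 18 + φ 4 8 20
      - φ 4 10 16 + φ 4 10 18 + φ 4 12 16 - φ 4 12 20) = φ 3 9 15
    ring
  · change (-φ 0 5 15 + φ 0 5 16 - φ 0 8 18 + φ 0 8 20 - φ 0 11 16 + φ 0 11 18 + φ 0 13 17 - φ 0 13 20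
      + φ 1 5 15 - φ 1 5 16 - φ 1 9 15 + φ 1 9 18 + φ 1 12 16 - φ 1 12 20 - φ 1 14 18
      + φ 1 14 20 - φ 2 6 16 + φ 2 6 20 + φ 2 11 16 - φ 2 11 18 + φ 2 14 18 - φ 2 14 20
      + φ 3 6 16 - φ 3 6 20 + φ 3 9 17 - φ 3 9 18 - φ 3 10 16 + φ 3 10 18 - φ 3 13 17
      + φ 3 13 20 + φ 4 8 18 - φ 4 8 20 + φ 4 10 16 - φ 4 10 18 - φ 4 12 16 + φ 4 12 20) -
      (φ 0 13 17 - φ 3 13 17) +
      (φ 0 5 15 - φ 0 5 16 + φ 0 8 18 - φ 0 8 20 + φ 0 11 16 - φ 0 11 18 + φ 0 13 20 - φ 1 5 15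
      + φ 1 5 16 + φ 1 9 15 - φ 1 9 18 - φ 1 12 16 + φ 1 12 20 + φ 1 14 18 - φ 1 14 20
      + φ 2 6 16 - φ 2 6 20 - φ 2 11 16 + φ 2 11 18 - φ 2 14 18 + φ 2 14 20 - φ 3 6 16
      + φ 3 6 20 + φ 3 9 18 + φ 3 10 16 - φ 3 10 18 - φ 3 13 20 - φ 4 8 18 + φ 4 8 20
      - φ 4 10 16 + φ 4 10 18 + φ 4 12 16 - φ 4 12 20) = φ 3 9 17
    ring
  · change (-φ 0 8 15 + φ 0 8 20 - φ 0 11 17 + φ 0 11 18 + φ 0 13 17 - φ 0 13 20 - φ 1 9 17 + φ 1 9 18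
      + φ 1 12 17 - φ 1 12 20 - φ 1 14 18 + φ 1 14 20 - φ 2 6 15 + φ 2 6 20 + φ 2 7 15
      - φ 2 7 17 + φ 2 11 17 - φ 2 11 18 + φ 2 14 18 - φ 2 14 20 + φ 3 6 15 - φ 3 6 20
      - φ 3 9 15 + φ 3 9 17 - φ 3 13 17 + φ 3 13 20 - φ 4 7 15 + φ 4 7 17 + φ 4 8 15 - φ 4 8 20
      - φ 4 12 17 + φ 4 12 20) -
      (φ 0 5 15 - φ 0 5 16 - φ 0 8 15 + φ 0 8 18 + φ 0 11 16 - φ 0 11 17 + φ 0 13 17 - φ 1 5 15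
      + φ 1 5 16 + φ 1 9 15 - φ 1 9 17 - φ 1 12 16 + φ 1 12 17 - φ 2 6 15 + φ 2 6 16 + φ 2 7 15
      - φ 2 7 17 - φ 2 11 16 + φ 2 11 17 + φ 3 6 15 - φ 3 6 16 - φ 3 9 15 + φ 3 9 17 + φ 3 10 16
      - φ 3 10 18 - φ 3 13 17 - φ 4 7 15 + φ 4 7 17 + φ 4 8 15 - φ 4 8 18 - φ 4 10 16
      + φ 4 10 18 + φ 4 12 16 - φ 4 12 17) +
      (φ 0 5 15 - φ 0 5 16 + φ 0 8 18 - φ 0 8 20 + φ 0 11 16 - φ 0 11 18 + φ 0 13 20 - φ 1 5 15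
      + φ 1 5 16 + φ 1 9 15 - φ 1 9 18 - φ 1 12 16 + φ 1 12 20 + φ 1 14 18 - φ 1 14 20
      + φ 2 6 16 - φ 2 6 20 - φ 2 11 16 + φ 2 11 18 - φ 2 14 18 + φ 2 14 20 - φ 3 6 16
      + φ 3 6 20 + φ 3 9 18 + φ 3 10 16 - φ 3 10 18 - φ 3 13 20 - φ 4 8 18 + φ 4 8 20
      - φ 4 10 16 + φ 4 10 18 + φ 4 12 16 - φ 4 12 20) = φ 3 9 18
    ring
  · change (0) -
      (φ 0 5 15 - φ 0 5 19 - φ 0 8 15 + φ 0 8 18 + φ 0 11 16 - φ 0 11 18 + φ 0 13 19 - φ 1 5 15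
      + φ 1 5 19 + φ 1 9 15 - φ 1 9 18 + φ 1 14 18 - φ 1 14 19 - φ 2 6 15 + φ 2 6 16 + φ 2 7 15
      - φ 2 7 19 - φ 2 11 16 + φ 2 11 18 - φ 2 14 18 + φ 2 14 19 + φ 3 6 15 - φ 3 6 16
      - φ 3 9 15 + φ 3 9 18 - φ 3 10 18 + φ 3 10 19 - φ 3 13 19 - φ 4 7 15 + φ 4 7 19 + φ 4 8 15
      - φ 4 8 18 + φ 4 10 18 - φ 4 10 19) +
      (φ 0 5 15 - φ 0 5 19 - φ 0 8 15 + φ 0 8 18 + φ 0 11 16 - φ 0 11 18 + φ 0 13 19 - φ 1 5 15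
      + φ 1 5 19 + φ 1 9 15 - φ 1 9 18 + φ 1 14 18 - φ 1 14 19 - φ 2 6 15 + φ 2 6 16 + φ 2 7 15
      - φ 2 7 19 - φ 2 11 16 + φ 2 11 18 - φ 2 14 18 + φ 2 14 19 + φ 3 6 15 - φ 3 6 16
      - φ 3 9 15 + φ 3 9 18 + φ 3 10 16 - φ 3 10 18 + φ 3 10 19 - φ 3 13 19 - φ 4 7 15
      + φ 4 7 19 + φ 4 8 15 - φ 4 8 18 + φ 4 10 18 - φ 4 10 19) = φ 3 10 16
    ring
  · change (-φ 0 5 16 + φ 0 5 19 - φ 0 11 17 + φ 0 11 18 + φ 0 13 17 - φ 0 13 19 + φ 1 5 16 - φ 1 5 19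
      - φ 1 9 17 + φ 1 9 18 - φ 1 12 16 + φ 1 12 17 - φ 1 14 18 + φ 1 14 19 - φ 2 7 17
      + φ 2 7 19 + φ 2 11 17 - φ 2 11 18 + φ 2 14 18 - φ 2 14 19 + φ 3 9 17 - φ 3 9 18
      + φ 3 10 18 - φ 3 10 19 - φ 3 13 17 + φ 3 13 19 + φ 4 7 17 - φ 4 7 19 - φ 4 10 16
      + φ 4 10 19 + φ 4 12 16 - φ 4 12 17) -
      (φ 0 5 15 - φ 0 5 16 - φ 0 8 15 + φ 0 8 18 + φ 0 11 16 - φ 0 11 17 + φ 0 13 17 - φ 1 5 15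
      + φ 1 5 16 + φ 1 9 15 - φ 1 9 17 - φ 1 12 16 + φ 1 12 17 - φ 2 6 15 + φ 2 6 16 + φ 2 7 15
      - φ 2 7 17 - φ 2 11 16 + φ 2 11 17 + φ 3 6 15 - φ 3 6 16 - φ 3 9 15 + φ 3 9 17 + φ 3 10 16
      - φ 3 10 18 - φ 3 13 17 - φ 4 7 15 + φ 4 7 17 + φ 4 8 15 - φ 4 8 18 - φ 4 10 16
      + φ 4 10 18 + φ 4 12 16 - φ 4 12 17) +
      (φ 0 5 15 - φ 0 5 19 - φ 0 8 15 + φ 0 8 18 + φ 0 11 16 - φ 0 11 18 + φ 0 13 19 - φ 1 5 15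
      + φ 1 5 19 + φ 1 9 15 - φ 1 9 18 + φ 1 14 18 - φ 1 14 19 - φ 2 6 15 + φ 2 6 16 + φ 2 7 15
      - φ 2 7 19 - φ 2 11 16 + φ 2 11 18 - φ 2 14 18 + φ 2 14 19 + φ 3 6 15 - φ 3 6 16
      - φ 3 9 15 + φ 3 9 18 + φ 3 10 16 - φ 3 10 18 + φ 3 10 19 - φ 3 13 19 - φ 4 7 15
      + φ 4 7 19 + φ 4 8 15 - φ 4 8 18 + φ 4 10 18 - φ 4 10 19) = φ 3 10 18
    ring
  · change (-φ 0 5 15 + φ 0 5 19 + φ 0 8 15 - φ 0 8 18 - φ 0 11 16 + φ 0 11 18 + φ 1 5 15 - φ 1 5 19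
      - φ 1 9 15 + φ 1 9 18 - φ 1 14 18 + φ 1 14 19 + φ 2 6 15 - φ 2 6 16 - φ 2 7 15 + φ 2 7 19
      + φ 2 11 16 - φ 2 11 18 + φ 2 14 18 - φ 2 14 19 - φ 3 6 15 + φ 3 6 16 + φ 3 9 15
      - φ 3 9 18 - φ 3 10 16 + φ 3 10 18 + φ 4 7 15 - φ 4 7 19 - φ 4 8 15 + φ 4 8 18 - φ 4 10 18
      + φ 4 10 19) -
      (φ 0 13 19 - φ 3 13 19) +
      (φ 0 5 15 - φ 0 5 19 - φ 0 8 15 + φ 0 8 18 + φ 0 11 16 - φ 0 11 18 + φ 0 13 19 - φ 1 5 15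
      + φ 1 5 19 + φ 1 9 15 - φ 1 9 18 + φ 1 14 18 - φ 1 14 19 - φ 2 6 15 + φ 2 6 16 + φ 2 7 15
      - φ 2 7 19 - φ 2 11 16 + φ 2 11 18 - φ 2 14 18 + φ 2 14 19 + φ 3 6 15 - φ 3 6 16
      - φ 3 9 15 + φ 3 9 18 + φ 3 10 16 - φ 3 10 18 + φ 3 10 19 - φ 3 13 19 - φ 4 7 15
      + φ 4 7 19 + φ 4 8 15 - φ 4 8 18 + φ 4 10 18 - φ 4 10 19) = φ 3 10 19
    ring
  · change (φ 0 13 17) -
      (φ 0 13 17 - φ 3 13 17) +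
      (0) = φ 3 13 17
    ring
  · change (φ 0 13 19) -
      (φ 0 13 19 - φ 3 13 19) +
      (0) = φ 3 13 19
    ring
  · change (φ 0 13 20) -
      (φ 0 13 20 - φ 3 13 20) +
      (0) = φ 3 13 20
    ring
  · change (0) -
      (φ 0 8 15 - φ 4 8 15) +
      (φ 0 8 15 + φ 4 7 15 - φ 4 8 15) = φ 4 7 15
    ring
  · change (φ 0 5 16 - φ 0 5 19 - φ 0 8 15 + φ 0 8 20 - φ 0 11 16 + φ 0 11 17 + φ 0 13 19 - φ 0 13 20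
      - φ 1 5 16 + φ 1 5 19 + φ 1 12 16 - φ 1 12 20 - φ 1 14 19 + φ 1 14 20 - φ 2 6 16
      + φ 2 6 20 + φ 2 7 17 - φ 2 7 19 + φ 2 11 16 - φ 2 11 17 + φ 2 14 19 - φ 2 14 20
      + φ 3 6 16 - φ 3 6 20 - φ 3 10 16 + φ 3 10 19 - φ 3 13 19 + φ 3 13 20 - φ 4 7 15
      + φ 4 7 19 + φ 4 8 15 - φ 4 8 20 + φ 4 10 16 - φ 4 10 19 - φ 4 12 16 + φ 4 12 20) -
      (φ 0 5 16 - φ 0 5 19 + φ 0 8 20 - φ 0 11 16 + φ 0 11 17 + φ 0 13 19 - φ 0 13 20 - φ 1 5 16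
      + φ 1 5 19 + φ 1 12 16 - φ 1 12 20 - φ 1 14 19 + φ 1 14 20 - φ 2 6 16 + φ 2 6 20
      + φ 2 7 17 - φ 2 7 19 + φ 2 11 16 - φ 2 11 17 + φ 2 14 19 - φ 2 14 20 + φ 3 6 16
      - φ 3 6 20 - φ 3 10 16 + φ 3 10 19 - φ 3 13 19 + φ 3 13 20 - φ 4 7 17 + φ 4 7 19
      - φ 4 8 20 + φ 4 10 16 - φ 4 10 19 - φ 4 12 16 + φ 4 12 20) +
      (φ 0 8 15 + φ 4 7 15 - φ 4 8 15) = φ 4 7 17
    ring
  · change (-φ 0 5 15 + φ 0 5 16 - φ 0 11 16 + φ 0 11 17 - φ 0 13 17 + φ 0 13 19 + φ 1 5 15 - φ 1 5 16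
      - φ 1 9 15 + φ 1 9 17 + φ 1 12 16 - φ 1 12 17 + φ 2 6 15 - φ 2 6 16 - φ 2 7 15 + φ 2 7 17
      + φ 2 11 16 - φ 2 11 17 - φ 3 6 15 + φ 3 6 16 + φ 3 9 15 - φ 3 9 17 - φ 3 10 16
      + φ 3 10 19 + φ 3 13 17 - φ 3 13 19 - φ 4 7 17 + φ 4 7 19 + φ 4 10 16 - φ 4 10 19
      - φ 4 12 16 + φ 4 12 17) -
      (-φ 0 5 15 + φ 0 5 16 + φ 0 8 15 - φ 0 11 16 + φ 0 11 17 - φ 0 13 17 + φ 0 13 19 + φ 1 5 15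
      - φ 1 5 16 - φ 1 9 15 + φ 1 9 17 + φ 1 12 16 - φ 1 12 17 + φ 2 6 15 - φ 2 6 16 - φ 2 7 15
      + φ 2 7 17 + φ 2 11 16 - φ 2 11 17 - φ 3 6 15 + φ 3 6 16 + φ 3 9 15 - φ 3 9 17 - φ 3 10 16
      + φ 3 10 19 + φ 3 13 17 - φ 3 13 19 + φ 4 7 15 - φ 4 7 17 - φ 4 8 15 + φ 4 10 16
      - φ 4 10 19 - φ 4 12 16 + φ 4 12 17) +
      (φ 0 8 15 + φ 4 7 15 - φ 4 8 15) = φ 4 7 19
    ring
  · change (φ 0 8 15) -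
      (φ 0 8 15 - φ 4 8 15) +
      (0) = φ 4 8 15
    ring
  · change (φ 0 8 18) -
      (φ 0 8 18 - φ 4 8 18) +
      (0) = φ 4 8 18
    ring
  · change (φ 0 8 20) -
      (φ 0 8 20 - φ 4 8 20) +
      (0) = φ 4 8 20
    ring
  · change (0) -
      (φ 0 5 16 - φ 0 5 19 + φ 0 8 18 + φ 0 11 17 - φ 0 11 18 - φ 0 13 17 + φ 0 13 19 - φ 1 5 16
      + φ 1 5 19 + φ 1 9 17 - φ 1 9 18 + φ 1 12 16 - φ 1 12 17 + φ 1 14 18 - φ 1 14 19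
      + φ 2 7 17 - φ 2 7 19 - φ 2 11 17 + φ 2 11 18 - φ 2 14 18 + φ 2 14 19 - φ 3 9 17
      + φ 3 9 18 - φ 3 10 18 + φ 3 10 19 + φ 3 13 17 - φ 3 13 19 - φ 4 7 17 + φ 4 7 19
      - φ 4 8 18 + φ 4 10 18 - φ 4 10 19 - φ 4 12 16 + φ 4 12 17) +
      (φ 0 5 16 - φ 0 5 19 + φ 0 8 18 + φ 0 11 17 - φ 0 11 18 - φ 0 13 17 + φ 0 13 19 - φ 1 5 16
      + φ 1 5 19 + φ 1 9 17 - φ 1 9 18 + φ 1 12 16 - φ 1 12 17 + φ 1 14 18 - φ 1 14 19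
      + φ 2 7 17 - φ 2 7 19 - φ 2 11 17 + φ 2 11 18 - φ 2 14 18 + φ 2 14 19 - φ 3 9 17
      + φ 3 9 18 - φ 3 10 18 + φ 3 10 19 + φ 3 13 17 - φ 3 13 19 - φ 4 7 17 + φ 4 7 19
      - φ 4 8 18 + φ 4 10 16 + φ 4 10 18 - φ 4 10 19 - φ 4 12 16 + φ 4 12 17) = φ 4 10 16
    ring
  · change (-φ 0 5 16 + φ 0 5 19 - φ 0 11 17 + φ 0 11 18 + φ 0 13 17 - φ 0 13 19 + φ 1 5 16 - φ 1 5 19
      - φ 1 9 17 + φ 1 9 18 - φ 1 12 16 + φ 1 12 17 - φ 1 14 18 + φ 1 14 19 - φ 2 7 17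
      + φ 2 7 19 + φ 2 11 17 - φ 2 11 18 + φ 2 14 18 - φ 2 14 19 + φ 3 9 17 - φ 3 9 18
      + φ 3 10 18 - φ 3 10 19 - φ 3 13 17 + φ 3 13 19 + φ 4 7 17 - φ 4 7 19 - φ 4 10 16
      + φ 4 10 19 + φ 4 12 16 - φ 4 12 17) -
      (φ 0 8 18 - φ 4 8 18) +
      (φ 0 5 16 - φ 0 5 19 + φ 0 8 18 + φ 0 11 17 - φ 0 11 18 - φ 0 13 17 + φ 0 13 19 - φ 1 5 16
      + φ 1 5 19 + φ 1 9 17 - φ 1 9 18 + φ 1 12 16 - φ 1 12 17 + φ 1 14 18 - φ 1 14 19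
      + φ 2 7 17 - φ 2 7 19 - φ 2 11 17 + φ 2 11 18 - φ 2 14 18 + φ 2 14 19 - φ 3 9 17
      + φ 3 9 18 - φ 3 10 18 + φ 3 10 19 + φ 3 13 17 - φ 3 13 19 - φ 4 7 17 + φ 4 7 19
      - φ 4 8 18 + φ 4 10 16 + φ 4 10 18 - φ 4 10 19 - φ 4 12 16 + φ 4 12 17) = φ 4 10 18
    ring
  · change (-φ 0 5 15 + φ 0 5 19 + φ 0 8 15 - φ 0 8 18 - φ 0 11 16 + φ 0 11 18 + φ 1 5 15 - φ 1 5 19
      - φ 1 9 15 + φ 1 9 18 - φ 1 14 18 + φ 1 14 19 + φ 2 6 15 - φ 2 6 16 - φ 2 7 15 + φ 2 7 19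
      + φ 2 11 16 - φ 2 11 18 + φ 2 14 18 - φ 2 14 19 - φ 3 6 15 + φ 3 6 16 + φ 3 9 15
      - φ 3 9 18 - φ 3 10 16 + φ 3 10 18 + φ 4 7 15 - φ 4 7 19 - φ 4 8 15 + φ 4 8 18 - φ 4 10 18
      + φ 4 10 19) -
      (-φ 0 5 15 + φ 0 5 16 + φ 0 8 15 - φ 0 11 16 + φ 0 11 17 - φ 0 13 17 + φ 0 13 19 + φ 1 5 15
      - φ 1 5 16 - φ 1 9 15 + φ 1 9 17 + φ 1 12 16 - φ 1 12 17 + φ 2 6 15 - φ 2 6 16 - φ 2 7 15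
      + φ 2 7 17 + φ 2 11 16 - φ 2 11 17 - φ 3 6 15 + φ 3 6 16 + φ 3 9 15 - φ 3 9 17 - φ 3 10 16
      + φ 3 10 19 + φ 3 13 17 - φ 3 13 19 + φ 4 7 15 - φ 4 7 17 - φ 4 8 15 + φ 4 10 16
      - φ 4 10 19 - φ 4 12 16 + φ 4 12 17) +
      (φ 0 5 16 - φ 0 5 19 + φ 0 8 18 + φ 0 11 17 - φ 0 11 18 - φ 0 13 17 + φ 0 13 19 - φ 1 5 16
      + φ 1 5 19 + φ 1 9 17 - φ 1 9 18 + φ 1 12 16 - φ 1 12 17 + φ 1 14 18 - φ 1 14 19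
      + φ 2 7 17 - φ 2 7 19 - φ 2 11 17 + φ 2 11 18 - φ 2 14 18 + φ 2 14 19 - φ 3 9 17
      + φ 3 9 18 - φ 3 10 18 + φ 3 10 19 + φ 3 13 17 - φ 3 13 19 - φ 4 7 17 + φ 4 7 19
      - φ 4 8 18 + φ 4 10 16 + φ 4 10 18 - φ 4 10 19 - φ 4 12 16 + φ 4 12 17) = φ 4 10 19
    ring
  · change (0) -
      (φ 0 5 16 - φ 0 5 19 + φ 0 8 18 + φ 0 11 17 - φ 0 11 18 - φ 0 13 17 + φ 0 13 19 - φ 1 5 16
      + φ 1 5 19 + φ 1 9 17 - φ 1 9 18 + φ 1 12 16 - φ 1 12 17 + φ 1 14 18 - φ 1 14 19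
      + φ 2 7 17 - φ 2 7 19 - φ 2 11 17 + φ 2 11 18 - φ 2 14 18 + φ 2 14 19 - φ 3 9 17
      + φ 3 9 18 - φ 3 10 18 + φ 3 10 19 + φ 3 13 17 - φ 3 13 19 - φ 4 7 17 + φ 4 7 19
      - φ 4 8 18 + φ 4 10 18 - φ 4 10 19 - φ 4 12 16 + φ 4 12 17) +
      (φ 0 5 16 - φ 0 5 19 + φ 0 8 18 + φ 0 11 17 - φ 0 11 18 - φ 0 13 17 + φ 0 13 19 - φ 1 5 16
      + φ 1 5 19 + φ 1 9 17 - φ 1 9 18 + φ 1 12 16 - φ 1 12 17 + φ 1 14 18 - φ 1 14 19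
      + φ 2 7 17 - φ 2 7 19 - φ 2 11 17 + φ 2 11 18 - φ 2 14 18 + φ 2 14 19 - φ 3 9 17
      + φ 3 9 18 - φ 3 10 18 + φ 3 10 19 + φ 3 13 17 - φ 3 13 19 - φ 4 7 17 + φ 4 7 19
      - φ 4 8 18 + φ 4 10 18 - φ 4 10 19 + φ 4 12 17) = φ 4 12 16
    ring
  · change (-φ 0 8 18 + φ 0 8 20 - φ 0 11 16 + φ 0 11 18 + φ 0 13 17 - φ 0 13 20 - φ 1 9 17 + φ 1 9 18
      + φ 1 12 17 - φ 1 12 20 - φ 1 14 18 + φ 1 14 20 - φ 2 6 16 + φ 2 6 20 + φ 2 11 16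
      - φ 2 11 18 + φ 2 14 18 - φ 2 14 20 + φ 3 6 16 - φ 3 6 20 + φ 3 9 17 - φ 3 9 18
      - φ 3 10 16 + φ 3 10 18 - φ 3 13 17 + φ 3 13 20 + φ 4 8 18 - φ 4 8 20 + φ 4 10 16
      - φ 4 10 18 - φ 4 12 16 + φ 4 12 20) -
      (φ 0 5 16 - φ 0 5 19 + φ 0 8 20 - φ 0 11 16 + φ 0 11 17 + φ 0 13 19 - φ 0 13 20 - φ 1 5 16
      + φ 1 5 19 + φ 1 12 16 - φ 1 12 20 - φ 1 14 19 + φ 1 14 20 - φ 2 6 16 + φ 2 6 20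
      + φ 2 7 17 - φ 2 7 19 + φ 2 11 16 - φ 2 11 17 + φ 2 14 19 - φ 2 14 20 + φ 3 6 16
      - φ 3 6 20 - φ 3 10 16 + φ 3 10 19 - φ 3 13 19 + φ 3 13 20 - φ 4 7 17 + φ 4 7 19
      - φ 4 8 20 + φ 4 10 16 - φ 4 10 19 - φ 4 12 16 + φ 4 12 20) +
      (φ 0 5 16 - φ 0 5 19 + φ 0 8 18 + φ 0 11 17 - φ 0 11 18 - φ 0 13 17 + φ 0 13 19 - φ 1 5 16
      + φ 1 5 19 + φ 1 9 17 - φ 1 9 18 + φ 1 12 16 - φ 1 12 17 + φ 1 14 18 - φ 1 14 19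
      + φ 2 7 17 - φ 2 7 19 - φ 2 11 17 + φ 2 11 18 - φ 2 14 18 + φ 2 14 19 - φ 3 9 17
      + φ 3 9 18 - φ 3 10 18 + φ 3 10 19 + φ 3 13 17 - φ 3 13 19 - φ 4 7 17 + φ 4 7 19
      - φ 4 8 18 + φ 4 10 18 - φ 4 10 19 + φ 4 12 17) = φ 4 12 17
    ring
  · change (-φ 0 5 16 + φ 0 5 19 - φ 0 8 18 + φ 0 8 20 - φ 0 11 17 + φ 0 11 18 + φ 0 13 17 - φ 0 13 19
      + φ 1 5 16 - φ 1 5 19 - φ 1 9 17 + φ 1 9 18 - φ 1 12 16 + φ 1 12 17 - φ 1 14 18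
      + φ 1 14 19 - φ 2 7 17 + φ 2 7 19 + φ 2 11 17 - φ 2 11 18 + φ 2 14 18 - φ 2 14 19
      + φ 3 9 17 - φ 3 9 18 + φ 3 10 18 - φ 3 10 19 - φ 3 13 17 + φ 3 13 19 + φ 4 7 17
      - φ 4 7 19 + φ 4 8 18 - φ 4 8 20 - φ 4 10 18 + φ 4 10 19 - φ 4 12 17 + φ 4 12 20) -
      (φ 0 8 20 - φ 4 8 20) +
      (φ 0 5 16 - φ 0 5 19 + φ 0 8 18 + φ 0 11 17 - φ 0 11 18 - φ 0 13 17 + φ 0 13 19 - φ 1 5 16
      + φ 1 5 19 + φ 1 9 17 - φ 1 9 18 + φ 1 12 16 - φ 1 12 17 + φ 1 14 18 - φ 1 14 19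
      + φ 2 7 17 - φ 2 7 19 - φ 2 11 17 + φ 2 11 18 - φ 2 14 18 + φ 2 14 19 - φ 3 9 17
      + φ 3 9 18 - φ 3 10 18 + φ 3 10 19 + φ 3 13 17 - φ 3 13 19 - φ 4 7 17 + φ 4 7 19
      - φ 4 8 18 + φ 4 10 18 - φ 4 10 19 + φ 4 12 17) = φ 4 12 20
    ring

/-- The primitive of a 1-cocycle. -/
def kN (f : Fin 21 → Fin 21 → ℤ) : ℕ → ℤ
  | 1 => f 0 5 - f 1 5
  | 2 => f 0 11 - f 2 11
  | 3 => f 0 13 - f 3 13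
  | 4 => f 0 8 - f 4 8
  | 5 => f 0 5
  | 6 => f 0 15 - f 6 15
  | 7 => f 0 15 - f 7 15
  | 8 => f 0 8
  | 9 => f 0 15 - f 9 15
  | 10 => f 0 16 - f 10 16
  | 11 => f 0 11
  | 12 => f 0 16 - f 12 16
  | 13 => f 0 13
  | 14 => f 0 18 - f 14 18
  | 15 => f 0 15
  | 16 => f 0 16
  | 17 => f 0 17
  | 18 => f 0 18
  | 19 => f 0 19
  | 20 => f 0 20
  | _ => 0

theorem h1 (f : Fin 21 → Fin 21 → ℤ) (hf : ∀ a b c, a < b → b < c → Gr.Adj a b → Gr.Adj b c →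
    Gr.Adj a c → f b c - f a c + f a b = 0) :
    ∃ k : Fin 21 → ℤ, ∀ a b, a < b → Gr.Adj a b → f a b = k b - k a := by
  have hf' : ∀ a b c : Fin 21, (decide (a < b) && decide (b < c) && adjB a b && adjB b c &&
      adjB a c) = true → f b c - f a c + f a b = 0 := fun a b c h => by
    simp only [Bool.and_eq_true, decide_eq_true_eq] at h
    exact hf a b c h.1.1.1.1 h.1.1.1.2 h.1.1.2 h.1.2 h.2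
  have e0 := hf' 0 5 15 (by decide +kernel)
  have e1 := hf' 0 5 16 (by decide +kernel)
  have e2 := hf' 0 5 19 (by decide +kernel)
  have e3 := hf' 0 8 15 (by decide +kernel)
  have e4 := hf' 0 8 18 (by decide +kernel)
  have e5 := hf' 0 8 20 (by decide +kernel)
  have e6 := hf' 0 11 16 (by decide +kernel)
  have e7 := hf' 0 11 17 (by decide +kernel)
  have e8 := hf' 0 11 18 (by decide +kernel)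
  have e9 := hf' 0 13 17 (by decide +kernel)
  have e10 := hf' 0 13 19 (by decide +kernel)
  have e11 := hf' 0 13 20 (by decide +kernel)
  have e12 := hf' 1 5 15 (by decide +kernel)
  have e13 := hf' 1 5 16 (by decide +kernel)
  have e14 := hf' 1 5 19 (by decide +kernel)
  have e15 := hf' 1 9 15 (by decide +kernel)
  have e16 := hf' 1 9 17 (by decide +kernel)
  have e17 := hf' 1 9 18 (by decide +kernel)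
  have e18 := hf' 1 12 16 (by decide +kernel)
  have e19 := hf' 1 12 17 (by decide +kernel)
  have e20 := hf' 1 12 20 (by decide +kernel)
  have e21 := hf' 1 14 18 (by decide +kernel)
  have e22 := hf' 1 14 19 (by decide +kernel)
  have e23 := hf' 1 14 20 (by decide +kernel)
  have e24 := hf' 2 6 15 (by decide +kernel)
  have e25 := hf' 2 6 16 (by decide +kernel)
  have e26 := hf' 2 6 20 (by decide +kernel)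
  have e27 := hf' 2 7 15 (by decide +kernel)
  have e28 := hf' 2 7 17 (by decide +kernel)
  have e29 := hf' 2 7 19 (by decide +kernel)
  have e30 := hf' 2 11 16 (by decide +kernel)
  have e31 := hf' 2 11 17 (by decide +kernel)
  have e32 := hf' 2 11 18 (by decide +kernel)
  have e33 := hf' 2 14 18 (by decide +kernel)
  have e34 := hf' 2 14 19 (by decide +kernel)
  have e35 := hf' 2 14 20 (by decide +kernel)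
  have e36 := hf' 3 6 15 (by decide +kernel)
  have e37 := hf' 3 6 16 (by decide +kernel)
  have e38 := hf' 3 6 20 (by decide +kernel)
  have e39 := hf' 3 9 15 (by decide +kernel)
  have e40 := hf' 3 9 17 (by decide +kernel)
  have e41 := hf' 3 9 18 (by decide +kernel)
  have e42 := hf' 3 10 16 (by decide +kernel)
  have e43 := hf' 3 10 18 (by decide +kernel)
  have e44 := hf' 3 10 19 (by decide +kernel)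
  have e45 := hf' 3 13 17 (by decide +kernel)
  have e46 := hf' 3 13 19 (by decide +kernel)
  have e47 := hf' 3 13 20 (by decide +kernel)
  have e48 := hf' 4 7 15 (by decide +kernel)
  have e49 := hf' 4 7 17 (by decide +kernel)
  have e50 := hf' 4 7 19 (by decide +kernel)
  have e51 := hf' 4 8 15 (by decide +kernel)
  have e52 := hf' 4 8 18 (by decide +kernel)
  have e53 := hf' 4 8 20 (by decide +kernel)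
  have e54 := hf' 4 10 16 (by decide +kernel)
  have e55 := hf' 4 10 18 (by decide +kernel)
  have e56 := hf' 4 10 19 (by decide +kernel)
  have e57 := hf' 4 12 16 (by decide +kernel)
  have e58 := hf' 4 12 17 (by decide +kernel)
  have e59 := hf' 4 12 20 (by decide +kernel)
  refine ⟨fun v => kN f v.val, fun a b h1 h2 => ?_⟩
  have h := edg_mem a b h1 h2
  simp only [edgL, List.mem_cons, Prod.mk.injEq, List.not_mem_nil, or_false] at h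
  rcases h with ⟨rfl, rfl⟩
    | ⟨rfl, rfl⟩
    | ⟨rfl, rfl⟩
    | ⟨rfl, rfl⟩
    | ⟨rfl, rfl⟩
    | ⟨rfl, rfl⟩
    | ⟨rfl, rfl⟩
    | ⟨rfl, rfl⟩
    | ⟨rfl, rfl⟩
    | ⟨rfl, rfl⟩
    | ⟨rfl, rfl⟩
    | ⟨rfl, rfl⟩
    | ⟨rfl, rfl⟩
    | ⟨rfl, rfl⟩
    | ⟨rfl, rfl⟩
    | ⟨rfl, rfl⟩
    | ⟨rfl, rfl⟩
    | ⟨rfl, rfl⟩
    | ⟨rfl, rfl⟩
    | ⟨rfl, rfl⟩
    | ⟨rfl, rfl⟩
    | ⟨rfl, rfl⟩
    | ⟨rfl, rfl⟩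
    | ⟨rfl, rfl⟩
    | ⟨rfl, rfl⟩
    | ⟨rfl, rfl⟩
    | ⟨rfl, rfl⟩
    | ⟨rfl, rfl⟩
    | ⟨rfl, rfl⟩
    | ⟨rfl, rfl⟩
    | ⟨rfl, rfl⟩
    | ⟨rfl, rfl⟩
    | ⟨rfl, rfl⟩
    | ⟨rfl, rfl⟩
    | ⟨rfl, rfl⟩
    | ⟨rfl, rfl⟩
    | ⟨rfl, rfl⟩
    | ⟨rfl, rfl⟩
    | ⟨rfl, rfl⟩
    | ⟨rfl, rfl⟩
    | ⟨rfl, rfl⟩
    | ⟨rfl, rfl⟩
    | ⟨rfl, rfl⟩
    | ⟨rfl, rfl⟩
    | ⟨rfl, rfl⟩
    | ⟨rfl, rfl⟩
    | ⟨rfl, rfl⟩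
    | ⟨rfl, rfl⟩
    | ⟨rfl, rfl⟩
    | ⟨rfl, rfl⟩
    | ⟨rfl, rfl⟩
    | ⟨rfl, rfl⟩
    | ⟨rfl, rfl⟩
    | ⟨rfl, rfl⟩
    | ⟨rfl, rfl⟩
    | ⟨rfl, rfl⟩
    | ⟨rfl, rfl⟩
    | ⟨rfl, rfl⟩
    | ⟨rfl, rfl⟩
    | ⟨rfl, rfl⟩
    | ⟨rfl, rfl⟩
    | ⟨rfl, rfl⟩
    | ⟨rfl, rfl⟩
    | ⟨rfl, rfl⟩
    | ⟨rfl, rfl⟩
    | ⟨rfl, rfl⟩
    | ⟨rfl, rfl⟩
    | ⟨rfl, rfl⟩
    | ⟨rfl, rfl⟩
    | ⟨rfl, rfl⟩
    | ⟨rfl, rfl⟩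
    | ⟨rfl, rfl⟩
    | ⟨rfl, rfl⟩
    | ⟨rfl, rfl⟩
    | ⟨rfl, rfl⟩
    | ⟨rfl, rfl⟩
    | ⟨rfl, rfl⟩
    | ⟨rfl, rfl⟩
    | ⟨rfl, rfl⟩
    | ⟨rfl, rfl⟩
  · change f 0 5 = (f 0 5) - (0)
    ring
  · change f 0 8 = (f 0 8) - (0)
    ring
  · change f 0 11 = (f 0 11) - (0)
    ring
  · change f 0 13 = (f 0 13) - (0)
    ring
  · change f 0 15 = (f 0 15) - (0)
    ring
  · change f 0 16 = (f 0 16) - (0)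
    ring
  · change f 0 17 = (f 0 17) - (0)
    ring
  · change f 0 18 = (f 0 18) - (0)
    ring
  · change f 0 19 = (f 0 19) - (0)
    ring
  · change f 0 20 = (f 0 20) - (0)
    ring
  · change f 1 5 = (f 0 5) - (f 0 5 - f 1 5)
    ring
  · change f 1 9 = (f 0 15 - f 9 15) - (f 0 5 - f 1 5)
    linear_combination e0 - e12 + e15
  · change f 1 12 = (f 0 16 - f 12 16) - (f 0 5 - f 1 5)
    linear_combination e1 - e13 + e18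
  · change f 1 14 = (f 0 18 - f 14 18) - (f 0 5 - f 1 5)
    linear_combination e0 - e3 + e5 - e7 + e8 + e9 - e11 - e12 + e15 - e16 + e19 - e20 + e23 - e24 + e26 + e27
      - e28 + e31 - e32 + e33 - e35 + e36 - e38 - e39 + e40 - e45 + e47 - e48 + e49 + e51 - e53
      - e58 + e59
  · change f 1 15 = (f 0 15) - (f 0 5 - f 1 5)
    linear_combination e0 - e12
  · change f 1 16 = (f 0 16) - (f 0 5 - f 1 5)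
    linear_combination e1 - e13
  · change f 1 17 = (f 0 17) - (f 0 5 - f 1 5)
    linear_combination e1 - e4 + e5 - e6 + e8 + e9 - e11 - e13 - e16 + e17 + e18 - e20 - e21 + e23 - e25 + e26
      + e30 - e32 + e33 - e35 + e37 - e38 + e40 - e41 - e42 + e43 - e45 + e47 + e52 - e53 + e54
      - e55 - e57 + e59
  · change f 1 18 = (f 0 18) - (f 0 5 - f 1 5)
    linear_combination e0 - e3 + e5 - e7 + e8 + e9 - e11 - e12 + e15 - e16 + e19 - e20 - e21 + e23 - e24 + e26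
      + e27 - e28 + e31 - e32 + e33 - e35 + e36 - e38 - e39 + e40 - e45 + e47 - e48 + e49 + e51
      - e53 - e58 + e59
  · change f 1 19 = (f 0 19) - (f 0 5 - f 1 5)
    linear_combination e2 - e14
  · change f 1 20 = (f 0 20) - (f 0 5 - f 1 5)
    linear_combination e2 - e4 + e5 - e7 + e8 + e9 - e10 - e14 - e16 + e17 + e19 - e20 - e21 + e22 - e28 + e29
      + e31 - e32 + e33 - e34 + e40 - e41 + e43 - e44 - e45 + e46 + e49 - e50 + e52 - e53 - e55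
      + e56 - e58 + e59
  · change f 2 6 = (f 0 15 - f 6 15) - (f 0 11 - f 2 11)
    linear_combination -e1 + e2 + e3 - e5 + e6 - e10 + e11 + e13 - e14 - e18 + e20 + e22 - e23 + e24 + e25 - e26
      - e27 + e29 - e30 - e34 + e35 - e37 + e38 + e42 - e44 + e46 - e47 + e48 - e50 - e51 + e53
      - e54 + e56 + e57 - e59
  · change f 2 7 = (f 0 15 - f 7 15) - (f 0 11 - f 2 11)
    linear_combination -e1 + e2 + e3 - e5 + e6 - e10 + e11 + e13 - e14 - e18 + e20 + e22 - e23 + e25 - e26 + e29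
      - e30 - e34 + e35 - e37 + e38 + e42 - e44 + e46 - e47 + e48 - e50 - e51 + e53 - e54 + e56
      + e57 - e59
  · change f 2 11 = (f 0 11) - (f 0 11 - f 2 11)
    ring
  · change f 2 14 = (f 0 18 - f 14 18) - (f 0 11 - f 2 11)
    linear_combination e8 - e32 + e33
  · change f 2 15 = (f 0 15) - (f 0 11 - f 2 11)
    linear_combination -e1 + e2 + e3 - e5 + e6 - e10 + e11 + e13 - e14 - e18 + e20 + e22 - e23 + e25 - e26 - e27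
      + e29 - e30 - e34 + e35 - e37 + e38 + e42 - e44 + e46 - e47 + e48 - e50 - e51 + e53 - e54
      + e56 + e57 - e59
  · change f 2 16 = (f 0 16) - (f 0 11 - f 2 11)
    linear_combination e6 - e30
  · change f 2 17 = (f 0 17) - (f 0 11 - f 2 11)
    linear_combination e7 - e31
  · change f 2 18 = (f 0 18) - (f 0 11 - f 2 11)
    linear_combination e8 - e32
  · change f 2 19 = (f 0 19) - (f 0 11 - f 2 11)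
    linear_combination -e0 + e2 + e3 - e5 + e7 - e9 + e11 + e12 - e14 - e15 + e16 - e19 + e20 + e22 - e23 + e24
      - e26 - e27 + e28 - e31 - e34 + e35 - e36 + e38 + e39 - e40 + e45 - e47 + e48 - e49 - e51
      + e53 + e58 - e59
  · change f 2 20 = (f 0 20) - (f 0 11 - f 2 11)
    linear_combination -e0 + e2 + e3 - e4 + e8 - e10 + e11 + e12 - e14 - e15 + e17 - e21 + e22 + e24 - e26 - e27
      + e29 - e32 + e33 - e34 - e36 + e38 + e39 - e41 + e43 - e44 + e46 - e47 + e48 - e50 - e51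
      + e52 - e55 + e56
  · change f 3 6 = (f 0 15 - f 6 15) - (f 0 13 - f 3 13)
    linear_combination e0 - e1 + e4 - e5 + e6 - e8 + e11 - e12 + e13 + e15 - e17 - e18 + e20 + e21 - e23 + e25
      - e26 - e30 + e32 - e33 + e35 + e36 - e37 + e38 - e39 + e41 + e42 - e43 - e47 - e52 + e53
      - e54 + e55 + e57 - e59
  · change f 3 9 = (f 0 15 - f 9 15) - (f 0 13 - f 3 13)
    linear_combination e0 - e1 + e4 - e5 + e6 - e8 + e11 - e12 + e13 + e15 - e17 - e18 + e20 + e21 - e23 + e25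
      - e26 - e30 + e32 - e33 + e35 - e37 + e38 + e41 + e42 - e43 - e47 - e52 + e53 - e54 + e55
      + e57 - e59
  · change f 3 10 = (f 0 16 - f 10 16) - (f 0 13 - f 3 13)
    linear_combination e0 - e2 - e3 + e4 + e6 - e8 + e10 - e12 + e14 + e15 - e17 + e21 - e22 - e24 + e25 + e27
      - e29 - e30 + e32 - e33 + e34 + e36 - e37 - e39 + e41 + e42 - e43 + e44 - e46 - e48 + e50
      + e51 - e52 + e55 - e56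
  · change f 3 13 = (f 0 13) - (f 0 13 - f 3 13)
    ring
  · change f 3 15 = (f 0 15) - (f 0 13 - f 3 13)
    linear_combination e0 - e1 + e4 - e5 + e6 - e8 + e11 - e12 + e13 + e15 - e17 - e18 + e20 + e21 - e23 + e25
      - e26 - e30 + e32 - e33 + e35 - e37 + e38 - e39 + e41 + e42 - e43 - e47 - e52 + e53 - e54
      + e55 + e57 - e59
  · change f 3 16 = (f 0 16) - (f 0 13 - f 3 13)
    linear_combination e0 - e2 - e3 + e4 + e6 - e8 + e10 - e12 + e14 + e15 - e17 + e21 - e22 - e24 + e25 + e27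
      - e29 - e30 + e32 - e33 + e34 + e36 - e37 - e39 + e41 - e43 + e44 - e46 - e48 + e50 + e51
      - e52 + e55 - e56
  · change f 3 17 = (f 0 17) - (f 0 13 - f 3 13)
    linear_combination e9 - e45
  · change f 3 18 = (f 0 18) - (f 0 13 - f 3 13)
    linear_combination e0 - e1 - e3 + e4 + e6 - e7 + e9 - e12 + e13 + e15 - e16 - e18 + e19 - e24 + e25 + e27
      - e28 - e30 + e31 + e36 - e37 - e39 + e40 + e42 - e43 - e45 - e48 + e49 + e51 - e52 - e54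
      + e55 + e57 - e58
  · change f 3 19 = (f 0 19) - (f 0 13 - f 3 13)
    linear_combination e10 - e46
  · change f 3 20 = (f 0 20) - (f 0 13 - f 3 13)
    linear_combination e11 - e47
  · change f 4 7 = (f 0 15 - f 7 15) - (f 0 8 - f 4 8)
    linear_combination e3 + e48 - e51
  · change f 4 8 = (f 0 8) - (f 0 8 - f 4 8)
    ring
  · change f 4 10 = (f 0 16 - f 10 16) - (f 0 8 - f 4 8)
    linear_combination e1 - e2 + e4 + e7 - e8 - e9 + e10 - e13 + e14 + e16 - e17 + e18 - e19 + e21 - e22 + e28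
      - e29 - e31 + e32 - e33 + e34 - e40 + e41 - e43 + e44 + e45 - e46 - e49 + e50 - e52 + e54
      + e55 - e56 - e57 + e58
  · change f 4 12 = (f 0 16 - f 12 16) - (f 0 8 - f 4 8)
    linear_combination e1 - e2 + e4 + e7 - e8 - e9 + e10 - e13 + e14 + e16 - e17 + e18 - e19 + e21 - e22 + e28
      - e29 - e31 + e32 - e33 + e34 - e40 + e41 - e43 + e44 + e45 - e46 - e49 + e50 - e52 + e55
      - e56 + e58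
  · change f 4 15 = (f 0 15) - (f 0 8 - f 4 8)
    linear_combination e3 - e51
  · change f 4 16 = (f 0 16) - (f 0 8 - f 4 8)
    linear_combination e1 - e2 + e4 + e7 - e8 - e9 + e10 - e13 + e14 + e16 - e17 + e18 - e19 + e21 - e22 + e28
      - e29 - e31 + e32 - e33 + e34 - e40 + e41 - e43 + e44 + e45 - e46 - e49 + e50 - e52 + e55
      - e56 - e57 + e58
  · change f 4 17 = (f 0 17) - (f 0 8 - f 4 8)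
    linear_combination e1 - e2 + e5 - e6 + e7 + e10 - e11 - e13 + e14 + e18 - e20 - e22 + e23 - e25 + e26 + e28
      - e29 + e30 - e31 + e34 - e35 + e37 - e38 - e42 + e44 - e46 + e47 - e49 + e50 - e53 + e54
      - e56 - e57 + e59
  · change f 4 18 = (f 0 18) - (f 0 8 - f 4 8)
    linear_combination e4 - e52
  · change f 4 19 = (f 0 19) - (f 0 8 - f 4 8)
    linear_combination -e0 + e1 + e3 - e6 + e7 - e9 + e10 + e12 - e13 - e15 + e16 + e18 - e19 + e24 - e25 - e27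
      + e28 + e30 - e31 - e36 + e37 + e39 - e40 - e42 + e44 + e45 - e46 + e48 - e49 - e51 + e54
      - e56 - e57 + e58
  · change f 4 20 = (f 0 20) - (f 0 8 - f 4 8)
    linear_combination e5 - e53
  · change f 5 15 = (f 0 15) - (f 0 5)
    linear_combination e0
  · change f 5 16 = (f 0 16) - (f 0 5)
    linear_combination e1
  · change f 5 19 = (f 0 19) - (f 0 5)
    linear_combination e2
  · change f 6 15 = (f 0 15) - (f 0 15 - f 6 15)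
    ring
  · change f 6 16 = (f 0 16) - (f 0 15 - f 6 15)
    linear_combination e1 - e2 - e3 + e5 + e10 - e11 - e13 + e14 + e18 - e20 - e22 + e23 - e24 + e26 + e27 - e29
      + e34 - e35 + e37 - e38 - e42 + e44 - e46 + e47 - e48 + e50 + e51 - e53 + e54 - e56 - e57
      + e59
  · change f 6 20 = (f 0 20) - (f 0 15 - f 6 15)
    linear_combination -e0 + e1 - e4 + e5 - e6 + e8 + e12 - e13 - e15 + e17 + e18 - e20 - e21 + e23 - e25 + e26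
      + e30 - e32 + e33 - e35 - e36 + e37 + e39 - e41 - e42 + e43 + e52 - e53 + e54 - e55 - e57
      + e59
  · change f 7 15 = (f 0 15) - (f 0 15 - f 7 15)
    ring
  · change f 7 17 = (f 0 17) - (f 0 15 - f 7 15)
    linear_combination e1 - e2 - e3 + e5 - e6 + e7 + e10 - e11 - e13 + e14 + e18 - e20 - e22 + e23 - e25 + e26
      + e28 - e29 + e30 - e31 + e34 - e35 + e37 - e38 - e42 + e44 - e46 + e47 - e48 + e50 + e51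
      - e53 + e54 - e56 - e57 + e59
  · change f 7 19 = (f 0 19) - (f 0 15 - f 7 15)
    linear_combination -e0 + e1 - e6 + e7 - e9 + e10 + e12 - e13 - e15 + e16 + e18 - e19 + e24 - e25 - e27 + e28
      + e30 - e31 - e36 + e37 + e39 - e40 - e42 + e44 + e45 - e46 - e49 + e50 + e54 - e56 - e57
      + e58
  · change f 8 15 = (f 0 15) - (f 0 8)
    linear_combination e3
  · change f 8 18 = (f 0 18) - (f 0 8)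
    linear_combination e4
  · change f 8 20 = (f 0 20) - (f 0 8)
    linear_combination e5
  · change f 9 15 = (f 0 15) - (f 0 15 - f 9 15)
    ring
  · change f 9 17 = (f 0 17) - (f 0 15 - f 9 15)
    linear_combination -e0 + e1 - e4 + e5 - e6 + e8 + e9 - e11 + e12 - e13 - e15 + e17 + e18 - e20 - e21 + e23
      - e25 + e26 + e30 - e32 + e33 - e35 + e37 - e38 + e40 - e41 - e42 + e43 - e45 + e47 + e52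
      - e53 + e54 - e55 - e57 + e59
  · change f 9 18 = (f 0 18) - (f 0 15 - f 9 15)
    linear_combination -e3 + e5 - e7 + e8 + e9 - e11 - e16 + e17 + e19 - e20 - e21 + e23 - e24 + e26 + e27 - e28
      + e31 - e32 + e33 - e35 + e36 - e38 - e39 + e40 - e45 + e47 - e48 + e49 + e51 - e53 - e58
      + e59
  · change f 10 16 = (f 0 16) - (f 0 16 - f 10 16)
    ring
  · change f 10 18 = (f 0 18) - (f 0 16 - f 10 16)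
    linear_combination -e1 + e2 - e7 + e8 + e9 - e10 + e13 - e14 - e16 + e17 - e18 + e19 - e21 + e22 - e28 + e29
      + e31 - e32 + e33 - e34 + e40 - e41 + e43 - e44 - e45 + e46 + e49 - e50 - e54 + e56 + e57
      - e58
  · change f 10 19 = (f 0 19) - (f 0 16 - f 10 16)
    linear_combination -e0 + e2 + e3 - e4 - e6 + e8 + e12 - e14 - e15 + e17 - e21 + e22 + e24 - e25 - e27 + e29
      + e30 - e32 + e33 - e34 - e36 + e37 + e39 - e41 - e42 + e43 + e48 - e50 - e51 + e52 - e55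
      + e56
  · change f 11 16 = (f 0 16) - (f 0 11)
    linear_combination e6
  · change f 11 17 = (f 0 17) - (f 0 11)
    linear_combination e7
  · change f 11 18 = (f 0 18) - (f 0 11)
    linear_combination e8
  · change f 12 16 = (f 0 16) - (f 0 16 - f 12 16)
    ring
  · change f 12 17 = (f 0 17) - (f 0 16 - f 12 16)
    linear_combination -e4 + e5 - e6 + e8 + e9 - e11 - e16 + e17 + e19 - e20 - e21 + e23 - e25 + e26 + e30 - e32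
      + e33 - e35 + e37 - e38 + e40 - e41 - e42 + e43 - e45 + e47 + e52 - e53 + e54 - e55 - e57
      + e59
  · change f 12 20 = (f 0 20) - (f 0 16 - f 12 16)
    linear_combination -e1 + e2 - e4 + e5 - e7 + e8 + e9 - e10 + e13 - e14 - e16 + e17 - e18 + e19 - e21 + e22
      - e28 + e29 + e31 - e32 + e33 - e34 + e40 - e41 + e43 - e44 - e45 + e46 + e49 - e50 + e52
      - e53 - e55 + e56 - e58 + e59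
  · change f 13 17 = (f 0 17) - (f 0 13)
    linear_combination e9
  · change f 13 19 = (f 0 19) - (f 0 13)
    linear_combination e10
  · change f 13 20 = (f 0 20) - (f 0 13)
    linear_combination e11
  · change f 14 18 = (f 0 18) - (f 0 18 - f 14 18)
    ring
  · change f 14 19 = (f 0 19) - (f 0 18 - f 14 18)
    linear_combination -e0 + e2 + e3 - e5 + e7 - e8 - e9 + e11 + e12 - e14 - e15 + e16 - e19 + e20 + e22 - e23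
      + e24 - e26 - e27 + e28 - e31 + e32 - e33 + e35 - e36 + e38 + e39 - e40 + e45 - e47 + e48
      - e49 - e51 + e53 + e58 - e59
  · change f 14 20 = (f 0 20) - (f 0 18 - f 14 18)
    linear_combination -e0 + e2 + e3 - e4 - e10 + e11 + e12 - e14 - e15 + e17 - e21 + e22 + e24 - e26 - e27 + e29
      - e34 + e35 - e36 + e38 + e39 - e41 + e43 - e44 + e46 - e47 + e48 - e50 - e51 + e52 - e55
      + e56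

theorem acyc : Acyc Gr := ⟨h2, h1⟩

end Crest.Agent.R197.LD
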