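import Crest.Agent.R197.LDataA

/-! The flat connection with values in the binary icosahedral group. -/

set_option autoImplicit false

namespace Crest.Agent.R197.LD

open Quaternion

/-- Quaternions over `ℤ[√5]`. -/
structure Q8 where
  /-- coordinate -/
  a : ℤ
  /-- coordinate -/
  a' : ℤ
  /-- coordinate -/
  b : ℤ
  /-- coordinate -/
  b' : ℤ
  /-- coordinate -/
  c : ℤ
  /-- coordinate -/
  c' : ℤ
  /-- coordinate -/
  d : ℤ
  /-- coordinate -/
  d' : ℤ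
  deriving DecidableEq

/-- Product. -/
def Q8.mul (x y : Q8) : Q8 where
  a := x.a * y.a + 5 * x.a' * y.a' - (x.b * y.b + 5 * x.b' * y.b') - (x.c * y.c + 5 * x.c' * y.c')
    - (x.d * y.d + 5 * x.d' * y.d')
  a' := x.a * y.a' + x.a' * y.a - (x.b * y.b' + x.b' * y.b) - (x.c * y.c' + x.c' * y.c)
    - (x.d * y.d' + x.d' * y.d)
  b := x.a * y.b + 5 * x.a' * y.b' + (x.b * y.a + 5 * x.b' * y.a') + (x.c * y.d + 5 * x.c' * y.d')
    - (x.d * y.c + 5 * x.d' * y.c')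
  b' := x.a * y.b' + x.a' * y.b + (x.b * y.a' + x.b' * y.a) + (x.c * y.d' + x.c' * y.d)
    - (x.d * y.c' + x.d' * y.c)
  c := x.a * y.c + 5 * x.a' * y.c' - (x.b * y.d + 5 * x.b' * y.d') + (x.c * y.a + 5 * x.c' * y.a')
    + (x.d * y.b + 5 * x.d' * y.b')
  c' := x.a * y.c' + x.a' * y.c - (x.b * y.d' + x.b' * y.d) + (x.c * y.a' + x.c' * y.a)
    + (x.d * y.b' + x.d' * y.b)
  d := x.a * y.d + 5 * x.a' * y.d' + (x.b * y.c + 5 * x.b' * y.c') - (x.c * y.b + 5 * x.c' * y.b')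
    + (x.d * y.a + 5 * x.d' * y.a')
  d' := x.a * y.d' + x.a' * y.d + (x.b * y.c' + x.b' * y.c) - (x.c * y.b' + x.c' * y.b)
    + (x.d * y.a' + x.d' * y.a)

/-- Conjugate. -/
def Q8.conj (x : Q8) : Q8 := ⟨x.a, x.a', -x.b, -x.b', -x.c, -x.c', -x.d, -x.d'⟩

/-- Multiplication by four. -/
def Q8.four (x : Q8) : Q8 :=
  ⟨4 * x.a, 4 * x.a', 4 * x.b, 4 * x.b', 4 * x.c, 4 * x.c', 4 * x.d, 4 * x.d'⟩

/-- The unit. -/
def Q8.one : Q8 := ⟨4, 0, 0, 0, 0, 0, 0, 0⟩

/-- The real quaternion `x / 4`. -/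
noncomputable def Q8.toH (x : Q8) : ℍ[ℝ] :=
  ⟨(x.a + x.a' * √5) / 4, (x.b + x.b' * √5) / 4, (x.c + x.c' * √5) / 4, (x.d + x.d' * √5) / 4⟩

theorem toH_mul {x y z : Q8} (h : x.mul y = z.four) : x.toH * y.toH = z.toH := by
  have hs : √5 * √5 = 5 := Real.mul_self_sqrt (by norm_num)
  simp only [Q8.mul, Q8.four, Q8.mk.injEq] at h
  obtain ⟨h1, h2, h3, h4, h5, h6, h7, h8⟩ := h
  have h1 := congrArg (Int.cast : ℤ → ℝ) h1
  have h2 := congrArg (Int.cast : ℤ → ℝ) h2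
  have h3 := congrArg (Int.cast : ℤ → ℝ) h3
  have h4 := congrArg (Int.cast : ℤ → ℝ) h4
  have h5 := congrArg (Int.cast : ℤ → ℝ) h5
  have h6 := congrArg (Int.cast : ℤ → ℝ) h6
  have h7 := congrArg (Int.cast : ℤ → ℝ) h7
  have h8 := congrArg (Int.cast : ℤ → ℝ) h8
  push_cast at h1 h2 h3 h4 h5 h6 h7 h8
  ext
  · simp only [Q8.toH, Quaternion.re_mul]
    linear_combination (1 / 16 : ℝ) * h1 + (√5 / 16) * h2 +
      ((x.a' * y.a' - x.b' * y.b' - x.c' * y.c' - x.d' * y.d' : ℝ) / 16) * hs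
  · simp only [Q8.toH, Quaternion.imI_mul]
    linear_combination (1 / 16 : ℝ) * h3 + (√5 / 16) * h4 +
      ((x.a' * y.b' + x.b' * y.a' + x.c' * y.d' - x.d' * y.c' : ℝ) / 16) * hs
  · simp only [Q8.toH, Quaternion.imJ_mul]
    linear_combination (1 / 16 : ℝ) * h5 + (√5 / 16) * h6 +
      ((x.a' * y.c' - x.b' * y.d' + x.c' * y.a' + x.d' * y.b' : ℝ) / 16) * hs
  · simp only [Q8.toH, Quaternion.imK_mul]
    linear_combination (1 / 16 : ℝ) * h7 + (√5 / 16) * h8 +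
      ((x.a' * y.d' + x.b' * y.c' - x.c' * y.b' + x.d' * y.a' : ℝ) / 16) * hs

theorem toH_conj (x : Q8) : x.conj.toH = star x.toH := by
  ext <;> simp [Q8.toH, Q8.conj] <;> ring

theorem toH_one : Q8.one.toH = 1 := by
  ext <;> simp [Q8.toH, Q8.one]

/-- The group elements that occur. -/
def elt : ℕ → Q8
  | 1 => ⟨1, 1, -2, 0, 0, 0, -1, 1⟩
  | 2 => ⟨1, 1, -2, 0, 0, 0, 1, -1⟩
  | 3 => ⟨1, 1, -1, 1, -2, 0, 0, 0⟩
  | 4 => ⟨1, 1, -1, 1, 2, 0, 0, 0⟩
  | 5 => ⟨1, 1, 0, 0, -1, 1, -2, 0⟩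
  | 6 => ⟨1, 1, 0, 0, -1, 1, 2, 0⟩
  | 7 => ⟨1, 1, 0, 0, 1, -1, -2, 0⟩
  | 8 => ⟨1, 1, 0, 0, 1, -1, 2, 0⟩
  | 9 => ⟨1, 1, 1, -1, -2, 0, 0, 0⟩
  | 10 => ⟨1, 1, 1, -1, 2, 0, 0, 0⟩
  | 11 => ⟨1, 1, 2, 0, 0, 0, -1, 1⟩
  | 12 => ⟨1, 1, 2, 0, 0, 0, 1, -1⟩
  | _ => Q8.one

/-- The table of the connection. -/
def tab (a b : Fin 21) : Q8 := elt ((33572974572771724589866632429238777253068709430065058796268128232536524568599893137101066824794307249296488815784300837908595594528919552327258263123837596728405289793891590357899084711542125909542723196317556887345992179858614610678011297792100249238699721276242783177707716886448847816863564914000403727622212959524957724902607262271653819304383703604969250518994487723504365997342414711542996636889671019364554522678670844401763915215954996931404583369218061905520625230306706147542273193224609920246803720480169111060480 >>> (4 * (21 * a.val + b.val))) % 16)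

theorem tab_unit : ∀ a b, (tab a b).conj.mul (tab a b) = Q8.one.four ∧
    (tab a b).mul (tab a b).conj = Q8.one.four ∧ 0 ≤ (tab a b).a ∧ 0 ≤ (tab a b).a' := by
  decide +kernel

theorem tab_coc : ∀ a b e, (a = b ∨ adjB a b = true) → (b = e ∨ adjB b e = true) →
    (a = e ∨ adjB a e = true) → (tab a b).mul (tab b e) = (tab a e).four := by
  decide +kernel

/-- The connection. -/
noncomputable def cc (a b : Fin 21) : S3 := ⟨(tab a b).toH, by
  constructor
  · rw [← toH_conj, toH_mul (tab_unit a b).1, toH_one]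
  · rw [← toH_conj, toH_mul (tab_unit a b).2.1, toH_one]⟩

theorem coc : Coc Gr := by
  refine ⟨cc, fun a b e h1 h2 h3 => Subtype.ext (toH_mul (tab_coc a b e h1 h2 h3)),
    fun a b _ => ?_, 0, .cons (v := 5) (by decide +kernel : adjB _ _ = true)
      (.cons (v := 1) (by decide +kernel : adjB _ _ = true)
      (.cons (v := 17) (by decide +kernel : adjB _ _ = true)
      (.cons (v := 0) (by decide +kernel : adjB _ _ = true) .nil))), fun h => ?_⟩
  · have h1 : (0 : ℝ) ≤ (tab a b).a := by exact_mod_cast (tab_unit a b).2.2.1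
    have h2 : (0 : ℝ) ≤ (tab a b).a' := by exact_mod_cast (tab_unit a b).2.2.2
    change 0 ≤ (((tab a b).a : ℝ) + (tab a b).a' * √5) / 4
    positivity
  · have h' : (tab 0 5).toH * ((tab 5 1).toH * ((tab 1 17).toH * ((tab 17 0).toH * 1))) = 1 :=
      congrArg Subtype.val h
    rw [mul_one, toH_mul (z := ⟨1, 1, -1, 1, 2, 0, 0, 0⟩) (by decide +kernel),
      toH_mul (z := ⟨1, 1, -1, 1, 2, 0, 0, 0⟩) (by decide +kernel),
      toH_mul (z := ⟨1, 1, -1, 1, 2, 0, 0, 0⟩) (by decide +kernel)] at h'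
    have h'' := congrArg QuaternionAlgebra.imJ h'
    norm_num [Q8.toH] at h''

end Crest.Agent.R197.LD
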