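import Crest.Agent.R197.KosB
import Crest.Agent.R197.CD2

/-! The Bestvina–Brady group has cohomological dimension two. -/

set_option autoImplicit false

namespace Crest.Agent.R197

variable {V : Type} [Fintype V] [LinearOrder V] {Γ : SimpleGraph V}

section lam

omit [Fintype V]

/-- Iterated pushing: `L 0 = 0`, `L (n+1) = ε k + L n ∘ d ∘ k`. -/
noncomputable def lamIter {M : Type} [AddCommGroup M] (ε : ℤ) (k d : M →ₗ[ℤ] M) :
    ℕ → M →ₗ[ℤ] M
  | 0 => 0
  | n + 1 => ε • k + lamIter ε k d n ∘ₗ d ∘ₗ k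

omit [LinearOrder V] in
theorem lam_trl_add (g : RA Γ) (c c' : RA Γ × Cl Γ →₀ ℤ) :
    trl g (c + c') = trl g c + trl g c' := Finsupp.mapDomain_add

omit [LinearOrder V] in
theorem lam_trl_smul (g : RA Γ) (n : ℤ) (c : RA Γ × Cl Γ →₀ ℤ) :
    trl g (n • c) = n • trl g c := Finsupp.mapDomain_smul _ _

omit [LinearOrder V] in
theorem lam_trl_zero (g : RA Γ) : trl g (0 : RA Γ × Cl Γ →₀ ℤ) = 0 := Finsupp.mapDomain_zero

omit [LinearOrder V] in
theorem lam_trl_single (g x : RA Γ) (s : Cl Γ) (n : ℤ) :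
    trl g (Finsupp.single (x, s) n) = Finsupp.single (g * x, s) n := Finsupp.mapDomain_single

omit [LinearOrder V] in
theorem lamIter_trl (ε : ℤ) (k d : (RA Γ × Cl Γ →₀ ℤ) →ₗ[ℤ] (RA Γ × Cl Γ →₀ ℤ)) (g : RA Γ)
    (hk : ∀ c, k (trl g c) = trl g (k c)) (hd : ∀ c, d (trl g c) = trl g (d c)) (n : ℕ)
    (c : RA Γ × Cl Γ →₀ ℤ) : lamIter ε k d n (trl g c) = trl g (lamIter ε k d n c) := by
  induction n generalizing c with
  | zero => simp [lamIter, lam_trl_zero]
  | succ n ih =>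
    simp only [lamIter, LinearMap.add_apply, LinearMap.smul_apply, LinearMap.comp_apply, hk, hd,
      ih, lam_trl_add, lam_trl_smul]

theorem lam_hom_smul {X : Type} {deg : X → ℕ} {k : ℕ} {c : X →₀ ℤ} (n : ℤ) (h : Hom deg k c) :
    Hom deg k (n • c) := fun x hx => h x (Finsupp.support_smul hx)

theorem lamIter_hom {X : Type} {deg : X → ℕ} (ε : ℤ) (k d : (X →₀ ℤ) →ₗ[ℤ] (X →₀ ℤ))
    (hk : ∀ c, Hom deg 2 c → Hom deg 3 (k c)) (hd : ∀ c, Hom deg 3 c → Hom deg 2 (d c)) (n : ℕ)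
    (c : X →₀ ℤ) (hc : Hom deg 2 c) : Hom deg 3 (lamIter ε k d n c) := by
  induction n generalizing c with
  | zero => simpa [lamIter] using Hom.zero
  | succ n ih =>
    simp only [lamIter, LinearMap.add_apply, LinearMap.smul_apply, LinearMap.comp_apply]
    exact (lam_hom_smul ε (hk c hc)).add (ih _ (hd _ (hk c hc)))

/-- The operator used at height `j`. -/
noncomputable def lamAt (km kp : (RA Γ × Cl Γ →₀ ℤ) →ₗ[ℤ] (RA Γ × Cl Γ →₀ ℤ)) (j : ℤ) :
    (RA Γ × Cl Γ →₀ ℤ) →ₗ[ℤ] (RA Γ × Cl Γ →₀ ℤ) :=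
  if j ≤ 1 then lamIter (-1) km (dp Γ) (1 - j).toNat else lamIter 1 kp (dm Γ) (j - 1).toNat

/-- The splitting of the third boundary map. -/
noncomputable def lamMap (km kp : (RA Γ × Cl Γ →₀ ℤ) →ₗ[ℤ] (RA Γ × Cl Γ →₀ ℤ)) :
    (RA Γ × Cl Γ →₀ ℤ) →ₗ[ℤ] (RA Γ × Cl Γ →₀ ℤ) :=
  Finsupp.linearCombination ℤ fun x => lamAt km kp (ht x.1) (Finsupp.single x 1)

theorem lamMap_single (km kp : (RA Γ × Cl Γ →₀ ℤ) →ₗ[ℤ] (RA Γ × Cl Γ →₀ ℤ))
    (x : RA Γ × Cl Γ) (n : ℤ) :
    lamMap km kp (Finsupp.single x n) = lamAt km kp (ht x.1) (Finsupp.single x n) := by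
  rw [lamMap, Finsupp.linearCombination_single, ← map_smul, Finsupp.smul_single, smul_eq_mul,
    mul_one]

theorem lamMap_ht (km kp : (RA Γ × Cl Γ →₀ ℤ) →ₗ[ℤ] (RA Γ × Cl Γ →₀ ℤ)) {j : ℤ}
    {c : RA Γ × Cl Γ →₀ ℤ} (h : HtH j c) : lamMap km kp c = lamAt km kp j c := by
  conv_lhs => rw [← Finsupp.sum_single c]
  conv_rhs => rw [← Finsupp.sum_single c]
  rw [Finsupp.sum, map_sum, map_sum]
  refine Finset.sum_congr rfl fun x hx => ?_
  rw [lamMap_single, h x hx]

theorem lamAt_split {km kp : (RA Γ × Cl Γ →₀ ℤ) →ₗ[ℤ] (RA Γ × Cl Γ →₀ ℤ)} (h : KPM Γ km kp)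
    (j : ℤ) {c : RA Γ × Cl Γ →₀ ℤ} (hc : Hom cdeg 3 c) :
    lamAt km kp (j + 1) (dp Γ c) - lamAt km kp j (dm Γ c) = c := by
  unfold lamAt
  by_cases hj : j ≤ 0
  · rw [if_pos (by omega), if_pos (by omega)]
    have h1 : (1 - j).toNat = (1 - (j + 1)).toNat + 1 := by omega
    rw [h1]
    simp only [lamIter, LinearMap.add_apply, LinearMap.smul_apply, LinearMap.comp_apply,
      h.km3 c hc]
    simp
  · rw [if_neg (by omega)]
    have h1 : (j + 1 - 1).toNat = (j - 1).toNat + 1 := by omega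
    rw [h1]
    simp only [lamIter, LinearMap.add_apply, LinearMap.smul_apply, LinearMap.comp_apply,
      h.kp3 c hc]
    split_ifs with h2
    · have h3 : (j - 1).toNat = 0 := by omega
      have h4 : (1 - j).toNat = 0 := by omega
      rw [h3, h4]
      simp [lamIter]
    · simp

end lam

theorem bb_cd_le_two (h : Contr Γ) (A : Rep ℤ (BB Γ)) (n : ℕ) (hn : 3 ≤ n) :
    CategoryTheory.Limits.IsZero (groupCohomology A n) := by
  obtain ⟨km, kp, hk⟩ := exists_KPM h
  let act : BB Γ →* Equiv.Perm (RA Γ × Cl Γ) :=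
    { toFun := fun g => Equiv.prodCongr (Equiv.mulLeft (g : RA Γ)) (Equiv.refl _)
      map_one' := by ext x <;> simp
      map_mul' := fun g g' => by ext x <;> simp [mul_assoc] }
  have hact : ∀ (g : BB Γ) (c : RA Γ × Cl Γ →₀ ℤ),
      Finsupp.mapDomain (act g) c = trl (g : RA Γ) c := fun g c => rfl
  refine cd_le_two act ?_ cdeg (fun g x => rfl) (dK Γ) (lamMap km kp) ?_ ?_
    (fun k c hc => hc.dK) dK_dK (fun c hc => aug_dK hc) ⟨(1, ⟨∅, by simp⟩), rfl⟩
    (fun c hc h0 => ?_) (fun c hc h0 => dK_exact hc h0 (by simp))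
    (fun c hc h0 => dK_exact hc h0 (by simp)) ?_ ?_ A n hn
  · intro g x hx
    have h1 : (g : RA Γ) * x.1 = x.1 := congrArg Prod.fst hx
    exact Subtype.ext (by simpa using h1)
  · intro g c
    rw [hact, hact, dK_trl]
  · intro g c
    rw [hact, hact]
    induction c using Finsupp.induction_linear with
    | zero => simp [lam_trl_zero]
    | add c c' h h' => simp only [lam_trl_add, map_add, h, h']
    | single x n =>
      obtain ⟨x, s⟩ := x
      have hg : ht (g : RA Γ) = 0 := mem_BB.1 g.2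
      rw [lam_trl_single, lamMap_single, lamMap_single, ← lam_trl_single]
      simp only [ht_mul, hg, zero_add]
      unfold lamAt
      split_ifs
      · exact lamIter_trl _ _ _ _ (hk.km_trl _) (dp_trl _) _ _
      · exact lamIter_trl _ _ _ _ (hk.kp_trl _) (dm_trl _) _ _
  · refine dK_exact hc ?_ fun _ => h0
    refine Hom.induction (P := fun c => dK Γ c = 0) (map_zero _)
      (fun c c' h h' => by rw [map_add, h, h', add_zero]) ?_ hc
    rintro ⟨x, s⟩ n hx
    have hs : s.1 = ∅ := Finset.card_eq_zero.1 hx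
    simp [dK, dp, dm, hs]
  · intro c hc
    refine Hom.induction (P := fun c => Hom cdeg 3 (lamMap km kp c)) (by simpa using Hom.zero)
      (fun c c' h h' => by rw [map_add]; exact h.add h') ?_ hc
    intro x n hx
    rw [lamMap_single]
    unfold lamAt
    split_ifs
    · exact lamIter_hom _ _ _ (hk.km_hom 2) (fun c hc => hc.dp) _ _ (Hom.single hx n)
    · exact lamIter_hom _ _ _ (hk.kp_hom 2) (fun c hc => hc.dm) _ _ (Hom.single hx n)
  · intro c hc
    refine Hom.induction (P := fun c => lamMap km kp (dK Γ c) = c) (by simp)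
      (fun c c' h h' => by rw [map_add, map_add, h, h']) ?_ hc
    intro x n hx
    have h1 : HtH (ht x.1) (Finsupp.single x n) := fun y hy => by
      rw [Finset.mem_singleton.1 (Finsupp.support_single_subset hy)]
    have h2 : dK Γ (Finsupp.single x n) =
        dp Γ (Finsupp.single x n) - dm Γ (Finsupp.single x n) := rfl
    rw [h2, map_sub, lamMap_ht km kp h1.dp, lamMap_ht km kp h1.dm]
    exact lamAt_split hk _ (Hom.single hx n)

theorem bb_H2_ne_zero {a b c : V} (hab : Γ.Adj a b) (hbc : Γ.Adj b c) (hac : Γ.Adj a c) :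
    ∃ A : Rep ℤ (BB Γ), ¬ CategoryTheory.Limits.IsZero (groupCohomology A 2) := by
  refine ⟨Rep.trivial ℤ (BB Γ) ℤ, fun hz => ?_⟩
  let f : BB Γ × BB Γ → ℤ := fun p => ex (p.1 : RA Γ) a * ex (p.2 : RA Γ) b
  have hf : f ∈ groupCohomology.cocycles₂ (Rep.trivial ℤ (BB Γ) ℤ) := by
    rw [groupCohomology.mem_cocycles₂_iff]
    intro g h j
    change f (g * h, j) + f (g, h) = f (h, j) + f (g, h * j)
    simp only [f, Subgroup.coe_mul, ex_mul, Pi.add_apply]
    ring
  have hsub := ModuleCat.isZero_iff_subsingleton.1 hz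
  have h0 : groupCohomology.H2π (Rep.trivial ℤ (BB Γ) ℤ) ⟨f, hf⟩ = 0 := Subsingleton.elim _ _
  obtain ⟨y, hy⟩ := (groupCohomology.H2π_eq_zero_iff _).1 h0
  let u : BB Γ := ⟨gen Γ a * (gen Γ c)⁻¹, by simp [mem_BB]⟩
  let v : BB Γ := ⟨gen Γ b * (gen Γ c)⁻¹, by simp [mem_BB]⟩
  have huv : u * v = v * u := by
    apply Subtype.ext
    have h1 := gen_commute hab
    have h2 := gen_commute hbc
    have h3 := gen_commute hac
    exact (Commute.mul_left (h1.mul_right h3.inv_right)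
      ((h2.symm.inv_left).mul_right (Commute.refl _))).eq
  have e1 : y v - y (u * v) + y u = f (u, v) := congrFun hy (u, v)
  have e2 : y u - y (v * u) + y v = f (v, u) := congrFun hy (v, u)
  have f1 : f (u, v) = 1 := by
    simp [f, u, v, hab.ne, hab.ne', hbc.ne, hbc.ne', hac.ne, hac.ne']
  have f2 : f (v, u) = 0 := by
    simp [f, u, v, hab.ne, hab.ne', hbc.ne, hbc.ne', hac.ne, hac.ne']
  rw [huv, f1] at e1
  rw [f2] at e2
  have e3 : (1 : ℤ) = 0 := by
    rw [← e1, ← e2]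
    abel
  exact one_ne_zero e3

end Crest.Agent.R197
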