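import Crest.Agent.R197.RDefs

/-! Elementary properties of the word length and of ordered products. -/

set_option autoImplicit false

namespace Crest.Agent.R197

variable {V : Type} {Γ : SimpleGraph V}

theorem exists_geodesic (x : RA Γ) :
    ∃ l : List (V × Bool), l.length = len x ∧ (l.map (ltr Γ)).prod = x := by
  obtain ⟨l, hl⟩ := exists_word x
  have h : {n | ∃ l : List (V × Bool), l.length = n ∧ (l.map (ltr Γ)).prod = x}.Nonempty :=
    ⟨l.length, l, rfl, hl⟩
  exact Nat.sInf_mem h

theorem len_le_length (l : List (V × Bool)) : len (l.map (ltr Γ)).prod ≤ l.length :=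
  Nat.sInf_le ⟨l, rfl, rfl⟩

theorem len_eq_zero {x : RA Γ} : len x = 0 ↔ x = 1 := by
  constructor
  · intro h
    obtain ⟨l, hl, hx⟩ := exists_geodesic x
    rw [h, List.length_eq_zero_iff] at hl
    rw [← hx, hl]
    rfl
  · rintro rfl
    have := len_le_length (Γ := Γ) []
    simpa using this

theorem len_mul_le (x y : RA Γ) : len (x * y) ≤ len x + len y := by
  obtain ⟨l, hl, hx⟩ := exists_geodesic x
  obtain ⟨m, hm, hy⟩ := exists_geodesic y
  have := len_le_length (Γ := Γ) (l ++ m)
  rwa [List.map_append, List.prod_append, hx, hy, List.length_append, hl, hm] at this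

theorem lena_prod_inv (l : List (V × Bool)) :
    (((l.map fun s => (s.1, !s.2)).reverse).map (ltr Γ)).prod = ((l.map (ltr Γ)).prod)⁻¹ := by
  induction l with
  | nil => simp
  | cons s l ih =>
    rw [List.map_cons, List.reverse_cons, List.map_append, List.prod_append, ih]
    simp [ltr_not]

theorem lena_len_inv_le (x : RA Γ) : len x⁻¹ ≤ len x := by
  obtain ⟨l, hl, hx⟩ := exists_geodesic x
  have := len_le_length (Γ := Γ) ((l.map fun s => (s.1, !s.2)).reverse)
  rwa [lena_prod_inv, hx, List.length_reverse, List.length_map, hl] at this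

theorem len_inv (x : RA Γ) : len x⁻¹ = len x := by
  refine le_antisymm (lena_len_inv_le x) ?_
  have := lena_len_inv_le x⁻¹
  rwa [inv_inv] at this

theorem lena_ht_ltr (s : V × Bool) : ht (ltr Γ s) = 1 ∨ ht (ltr Γ s) = -1 := by
  obtain ⟨a, _ | _⟩ := s <;> simp [ltr]

theorem lena_len_ltr_le (s : V × Bool) : len (ltr Γ s) ≤ 1 := by
  have := len_le_length (Γ := Γ) [s]
  simpa using this

theorem len_ltr (s : V × Bool) : len (ltr Γ s) = 1 := by
  refine le_antisymm (lena_len_ltr_le s) (Nat.one_le_iff_ne_zero.2 fun h => ?_)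
  have h1 := len_eq_zero.1 h
  have h2 := lena_ht_ltr (Γ := Γ) s
  rw [h1, ht_one] at h2
  omega

theorem lena_ht_word (l : List (V × Bool)) :
    |ht (l.map (ltr Γ)).prod| ≤ l.length ∧ (ht (l.map (ltr Γ)).prod - l.length) % 2 = 0 := by
  induction l with
  | nil => simp
  | cons s l ih =>
    rw [List.map_cons, List.prod_cons, ht_mul, List.length_cons]
    obtain ⟨h1, h2⟩ := ih
    rw [abs_le] at h1 ⊢
    rcases lena_ht_ltr (Γ := Γ) s with h | h <;> rw [h] <;> push_cast <;> omega

theorem abs_ht_le_len (x : RA Γ) : |ht x| ≤ len x := by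
  obtain ⟨l, hl, hx⟩ := exists_geodesic x
  have := (lena_ht_word (Γ := Γ) l).1
  rwa [hx, hl] at this

theorem lena_ht_parity (x : RA Γ) : (ht x - len x) % 2 = 0 := by
  obtain ⟨l, hl, hx⟩ := exists_geodesic x
  have := (lena_ht_word (Γ := Γ) l).2
  rwa [hx, hl] at this

theorem lena_sum_abs_ex_ltr [Fintype V] [DecidableEq V] (s : V × Bool) :
    ∑ a, |ex (ltr Γ s) a| = 1 := by
  have h : ∀ b : V, ∑ a, |(Pi.single b 1 : V → ℤ) a| = 1 := fun b => by
    rw [Finset.sum_eq_single b]
    · simp
    · intro a _ hab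
      simp [hab]
    · simp
  obtain ⟨a, _ | _⟩ := s
  · simpa [ltr] using h a
  · simpa [ltr] using h a

theorem sum_abs_ex_le_len [Fintype V] [DecidableEq V] (x : RA Γ) : ∑ a, |ex x a| ≤ len x := by
  obtain ⟨l, hl, hx⟩ := exists_geodesic x
  rw [← hl, ← hx]
  clear hl hx
  induction l with
  | nil => simp
  | cons s l ih =>
    rw [List.map_cons, List.prod_cons, ex_mul, List.length_cons]
    calc ∑ a, |(ex (ltr Γ s) + ex (l.map (ltr Γ)).prod) a|
        ≤ ∑ a, (|ex (ltr Γ s) a| + |ex (l.map (ltr Γ)).prod a|) :=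
          Finset.sum_le_sum fun a _ => abs_add_le _ _
      _ = 1 + ∑ a, |ex (l.map (ltr Γ)).prod a| := by
          rw [Finset.sum_add_distrib, lena_sum_abs_ex_ltr]
      _ ≤ _ := by push_cast; omega

theorem lena_mul_ltr_not (x : RA Γ) (s : V × Bool) : x * ltr Γ s * ltr Γ (s.1, !s.2) = x := by
  rw [ltr_not, mul_inv_cancel_right]

theorem len_mul_ltr (x : RA Γ) (s : V × Bool) :
    len (x * ltr Γ s) = len x + 1 ∨ len (x * ltr Γ s) + 1 = len x := by
  have h1 := len_mul_le x (ltr Γ s)
  have h2 := len_mul_le (x * ltr Γ s) (ltr Γ (s.1, !s.2))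
  rw [lena_mul_ltr_not] at h2
  rw [len_ltr] at h1 h2
  have h3 := lena_ht_parity x
  have h4 := lena_ht_parity (x * ltr Γ s)
  rw [ht_mul] at h4
  rcases lena_ht_ltr (Γ := Γ) s with h | h <;> rw [h] at h4 <;> omega

theorem desc_iff {x : RA Γ} {s : V × Bool} : Desc x s ↔ len (x * ltr Γ s) + 1 = len x := by
  have := len_mul_ltr x s
  unfold Desc
  omega

theorem not_desc_iff {x : RA Γ} {s : V × Bool} : ¬ Desc x s ↔ len (x * ltr Γ s) = len x + 1 := by
  have := len_mul_ltr x s
  unfold Desc
  omega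

theorem desc_back {x : RA Γ} {s : V × Bool} : Desc (x * ltr Γ s) (s.1, !s.2) ↔ ¬ Desc x s := by
  rw [desc_iff, not_desc_iff, lena_mul_ltr_not]
  omega

theorem exists_desc {x : RA Γ} (hx : x ≠ 1) : ∃ s, Desc x s := by
  obtain ⟨l, hl, hp⟩ := exists_geodesic x
  rcases List.eq_nil_or_concat l with rfl | ⟨m, s, rfl⟩
  · exact absurd hp.symm hx
  · refine ⟨(s.1, !s.2), ?_⟩
    rw [List.concat_eq_append, List.map_append, List.prod_append] at hp
    simp only [List.map_cons, List.map_nil, List.prod_cons, List.prod_nil, mul_one] at hp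
    have h1 := len_le_length (Γ := Γ) m
    simp only [List.concat_eq_append, List.length_append, List.length_cons, List.length_nil] at hl
    unfold Desc
    rw [← hl, ← hp, lena_mul_ltr_not]
    omega

theorem finite_len_le [Finite V] (n : ℕ) : {x : RA Γ | len x ≤ n}.Finite := by
  refine ((List.finite_length_le (V × Bool) n).image fun l => (l.map (ltr Γ)).prod).subset ?_
  intro x hx
  obtain ⟨l, hl, hp⟩ := exists_geodesic x
  exact ⟨l, hl.le.trans hx, hp⟩

theorem AdjEq.commute {a b : V} (h : AdjEq Γ a b) : Commute (gen Γ a) (gen Γ b) := by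
  rcases h with rfl | h
  · exact Commute.refl _
  · exact gen_commute h

theorem lena_len_pow_le (x : RA Γ) (n : ℕ) : len (x ^ n) ≤ n * len x := by
  induction n with
  | zero => simp [len_eq_zero]
  | succ n ih =>
    rw [pow_succ, Nat.succ_mul]
    exact (len_mul_le _ _).trans (Nat.add_le_add_right ih _)

theorem lena_len_gen_zpow (a : V) (n : ℤ) : (len (gen Γ a ^ n) : ℤ) ≤ |n| := by
  have h1 : len (gen Γ a) = 1 := len_ltr (Γ := Γ) (a, true)
  have h2 := lena_len_pow_le (gen Γ a) n.natAbs
  rw [h1, mul_one] at h2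
  have h3 : len (gen Γ a ^ n) = len (gen Γ a ^ n.natAbs) := by
    rcases Int.natAbs_eq n with h | h
    · conv_lhs => rw [h, zpow_natCast]
    · conv_lhs => rw [h, zpow_neg, zpow_natCast, len_inv]
  rw [h3, ← Int.natCast_natAbs]
  exact_mod_cast h2

theorem lena_prod_add (L : List V) {k k' : V → ℤ}
    (h : ∀ a b, k a ≠ 0 → k' b ≠ 0 → AdjEq Γ a b) :
    (L.map fun a => gen Γ a ^ (k + k') a).prod =
      (L.map fun a => gen Γ a ^ k a).prod * (L.map fun a => gen Γ a ^ k' a).prod := by
  induction L with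
  | nil => simp
  | cons b L ih =>
    simp only [List.map_cons, List.prod_cons, ih]
    have hc : Commute (L.map fun a => gen Γ a ^ k a).prod (gen Γ b ^ k' b) := by
      apply Commute.list_prod_left
      intro y hy
      obtain ⟨a, -, rfl⟩ := List.mem_map.1 hy
      by_cases ha : k a = 0
      · rw [ha, zpow_zero]
        exact Commute.one_left _
      · by_cases hb : k' b = 0
        · rw [hb, zpow_zero]
          exact Commute.one_right _
        · exact (h a b ha hb).commute.zpow_zpow _ _
    rw [Pi.add_apply, zpow_add, mul_assoc, mul_assoc, ← mul_assoc (gen Γ b ^ k' b), ← hc.eq,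
      mul_assoc]

theorem lena_len_prod_le (L : List V) (k : V → ℤ) :
    (len (L.map fun a => gen Γ a ^ k a).prod : ℤ) ≤ (L.map fun a => |k a|).sum := by
  induction L with
  | nil => simp [len_eq_zero]
  | cons b L ih =>
    simp only [List.map_cons, List.prod_cons, List.sum_cons]
    have h1 := len_mul_le (gen Γ b ^ k b) (L.map fun a => gen Γ a ^ k a).prod
    have h2 := lena_len_gen_zpow (Γ := Γ) b (k b)
    omega

theorem lena_ht_prod (L : List V) (k : V → ℤ) :
    ht (L.map fun a => gen Γ a ^ k a).prod = (L.map k).sum := by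
  induction L with
  | nil => simp
  | cons b L ih => simp only [List.map_cons, List.prod_cons, List.sum_cons, ht_mul, ih]; simp

theorem lena_ex_prod [DecidableEq V] (L : List V) (k : V → ℤ) :
    ex (L.map fun a => gen Γ a ^ k a).prod
      = (L.map fun a => k a • (Pi.single a 1 : V → ℤ)).sum := by
  induction L with
  | nil => simp
  | cons b L ih => simp only [List.map_cons, List.prod_cons, List.sum_cons, ex_mul, ih]; simp

theorem lena_prod_single [DecidableEq V] (L : List V) (hL : L.Nodup) (a : V) (n : ℤ) :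
    (L.map fun b => gen Γ b ^ (Pi.single a n : V → ℤ) b).prod
      = if a ∈ L then gen Γ a ^ n else 1 := by
  induction L with
  | nil => simp
  | cons b L ih =>
    rw [List.nodup_cons] at hL
    simp only [List.map_cons, List.prod_cons, ih hL.2, List.mem_cons]
    by_cases hab : a = b
    · subst hab
      simp [hL.1]
    · simp [hab, Ne.symm hab]

variable [Fintype V] [LinearOrder V]

theorem lena_sum_sort {M : Type} [AddCommMonoid M] (f : V → M) :
    ((Finset.univ.sort (· ≤ ·)).map f).sum = ∑ a, f a := by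
  rw [← List.sum_toFinset f (Finset.sort_nodup _ _), Finset.sort_toFinset]

theorem PP_zero : PP Γ 0 = 1 := by
  simp [PP]

theorem PP_single (a : V) (n : ℤ) : PP Γ (Pi.single a n) = gen Γ a ^ n := by
  rw [PP, lena_prod_single _ (Finset.sort_nodup _ _), if_pos (by simp)]

theorem PP_add {k k' : V → ℤ} (h : ∀ a b, k a ≠ 0 → k' b ≠ 0 → AdjEq Γ a b) :
    PP Γ (k + k') = PP Γ k * PP Γ k' :=
  lena_prod_add _ h

theorem ex_PP (k : V → ℤ) : ex (PP Γ k) = k := by
  rw [PP, lena_ex_prod, lena_sum_sort]
  funext b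
  simp [Finset.sum_apply, Pi.single_apply]

theorem ht_PP (k : V → ℤ) : ht (PP Γ k) = ∑ a, k a := by
  rw [PP, lena_ht_prod, lena_sum_sort]

theorem len_PP (k : V → ℤ) : (len (PP Γ k) : ℤ) = ∑ a, |k a| := by
  refine le_antisymm ?_ ?_
  · rw [PP, ← lena_sum_sort]
    exact lena_len_prod_le _ k
  · have := sum_abs_ex_le_len (PP Γ k)
    rwa [ex_PP] at this

end Crest.Agent.R197
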