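import Crest.Agent.R197.LenB

/-! Lipschitz weights supported on the first letters. -/

set_option autoImplicit false

namespace Crest.Agent.R197

section aux

variable {V : Type} {Γ : SimpleGraph V}

/-- `y` is a prefix of `x`. -/
def NuPre (y x : RA Γ) : Prop := len y + len (y⁻¹ * x) = len x

theorem nu_len_one : len (1 : RA Γ) = 0 := len_eq_zero.2 rfl

theorem nuPre_refl (x : RA Γ) : NuPre x x := by simp [NuPre, nu_len_one]

theorem nuPre_one (x : RA Γ) : NuPre 1 x := by simp [NuPre, nu_len_one]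

theorem nuPre_trans {x y z : RA Γ} (h : NuPre z y) (h' : NuPre y x) : NuPre z x := by
  unfold NuPre at *
  have h1 := len_mul_le z (z⁻¹ * x)
  have h2 := len_mul_le (z⁻¹ * y) (y⁻¹ * x)
  rw [mul_inv_cancel_left] at h1
  rw [show z⁻¹ * y * (y⁻¹ * x) = z⁻¹ * x by group] at h2
  omega

theorem nuPre_desc {x : RA Γ} {s : V × Bool} (h : Desc x s) : NuPre (x * ltr Γ s) x := by
  unfold NuPre
  rw [show (x * ltr Γ s)⁻¹ * x = (ltr Γ s)⁻¹ by group, len_inv, len_ltr]
  exact desc_iff.1 h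

theorem nuPre_not_desc {x : RA Γ} {s : V × Bool} (h : ¬ Desc x s) : NuPre x (x * ltr Γ s) := by
  unfold NuPre
  rw [inv_mul_cancel_left, len_ltr]
  exact (not_desc_iff.1 h).symm

theorem nu_first_iff {x : RA Γ} {s : V × Bool} : Desc x⁻¹ s ↔ NuPre (ltr Γ s) x := by
  unfold NuPre
  rw [desc_iff, len_inv x, len_ltr, ← len_inv (x⁻¹ * ltr Γ s), mul_inv_rev, inv_inv, add_comm]

theorem nu_commute (s : V × Bool) (y : RA Γ) (n : ℕ) : ∀ w : RA Γ, len w = n →
    len (y * w) = len y + len w → Desc (y * w) s → ¬ Desc w s →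
      Desc y s ∧ Commute (ltr Γ s) w := by
  induction n with
  | zero =>
    intro w hw _ h2 _
    rw [len_eq_zero.1 hw] at h2 ⊢
    exact ⟨by simpa using h2, Commute.one_right _⟩
  | succ n ih =>
    intro w hw h1 h2 h3
    obtain ⟨r, hr⟩ := exists_desc (x := w) (by
      rintro rfl
      rw [nu_len_one] at hw
      omega)
    have h4 := desc_iff.1 hr
    have h5 := len_mul_le y (w * ltr Γ r)
    have h6 : Desc (y * w) r := by
      unfold Desc
      rw [mul_assoc]
      omega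
    have h7 := desc_iff.1 h6
    have h8 : Γ.Adj r.1 s.1 := desc_adj h6 h2 (by rintro rfl; exact h3 hr)
    have h9 := (desc_mul_iff (x := y * w) h8).2 h2
    rw [mul_assoc] at h7 h9
    obtain ⟨h10, h11⟩ := ih (w * ltr Γ r) (by omega) (by omega) h9
      (fun h => h3 ((desc_mul_iff h8).1 h))
    refine ⟨h10, ?_⟩
    have h12 := h11.mul_right (ltr_commute h8).symm.inv_right
    rwa [mul_inv_cancel_right] at h12

theorem nu_lemA {x y : RA Γ} {s : V × Bool} (hx : Desc x s) (h : NuPre y x) :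
    NuPre y (x * ltr Γ s) ∨ (Desc y s ∧ NuPre (y * ltr Γ s) (x * ltr Γ s)) := by
  have h1 := desc_iff.1 hx
  unfold NuPre at *
  by_cases hw : Desc (y⁻¹ * x) s
  · left
    have := desc_iff.1 hw
    rw [mul_assoc] at this
    omega
  · right
    obtain ⟨h2, h3⟩ := nu_commute s y _ (y⁻¹ * x) rfl (by rw [mul_inv_cancel_left]; omega)
      (by rwa [mul_inv_cancel_left]) hw
    refine ⟨h2, ?_⟩
    have h4 := desc_iff.1 h2
    have h5 : (y * ltr Γ s)⁻¹ * (x * ltr Γ s) = y⁻¹ * x := by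
      calc (y * ltr Γ s)⁻¹ * (x * ltr Γ s) = (ltr Γ s)⁻¹ * (y⁻¹ * x * ltr Γ s) := by group
        _ = y⁻¹ * x := by rw [← h3.eq, inv_mul_cancel_left]
    rw [h5]
    omega

theorem nu_lemB (y' : RA Γ) (n : ℕ) : ∀ x y : RA Γ, len (y'⁻¹ * x) = n → NuPre y x → NuPre y' x →
    ∃ z, NuPre z y ∧ NuPre z y' ∧ len y + len y' ≤ len z + len x := by
  induction n with
  | zero =>
    intro x y hn h _
    have : y' = x := inv_mul_eq_one.1 (len_eq_zero.1 hn)
    subst this
    exact ⟨y, nuPre_refl y, h, le_rfl⟩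
  | succ n ih =>
    intro x y hn h h'
    obtain ⟨r, hr⟩ := exists_desc (x := y'⁻¹ * x) (by
      intro h0
      rw [h0, nu_len_one] at hn
      omega)
    have h4 := desc_iff.1 hr
    rw [mul_assoc] at h4
    have h5 := len_mul_le y' (y'⁻¹ * (x * ltr Γ r))
    rw [mul_inv_cancel_left] at h5
    have h6 : Desc x r := by
      unfold NuPre at h'
      unfold Desc
      omega
    have h7 := desc_iff.1 h6
    have h8 : NuPre y' (x * ltr Γ r) := by
      unfold NuPre at h' ⊢
      omega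
    rcases nu_lemA h6 h with h9 | ⟨h9, h10⟩
    · obtain ⟨z, h11, h12, h13⟩ := ih _ y (by omega) h9 h8
      exact ⟨z, h11, h12, by omega⟩
    · obtain ⟨z, h11, h12, h13⟩ := ih _ _ (by omega) h10 h8
      have := desc_iff.1 h9
      exact ⟨z, nuPre_trans h11 (nuPre_desc h9), h12, by omega⟩

open Classical in
/-- the maximal length of a prefix that does not start with `u` -/
noncomputable def nuM (u : V × Bool) (x : RA Γ) : ℕ :=
  Nat.findGreatest (fun n => ∃ y, NuPre y x ∧ ¬ NuPre (ltr Γ u) y ∧ len y = n) (len x)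

theorem nuM_le (u : V × Bool) (x : RA Γ) : nuM u x ≤ len x := by
  classical
  unfold nuM
  convert Nat.findGreatest_le (len x)

theorem nuM_spec (u : V × Bool) (x : RA Γ) :
    ∃ y, NuPre y x ∧ ¬ NuPre (ltr Γ u) y ∧ len y = nuM u x := by
  classical
  unfold nuM
  refine Nat.findGreatest_spec
    (P := fun n => ∃ y, NuPre y x ∧ ¬ NuPre (ltr Γ u) y ∧ len y = n) (Nat.zero_le _)
    ⟨1, nuPre_one x, ?_, nu_len_one⟩
  unfold NuPre
  rw [len_ltr, nu_len_one]
  omega

theorem le_nuM {u : V × Bool} {x y : RA Γ} (h : NuPre y x) (h' : ¬ NuPre (ltr Γ u) y) :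
    len y ≤ nuM u x := by
  classical
  unfold nuM
  refine Nat.le_findGreatest ?_ ⟨y, h, h', rfl⟩
  unfold NuPre at h
  omega

theorem nu_lip (u s : V × Bool) (x : RA Γ) :
    len (x * ltr Γ s) - nuM u (x * ltr Γ s) ≤ len x - nuM u x + 1 := by
  obtain ⟨y, h1, h2, h3⟩ := nuM_spec u x
  have h4 := nuM_le u x
  by_cases hs : Desc x s
  · have h5 := desc_iff.1 hs
    rcases nu_lemA hs h1 with h6 | ⟨h6, h7⟩
    · have := le_nuM h6 h2
      omega
    · have := le_nuM h7 (fun h => h2 (nuPre_trans h (nuPre_desc h6)))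
      have := desc_iff.1 h6
      omega
  · have h5 := not_desc_iff.1 hs
    have := le_nuM (nuPre_trans h1 (nuPre_not_desc hs)) h2
    omega

theorem nu_ne_zero (u : V × Bool) (x : RA Γ) : len x - nuM u x ≠ 0 ↔ Desc x⁻¹ u := by
  rw [nu_first_iff]
  constructor
  · intro h
    by_contra h'
    have := le_nuM (nuPre_refl x) h'
    omega
  · intro h h0
    obtain ⟨y, h1, h2, h3⟩ := nuM_spec u x
    have h4 : len (y⁻¹ * x) = 0 := by
      unfold NuPre at h1
      omega
    have : y = x := inv_mul_eq_one.1 (len_eq_zero.1 h4)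
    subst this
    exact h2 h

theorem nu_sum (x : RA Γ) (S : Finset (V × Bool)) :
    ∃ z, NuPre z x ∧ (∀ u ∈ S, ¬ NuPre (ltr Γ u) z) ∧
      len x ≤ len z + ∑ u ∈ S, (len x - nuM u x) := by
  classical
  induction S using Finset.induction_on with
  | empty => exact ⟨x, nuPre_refl x, by simp, by simp⟩
  | insert u S hu ih =>
    obtain ⟨z, h1, h2, h3⟩ := ih
    obtain ⟨y, h4, h5, h6⟩ := nuM_spec u x
    obtain ⟨z', h7, h8, h9⟩ := nu_lemB y _ x z rfl h1 h4
    refine ⟨z', nuPre_trans h7 h1, fun v hv => ?_, ?_⟩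
    · rcases Finset.mem_insert.1 hv with rfl | hv
      · exact fun h => h5 (nuPre_trans h h8)
      · exact fun h => h2 v hv (nuPre_trans h h7)
    · rw [Finset.sum_insert hu]
      have := nuM_le u x
      omega

end aux

theorem exists_mu {V : Type} [Fintype V] (Γ : SimpleGraph V) : ∃ μ : RA Γ → V → ℕ,
    (∀ x s a, μ (x * ltr Γ s) a ≤ μ x a + 2) ∧
    (∀ x a, μ x a ≠ 0 ↔ ∃ b, Desc x⁻¹ (a, b)) ∧ ∀ x, len x ≤ ∑ a, μ x a := by
  refine ⟨fun x a => (len x - nuM (a, true) x) + (len x - nuM (a, false) x), fun x s a => ?_,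
    fun x a => ?_, fun x => ?_⟩
  · have h1 := nu_lip (a, true) s x
    have h2 := nu_lip (a, false) s x
    beta_reduce
    omega
  · rw [Bool.exists_bool, ← nu_ne_zero, ← nu_ne_zero]
    beta_reduce
    omega
  · obtain ⟨z, -, h2, h3⟩ := nu_sum x Finset.univ
    have hz : z = 1 := by
      by_contra hz
      obtain ⟨s, hs⟩ := exists_desc (x := z⁻¹) (by simpa using hz)
      exact h2 s (Finset.mem_univ _) (nu_first_iff.1 hs)
    rw [hz, nu_len_one, zero_add, Fintype.sum_prod_type] at h3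
    simpa only [Fintype.sum_bool] using h3

end Crest.Agent.R197
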