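import Crest.Agent.R197.Defs
import Crest.Agent.R197.DegDefs

/-! Row 197: right-angled Artin groups, Bestvina–Brady kernels, cubical chains and the cube
complex (definitions). -/

set_option autoImplicit false

namespace Crest.Agent.R197

open Quaternion

variable {V : Type}

/-- Relators of the right-angled Artin group. -/
def raRels (Γ : SimpleGraph V) : Set (FreeGroup V) :=
  {r | ∃ a b, Γ.Adj a b ∧ r = FreeGroup.of a * FreeGroup.of b * (FreeGroup.of a)⁻¹ *
    (FreeGroup.of b)⁻¹}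

/-- The right-angled Artin group. -/
abbrev RA (Γ : SimpleGraph V) : Type := PresentedGroup (raRels Γ)

/-- Standard generators. -/
def gen (Γ : SimpleGraph V) (a : V) : RA Γ := PresentedGroup.of a

/-- Signed letters. -/
def ltr (Γ : SimpleGraph V) (s : V × Bool) : RA Γ := if s.2 then gen Γ s.1 else (gen Γ s.1)⁻¹

/-- Universal property. -/
def raLift {Γ : SimpleGraph V} {K : Type} [Group K] (f : V → K)
    (h : ∀ a b, Γ.Adj a b → Commute (f a) (f b)) : RA Γ →* K :=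
  PresentedGroup.toGroup (f := f) (by
    rintro _ ⟨a, b, hab, rfl⟩
    simp [(h a b hab).eq])

@[simp] theorem raLift_gen {Γ : SimpleGraph V} {K : Type} [Group K] (f : V → K)
    (h : ∀ a b, Γ.Adj a b → Commute (f a) (f b)) (a : V) : raLift f h (gen Γ a) = f a :=
  PresentedGroup.toGroup.of _

theorem gen_commute {Γ : SimpleGraph V} {a b : V} (h : Γ.Adj a b) :
    Commute (gen Γ a) (gen Γ b) := by
  have h1 : (PresentedGroup.mk (raRels Γ) (FreeGroup.of a * FreeGroup.of b *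
      (FreeGroup.of a)⁻¹ * (FreeGroup.of b)⁻¹)) = 1 :=
    PresentedGroup.one_of_mem ⟨a, b, h, rfl⟩
  simp only [map_mul, map_inv] at h1
  exact commutatorElement_eq_one_iff_commute.1 h1

theorem ltr_commute {Γ : SimpleGraph V} {s t : V × Bool} (h : Γ.Adj s.1 t.1) :
    Commute (ltr Γ s) (ltr Γ t) := by
  obtain ⟨a, _ | _⟩ := s <;> obtain ⟨b, _ | _⟩ := t <;> simp [ltr, gen_commute h]

theorem ltr_not (Γ : SimpleGraph V) (s : V × Bool) : ltr Γ (s.1, !s.2) = (ltr Γ s)⁻¹ := by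
  obtain ⟨a, _ | _⟩ := s <;> simp [ltr]

theorem exists_word {Γ : SimpleGraph V} (x : RA Γ) :
    ∃ l : List (V × Bool), (l.map (ltr Γ)).prod = x := by
  obtain ⟨w, rfl⟩ := PresentedGroup.mk_surjective _ x
  induction w using FreeGroup.induction_on with
  | C1 => exact ⟨[], by simp⟩
  | of a => exact ⟨[(a, true)], by simp [ltr, gen, PresentedGroup.of]⟩
  | inv_of a _ => exact ⟨[(a, false)], by simp [ltr, gen, PresentedGroup.of]⟩
  | mul x y hx hy =>
    obtain ⟨l, hl⟩ := hx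
    obtain ⟨m, hm⟩ := hy
    exact ⟨l ++ m, by simp [hl, hm]⟩

/-- The height homomorphism. -/
def htHom (Γ : SimpleGraph V) : RA Γ →* Multiplicative ℤ :=
  raLift (fun _ => Multiplicative.ofAdd 1) fun _ _ _ => Commute.refl _

/-- The height. -/
def ht {Γ : SimpleGraph V} (x : RA Γ) : ℤ := Multiplicative.toAdd (htHom Γ x)

@[simp] theorem ht_one {Γ : SimpleGraph V} : ht (1 : RA Γ) = 0 := by simp [ht]
@[simp] theorem ht_mul {Γ : SimpleGraph V} (x y : RA Γ) : ht (x * y) = ht x + ht y := by simp [ht]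
@[simp] theorem ht_inv {Γ : SimpleGraph V} (x : RA Γ) : ht x⁻¹ = -ht x := by simp [ht]
@[simp] theorem ht_gen {Γ : SimpleGraph V} (a : V) : ht (gen Γ a) = 1 := by simp [ht, htHom]
@[simp] theorem ht_zpow {Γ : SimpleGraph V} (x : RA Γ) (n : ℤ) : ht (x ^ n) = n * ht x := by
  simp [ht]
@[simp] theorem ht_pow {Γ : SimpleGraph V} (x : RA Γ) (n : ℕ) : ht (x ^ n) = n * ht x := by
  simp [ht]

/-- The Bestvina–Brady group. -/
def BB (Γ : SimpleGraph V) : Subgroup (RA Γ) := (htHom Γ).ker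

theorem mem_BB {Γ : SimpleGraph V} {x : RA Γ} : x ∈ BB Γ ↔ ht x = 0 := Iff.rfl

/-- The generators of the Bestvina–Brady group: one for each oriented edge. -/
def bbGen (Γ : SimpleGraph V) (d : Γ.Dart) : BB Γ :=
  ⟨(gen Γ d.fst)⁻¹ * gen Γ d.snd, by simp [mem_BB]⟩

section dec

variable [DecidableEq V]

/-- The abelianisation. -/
def exHom (Γ : SimpleGraph V) : RA Γ →* Multiplicative (V → ℤ) :=
  raLift (fun a => Multiplicative.ofAdd (Pi.single a 1)) fun _ _ _ => Commute.all _ _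

/-- Exponent sums. -/
def ex {Γ : SimpleGraph V} (x : RA Γ) : V → ℤ := Multiplicative.toAdd (exHom Γ x)

@[simp] theorem ex_one {Γ : SimpleGraph V} : ex (1 : RA Γ) = 0 := by simp [ex]
@[simp] theorem ex_mul {Γ : SimpleGraph V} (x y : RA Γ) : ex (x * y) = ex x + ex y := by simp [ex]
@[simp] theorem ex_inv {Γ : SimpleGraph V} (x : RA Γ) : ex x⁻¹ = -ex x := by simp [ex]
@[simp] theorem ex_gen {Γ : SimpleGraph V} (a : V) : ex (gen Γ a) = Pi.single a 1 := by
  simp [ex, exHom]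
@[simp] theorem ex_zpow {Γ : SimpleGraph V} (x : RA Γ) (n : ℤ) : ex (x ^ n) = n • ex x := by
  simp [ex]
@[simp] theorem ex_pow {Γ : SimpleGraph V} (x : RA Γ) (n : ℕ) : ex (x ^ n) = n • ex x := by
  simp [ex]

end dec

/-- Word length. -/
noncomputable def len {Γ : SimpleGraph V} (x : RA Γ) : ℕ :=
  sInf {n | ∃ l : List (V × Bool), l.length = n ∧ (l.map (ltr Γ)).prod = x}

/-- `s` is a descent of `x`. -/
def Desc {Γ : SimpleGraph V} (x : RA Γ) (s : V × Bool) : Prop := len (x * ltr Γ s) < len x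

/-- Equal or adjacent. -/
def AdjEq (Γ : SimpleGraph V) (a b : V) : Prop := a = b ∨ Γ.Adj a b

/-- The support of a vector is a clique. -/
def ClS (Γ : SimpleGraph V) {M : Type} [Zero M] (u : V → M) : Prop :=
  ∀ a b, u a ≠ 0 → u b ≠ 0 → AdjEq Γ a b

/-- Cliques (simplices of the flag complex, including the empty one). -/
def Cl (Γ : SimpleGraph V) : Type := {σ : Finset V // ∀ a ∈ σ, ∀ b ∈ σ, AdjEq Γ a b}

section ord

variable [LinearOrder V] {Γ : SimpleGraph V}

/-- Remove a vertex from a clique. -/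
def Cl.er (σ : Cl Γ) (a : V) : Cl Γ :=
  ⟨σ.1.erase a, fun b hb c hc => σ.2 b (Finset.mem_of_mem_erase hb) c (Finset.mem_of_mem_erase hc)⟩

/-- The incidence sign. -/
def sg (a : V) (σ : Finset V) : ℤ := (-1) ^ (σ.filter (· < a)).card

variable (Γ) in
/-- The augmented simplicial boundary of the flag complex. -/
noncomputable def dL : (Cl Γ →₀ ℤ) →ₗ[ℤ] (Cl Γ →₀ ℤ) :=
  Finsupp.linearCombination ℤ fun σ => ∑ a ∈ σ.1, Finsupp.single (σ.er a) (sg a σ.1)

variable (Γ) in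
/-- Bottom faces of cubes. -/
noncomputable def dm : (RA Γ × Cl Γ →₀ ℤ) →ₗ[ℤ] (RA Γ × Cl Γ →₀ ℤ) :=
  Finsupp.linearCombination ℤ fun x => ∑ a ∈ x.2.1, Finsupp.single (x.1, x.2.er a) (sg a x.2.1)

variable (Γ) in
/-- Top faces of cubes. -/
noncomputable def dp : (RA Γ × Cl Γ →₀ ℤ) →ₗ[ℤ] (RA Γ × Cl Γ →₀ ℤ) :=
  Finsupp.linearCombination ℤ fun x =>
    ∑ a ∈ x.2.1, Finsupp.single (x.1 * gen Γ a, x.2.er a) (sg a x.2.1)

variable (Γ) in
/-- The cubical boundary. -/
noncomputable def dK : (RA Γ × Cl Γ →₀ ℤ) →ₗ[ℤ] (RA Γ × Cl Γ →₀ ℤ) := dp Γ - dm Γ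

end ord

/-- Homogeneous chains. -/
def Hom {X : Type} (deg : X → ℕ) (k : ℕ) (c : X →₀ ℤ) : Prop := ∀ x ∈ c.support, deg x = k

/-- Augmentation. -/
def aug {X : Type} (c : X →₀ ℤ) : ℤ := c.sum fun _ n => n

/-- Dimension of a cube. -/
def cdeg {Γ : SimpleGraph V} (x : RA Γ × Cl Γ) : ℕ := x.2.1.card

/-- Chains of cubes whose bottom vertex has height `j`. -/
def HtH {Γ : SimpleGraph V} (j : ℤ) (c : RA Γ × Cl Γ →₀ ℤ) : Prop := ∀ x ∈ c.support, ht x.1 = j

/-- Left translation of cubical chains. -/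
noncomputable def trl {Γ : SimpleGraph V} (g : RA Γ) (c : RA Γ × Cl Γ →₀ ℤ) : RA Γ × Cl Γ →₀ ℤ :=
  Finsupp.mapDomain (fun x => (g * x.1, x.2)) c

/-- A partial chain contraction of the flag complex in the top degrees. -/
def Contr [LinearOrder V] (Γ : SimpleGraph V) : Prop :=
  ∃ k : (Cl Γ →₀ ℤ) →ₗ[ℤ] (Cl Γ →₀ ℤ),
    (∀ σ : Cl Γ, Hom (fun τ : Cl Γ => τ.1.card) (σ.1.card + 1) (k (Finsupp.single σ 1))) ∧
    (∀ σ : Cl Γ, σ.1.card = 3 → k (dL Γ (Finsupp.single σ 1)) = Finsupp.single σ 1) ∧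
    ∀ σ : Cl Γ, σ.1.card = 2 →
      dL Γ (k (Finsupp.single σ 1)) + k (dL Γ (Finsupp.single σ 1)) = Finsupp.single σ 1

/-- Equivariant contractions for the bottom and top face operators. -/
structure KPM [LinearOrder V] (Γ : SimpleGraph V)
    (km kp : (RA Γ × Cl Γ →₀ ℤ) →ₗ[ℤ] (RA Γ × Cl Γ →₀ ℤ)) : Prop where
  km_trl : ∀ g c, km (trl g c) = trl g (km c)
  kp_trl : ∀ g c, kp (trl g c) = trl g (kp c)
  km_hom : ∀ k c, Hom cdeg k c → Hom cdeg (k + 1) (km c)
  kp_hom : ∀ k c, Hom cdeg k c → Hom cdeg (k + 1) (kp c)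
  km_ht : ∀ j c, HtH j c → HtH j (km c)
  kp_ht : ∀ j c, HtH j c → HtH (j - 1) (kp c)
  km3 : ∀ c, Hom cdeg 3 c → km (dm Γ c) = c
  kp3 : ∀ c, Hom cdeg 3 c → kp (dp Γ c) = c
  km2 : ∀ c, Hom cdeg 2 c → dm Γ (km c) + km (dm Γ c) = c
  kp2 : ∀ c, Hom cdeg 2 c → dp Γ (kp c) + kp (dp Γ c) = c

/-- A flat `S³`-connection on the flag complex with short edges and non-trivial holonomy. -/
def Coc (Γ : SimpleGraph V) : Prop :=
  ∃ c : V → V → S3, (∀ a b e, AdjEq Γ a b → AdjEq Γ b e → AdjEq Γ a e → c a b * c b e = c a e) ∧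
    (∀ a b, Γ.Adj a b → 0 ≤ (c a b : ℍ[ℝ]).re) ∧
    ∃ (u : V) (p : Γ.Walk u u), (p.darts.map fun d => c d.fst d.snd).prod ≠ 1

/-- Vanishing of the first and second integral cohomology, in ordered form. -/
structure Acyc [LinearOrder V] (Γ : SimpleGraph V) : Prop where
  h2 : ∀ φ : V → V → V → ℤ, ∃ f : V → V → ℤ, ∀ a b c, a < b → b < c → Γ.Adj a b → Γ.Adj b c →
    Γ.Adj a c → f b c - f a c + f a b = φ a b c
  h1 : ∀ f : V → V → ℤ, (∀ a b c, a < b → b < c → Γ.Adj a b → Γ.Adj b c → Γ.Adj a c →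
    f b c - f a c + f a b = 0) → ∃ k : V → ℤ, ∀ a b, a < b → Γ.Adj a b → f a b = k b - k a

section cube

variable [Fintype V] [LinearOrder V] {Γ : SimpleGraph V}

variable (Γ) in
/-- The ordered product `∏ a ^ k a`. -/
def PP (k : V → ℤ) : RA Γ := ((Finset.univ.sort (· ≤ ·)).map fun a => gen Γ a ^ k a).prod

open Classical in
/-- The point with coordinates `u` in the flat through `x`, as a weight function on vertices. -/
noncomputable def cpt (x : RA Γ) (u : V → ℝ) : RA Γ → ℝ := fun y =>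
  if x⁻¹ * y = PP Γ (ex (x⁻¹ * y)) then ∏ a, hat (u a - ex (x⁻¹ * y) a) else 0

variable (Γ) in
/-- The cube complex. -/
def Esp : Type := {f : RA Γ → ℝ // ∃ x u, ClS Γ u ∧ f = cpt x u}

instance : TopologicalSpace (Esp Γ) := inferInstanceAs (TopologicalSpace (Subtype _))

instance : T2Space (Esp Γ) := inferInstanceAs (T2Space (Subtype _))

theorem continuous_val : Continuous (fun f : Esp Γ => f.1) := continuous_induced_dom

theorem continuous_val_apply (y : RA Γ) : Continuous (fun f : Esp Γ => f.1 y) :=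
  (continuous_apply y).comp continuous_val

theorem isEmbedding_val : Topology.IsEmbedding (fun f : Esp Γ => f.1) :=
  Topology.IsEmbedding.subtypeVal

/-- A point of the cube complex. -/
noncomputable def ept (x : RA Γ) (u : V → ℝ) (hu : ClS Γ u) : Esp Γ := ⟨cpt x u, x, u, hu, rfl⟩

theorem cpt_smul (g x : RA Γ) (u : V → ℝ) :
    (fun y => cpt x u (g⁻¹ * y)) = cpt (g * x) u := by
  funext y
  have h : x⁻¹ * (g⁻¹ * y) = (g * x)⁻¹ * y := by simp [mul_assoc]
  unfold cpt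
  rw [h]

instance : MulAction (RA Γ) (Esp Γ) where
  smul g f := ⟨fun y => f.1 (g⁻¹ * y), by
    obtain ⟨x, u, hu, h⟩ := f.2
    exact ⟨g * x, u, hu, by rw [h, cpt_smul]⟩⟩
  one_smul f := Subtype.ext (by funext y; change f.1 (1⁻¹ * y) = _; simp)
  mul_smul g h f := Subtype.ext (by
    funext y
    change f.1 ((g * h)⁻¹ * y) = f.1 (h⁻¹ * (g⁻¹ * y))
    simp [mul_assoc])

theorem smul_val (g : RA Γ) (f : Esp Γ) (y : RA Γ) : (g • f).1 y = f.1 (g⁻¹ * y) := rfl

theorem smul_ept (g x : RA Γ) (u : V → ℝ) (hu : ClS Γ u) : g • ept x u hu = ept (g * x) u hu :=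
  Subtype.ext (cpt_smul g x u)

instance : ContinuousConstSMul (RA Γ) (Esp Γ) :=
  ⟨fun g => continuous_induced_rng.2 (continuous_pi fun y => continuous_val_apply (g⁻¹ * y))⟩

theorem continuous_cpt (x : RA Γ) : Continuous (cpt x : (V → ℝ) → RA Γ → ℝ) := by
  refine continuous_pi fun y => ?_
  unfold cpt
  split_ifs
  · exact continuous_finsetProd _ fun a _ => continuous_hat.comp (by fun_prop)
  · exact continuous_const

variable (Γ) in
/-- The filtration by distance from the base vertex. -/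
def Elev (n : ℕ) : Set (Esp Γ) := {f | ∀ y, n < len y → f.1 y = 0}

end cube

end Crest.Agent.R197
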