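import Crest.Agent.R197.LenB

/-! Right-angled Artin groups are residually finite. -/

set_option autoImplicit false

namespace Crest.Agent.R197

section canonical

variable {G : Type} [Group G]

/-- backward extent of the `a`-segment of `B` through `y` -/
noncomputable def rfP (B : Set G) (a y : G) : ℕ := sInf {m | y * a⁻¹ ^ (m + 1) ∉ B}

open Classical in
/-- the cyclic successor of `y` in its `a`-segment is `y * rfK B a y` -/
noncomputable def rfK (B : Set G) (a y : G) : G := if y * a ∈ B then a else a⁻¹ ^ rfP B a y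

theorem rfP_not {B : Set G} {a y : G} (h : ∃ m : ℕ, y * a⁻¹ ^ (m + 1) ∉ B) :
    y * a⁻¹ ^ (rfP B a y + 1) ∉ B := Nat.sInf_mem (s := {m | y * a⁻¹ ^ (m + 1) ∉ B}) h

theorem rfP_mem {B : Set G} {a y : G} (hy : y ∈ B) {i : ℕ} (hi : i ≤ rfP B a y) :
    y * a⁻¹ ^ i ∈ B := by
  cases i with
  | zero => simpa using hy
  | succ j =>
    have := Nat.notMem_of_lt_sInf (s := {m | y * a⁻¹ ^ (m + 1) ∉ B}) (Nat.lt_of_succ_le hi)
    simpa using this

theorem rfK_mem {B : Set G} (a : G) {y : G} (hy : y ∈ B) : y * rfK B a y ∈ B := by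
  unfold rfK
  split_ifs with h
  · exact h
  · exact rfP_mem hy le_rfl

theorem rfK_inj {B : Set G} {a : G} (hex : ∀ y : G, ∃ m : ℕ, y * a⁻¹ ^ (m + 1) ∉ B) {y y' : G}
    (hy : y ∈ B) (hy' : y' ∈ B) (h : y * rfK B a y = y' * rfK B a y') : y = y' := by
  have key : ∀ {y y' : G}, y ∈ B → y * a = y' * a⁻¹ ^ rfP B a y' → False := by
    intro y y' hy h
    refine rfP_not (hex y') ?_
    rw [pow_succ, ← mul_assoc, ← h, mul_inv_cancel_right]
    exact hy
  have key2 : ∀ {y y' : G}, y' ∈ B → y * a ∉ B → rfP B a y < rfP B a y' →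
      y * a⁻¹ ^ rfP B a y = y' * a⁻¹ ^ rfP B a y' → False := by
    intro y y' hy' hn hlt h
    obtain ⟨d, hd⟩ := Nat.exists_eq_add_of_lt hlt
    have h1 : y' * a⁻¹ ^ d ∈ B := rfP_mem hy' (by omega)
    rw [hd, show rfP B a y + d + 1 = (d + 1) + rfP B a y by omega, pow_add, ← mul_assoc,
      mul_left_inj] at h
    rw [h, pow_succ, ← mul_assoc, inv_mul_cancel_right] at hn
    exact hn h1
  unfold rfK at h
  split_ifs at h with h1 h2 h2
  · exact mul_right_cancel h
  · exact (key hy h).elim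
  · exact (key hy' h.symm).elim
  · rcases lt_trichotomy (rfP B a y) (rfP B a y') with h3 | h3 | h3
    · exact (key2 hy' h1 h3 h).elim
    · rw [h3] at h
      exact mul_right_cancel h
    · exact (key2 hy h2 h3 h.symm).elim

/-- `B` is closed under completing squares with sides `a^{±1}`, `b^{±1}` -/
def RfSq (B : Set G) (a b : G) : Prop :=
  ∀ y s t : G, (s = a ∨ s = a⁻¹) → (t = b ∨ t = b⁻¹) → y ∈ B → y * s ∈ B → y * t ∈ B →
    y * s * t ∈ B

theorem RfSq.pow {B : Set G} {a b : G} (hc : Commute a b) (h : RfSq B a b) {y t : G}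
    (ht : t = b ∨ t = b⁻¹) (hy : y ∈ B) (hyt : y * t ∈ B) {i : ℕ} (hi : i ≤ rfP B a y) :
    y * t * a⁻¹ ^ i ∈ B := by
  have hct : Commute a⁻¹ t := by
    rcases ht with rfl | rfl
    · exact hc.inv_left
    · exact hc.inv_inv
  have e : ∀ j : ℕ, y * t * a⁻¹ ^ j = y * a⁻¹ ^ j * t := fun j => by
    rw [mul_assoc, mul_assoc, (hct.pow_left j).eq]
  induction i with
  | zero => simpa using hyt
  | succ j ih =>
    have h1 := ih (Nat.le_of_succ_le hi)
    rw [e] at h1 ⊢
    have h2 := rfP_mem hy hi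
    rw [pow_succ, ← mul_assoc] at h2 ⊢
    exact h _ _ _ (Or.inr rfl) ht (rfP_mem hy (Nat.le_of_succ_le hi)) h2 h1

theorem RfSq.P_le {B : Set G} {a b : G} (hex : ∀ y : G, ∃ m : ℕ, y * a⁻¹ ^ (m + 1) ∉ B)
    (hc : Commute a b) (h : RfSq B a b) {y t : G}
    (ht : t = b ∨ t = b⁻¹) (hy : y ∈ B) (hyt : y * t ∈ B) : rfP B a y ≤ rfP B a (y * t) := by
  by_contra hlt
  exact rfP_not (hex (y * t)) (h.pow hc ht hy hyt (by omega))

theorem RfSq.fwd {B : Set G} {a b : G} (hc : Commute a b) (h : RfSq B a b) {y t : G}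
    (ht : t = b ∨ t = b⁻¹) (hy : y ∈ B) (hyt : y * t ∈ B) (hya : y * a ∈ B) : y * t * a ∈ B := by
  have hct : Commute a t := by
    rcases ht with rfl | rfl
    · exact hc
    · exact hc.inv_right
  rw [mul_assoc, ← hct.eq, ← mul_assoc]
  exact h _ _ _ (Or.inl rfl) ht hy hya hyt

theorem RfSq.K_step {B : Set G} {a b : G} (hex : ∀ y : G, ∃ m : ℕ, y * a⁻¹ ^ (m + 1) ∉ B)
    (hc : Commute a b) (h : RfSq B a b) {y t : G}
    (ht : t = b ∨ t = b⁻¹) (hy : y ∈ B) (hyt : y * t ∈ B) : rfK B a (y * t) = rfK B a y := by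
  have ht' : t⁻¹ = b ∨ t⁻¹ = b⁻¹ := by
    rcases ht with rfl | rfl
    · exact Or.inr rfl
    · exact Or.inl (inv_inv _)
  have e : y * t * t⁻¹ = y := mul_inv_cancel_right _ _
  have hy' : y * t * t⁻¹ ∈ B := by rwa [e]
  have h1 : rfP B a (y * t) = rfP B a y := by
    refine le_antisymm ?_ (h.P_le hex hc ht hy hyt)
    have := h.P_le hex hc ht' hyt hy'
    rwa [e] at this
  have h2 : y * t * a ∈ B ↔ y * a ∈ B := by
    refine ⟨fun h3 => ?_, h.fwd hc ht hy hyt⟩
    have := h.fwd hc ht' hyt hy' h3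
    rwa [e] at this
  unfold rfK
  rw [h1]
  by_cases h3 : y * a ∈ B
  · rw [if_pos h3, if_pos (h2.2 h3)]
  · rw [if_neg h3, if_neg fun h4 => h3 (h2.1 h4)]

theorem RfSq.K_K {B : Set G} {a b : G} (hex : ∀ y : G, ∃ m : ℕ, y * a⁻¹ ^ (m + 1) ∉ B)
    (hc : Commute a b) (h : RfSq B a b) {y : G} (hy : y ∈ B) :
    rfK B a (y * rfK B b y) = rfK B a y := by
  have key : ∀ i : ℕ, i ≤ rfP B b y → rfK B a (y * b⁻¹ ^ i) = rfK B a y := by
    intro i hi
    induction i with
    | zero => simp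
    | succ j ih =>
      have h2 := rfP_mem hy hi
      rw [pow_succ, ← mul_assoc] at h2 ⊢
      rw [h.K_step hex hc (Or.inr rfl) (rfP_mem hy (Nat.le_of_succ_le hi)) h2,
        ih (Nat.le_of_succ_le hi)]
  by_cases h1 : y * b ∈ B
  · have e : rfK B b y = b := if_pos h1
    rw [e]
    exact h.K_step hex hc (Or.inl rfl) hy h1
  · have e : rfK B b y = b⁻¹ ^ rfP B b y := if_neg h1
    rw [e]
    exact key _ le_rfl

theorem rfK_commute {B : Set G} {a b : G} (hc : Commute a b) (y z : G) :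
    Commute (rfK B a y) (rfK B b z) := by
  unfold rfK
  split_ifs
  · exact hc
  · exact hc.inv_right.pow_right _
  · exact hc.inv_left.pow_left _
  · exact hc.inv_inv.pow_pow _ _

/-- the canonical completion of the partial translation by `a` -/
noncomputable def rfPerm {B : Set G} (hB : B.Finite) {a : G}
    (hex : ∀ y : G, ∃ m : ℕ, y * a⁻¹ ^ (m + 1) ∉ B) : Equiv.Perm B :=
  haveI := hB.to_subtype
  Equiv.ofBijective (fun y : B => (⟨y.1 * rfK B a y.1, rfK_mem a y.2⟩ : B))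
    (Finite.injective_iff_bijective.1 fun y y' h =>
      Subtype.ext (rfK_inj hex y.2 y'.2 (congrArg Subtype.val h)))

theorem rfPerm_val {B : Set G} (hB : B.Finite) {a : G}
    (hex : ∀ y : G, ∃ m : ℕ, y * a⁻¹ ^ (m + 1) ∉ B) (y : B) :
    (rfPerm hB hex y).1 = y.1 * rfK B a y.1 := rfl

theorem rfPerm_commute {B : Set G} (hB : B.Finite) {a b : G}
    (hex : ∀ y : G, ∃ m : ℕ, y * a⁻¹ ^ (m + 1) ∉ B)
    (hex' : ∀ y : G, ∃ m : ℕ, y * b⁻¹ ^ (m + 1) ∉ B) (hc : Commute a b) (h : RfSq B a b)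
    (h' : RfSq B b a) : Commute (rfPerm hB hex) (rfPerm hB hex') := by
  ext y
  rw [Equiv.Perm.mul_apply, Equiv.Perm.mul_apply, rfPerm_val, rfPerm_val, rfPerm_val, rfPerm_val,
    h.K_K hex hc y.2, h'.K_K hex' hc.symm y.2, mul_assoc, mul_assoc, (rfK_commute hc _ _).eq]

theorem rfPerm_fwd {B : Set G} (hB : B.Finite) {a : G}
    (hex : ∀ y : G, ∃ m : ℕ, y * a⁻¹ ^ (m + 1) ∉ B) (y z : B) (h : z.1 = y.1 * a) :
    rfPerm hB hex y = z := by
  refine Subtype.ext ?_
  have h1 : y.1 * a ∈ B := h ▸ z.2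
  have e : rfK B a y.1 = a := if_pos h1
  rw [rfPerm_val, e, h]

end canonical

theorem rf_len_square {V : Type} {Γ : SimpleGraph V} (z : RA Γ) {s t : V × Bool}
    (h : Γ.Adj s.1 t.1) :
    len (z * ltr Γ s * ltr Γ t) + len z = len (z * ltr Γ s) + len (z * ltr Γ t) := by
  by_cases hd : Desc z t
  · have h1 := desc_iff.1 hd
    have h2 := desc_iff.1 ((desc_mul_iff h).2 hd)
    omega
  · have h1 := not_desc_iff.1 hd
    have h2 := not_desc_iff.1 fun h3 => hd ((desc_mul_iff (x := z) h).1 h3)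
    omega

theorem ra_residuallyFinite {V : Type} [Finite V] (Γ : SimpleGraph V) :
    Group.ResiduallyFinite (RA Γ) := by
  refine Group.residuallyFinite_of_forall_exists_finite_monoidHom.{0} fun x hx => ?_
  let B : Set (RA Γ) := {y | len y + len (x⁻¹ * y) ≤ len x}
  have hB : B.Finite := (finite_len_le (len x)).subset fun y hy =>
    le_trans (Nat.le_add_right _ _) hy
  have hge : ∀ y : RA Γ, len x ≤ len y + len (x⁻¹ * y) := fun y => by
    have h1 := len_mul_le y (x⁻¹ * y)⁻¹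
    rw [len_inv] at h1
    simpa using h1
  have hex : ∀ (a : V) (y : RA Γ), ∃ m : ℕ, y * (gen Γ a)⁻¹ ^ (m + 1) ∉ B := fun a y => by
    by_contra hc
    push Not at hc
    refine Set.infinite_of_injective_forall_mem (f := fun m : ℕ => y * (gen Γ a)⁻¹ ^ (m + 1))
      (fun m n hmn => ?_) hc hB
    have := congrArg ht hmn
    simp only [ht_mul, ht_pow, ht_inv, ht_gen] at this
    push_cast at this
    omega
  have hsq : ∀ a b, Γ.Adj a b → RfSq B (gen Γ a) (gen Γ b) := by
    intro a b hab y s t hs ht hy hys hyt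
    obtain ⟨s', rfl⟩ : ∃ s' : Bool, s = ltr Γ (a, s') := by
      rcases hs with rfl | rfl
      · exact ⟨true, rfl⟩
      · exact ⟨false, rfl⟩
    obtain ⟨t', rfl⟩ : ∃ t' : Bool, t = ltr Γ (b, t') := by
      rcases ht with rfl | rfl
      · exact ⟨true, rfl⟩
      · exact ⟨false, rfl⟩
    have h1 := rf_len_square y (s := (a, s')) (t := (b, t')) hab
    have h2 := rf_len_square (x⁻¹ * y) (s := (a, s')) (t := (b, t')) hab
    have h3 := hge y
    simp only [B, Set.mem_ofPred_eq, ← mul_assoc] at hy hys hyt ⊢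
    omega
  let φ : RA Γ →* Equiv.Perm B := raLift (fun a => (rfPerm hB (hex a))⁻¹) fun a b hab =>
    (rfPerm_commute hB (hex a) (hex b) (gen_commute hab) (hsq a b hab) (hsq b a hab.symm)).inv_inv
  have hφ : ∀ (s : V × Bool) (y z : B), z.1 = y.1 * ltr Γ s → φ (ltr Γ s) z = y := by
    rintro ⟨a, _ | _⟩ y z h
    · have e : ltr Γ (a, false) = (gen Γ a)⁻¹ := rfl
      rw [e] at h ⊢
      rw [map_inv, raLift_gen, inv_inv]
      exact rfPerm_fwd hB (hex a) z y (by rw [h, inv_mul_cancel_right])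
    · have e : ltr Γ (a, true) = gen Γ a := rfl
      rw [e] at h ⊢
      rw [raLift_gen, Equiv.Perm.inv_eq_iff_eq]
      exact (rfPerm_fwd hB (hex a) y z h).symm
  have hxB : x ∈ B := by
    show len x + len (x⁻¹ * x) ≤ len x
    rw [inv_mul_cancel, len_eq_zero.2 rfl, add_zero]
  have h1B : (1 : RA Γ) ∈ B := by
    show len (1 : RA Γ) + len (x⁻¹ * 1) ≤ len x
    rw [mul_one, len_eq_zero.2 rfl, zero_add, len_inv]
  have key : ∀ (l : List (V × Bool)) (y : B), len y.1 + l.length ≤ len x →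
      y.1 * (l.map (ltr Γ)).prod = x → φ (l.map (ltr Γ)).prod ⟨x, hxB⟩ = y := by
    intro l
    induction l with
    | nil =>
      intro y _ h
      simp only [List.map_nil, List.prod_nil, mul_one, map_one, Equiv.Perm.one_apply] at h ⊢
      exact Subtype.ext h.symm
    | cons s l ih =>
      intro y h1 h2
      rw [List.map_cons, List.prod_cons] at h2 ⊢
      rw [List.length_cons] at h1
      have h3 : len (y.1 * ltr Γ s) ≤ len y.1 + 1 := by
        rcases len_mul_ltr y.1 s with h | h <;> omega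
      have h4 : len (x⁻¹ * (y.1 * ltr Γ s)) ≤ l.length := by
        have e : x⁻¹ * (y.1 * ltr Γ s) = (l.map (ltr Γ)).prod⁻¹ := by
          rw [← h2]; group
        rw [e, len_inv]
        exact len_le_length l
      have h5 : y.1 * ltr Γ s ∈ B := by
        show len (y.1 * ltr Γ s) + len (x⁻¹ * (y.1 * ltr Γ s)) ≤ len x
        omega
      rw [map_mul, Equiv.Perm.mul_apply, ih ⟨_, h5⟩ (by show len (y.1 * ltr Γ s) + _ ≤ _; omega)
        (by rw [← h2, mul_assoc])]
      exact hφ s y _ rfl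
  have := hB.to_subtype
  refine ⟨Equiv.Perm B, inferInstance, inferInstance, φ, fun h => hx ?_⟩
  obtain ⟨l, hl, hl'⟩ := exists_geodesic x
  have h2 := key l ⟨1, h1B⟩ (by rw [len_eq_zero.2 rfl, zero_add, hl]) (by rw [one_mul, hl'])
  rw [hl', h] at h2
  exact congrArg Subtype.val h2

end Crest.Agent.R197
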