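import Crest.Agent.R197.KosB

/-! Filling cycles inside a slab; generation of the Bestvina–Brady group. -/

set_option autoImplicit false

namespace Crest.Agent.R197

section pj

variable {V : Type} {Γ : SimpleGraph V}

/-- The part of a chain of height `j`. -/
noncomputable def slabPj (j : ℤ) : (RA Γ × Cl Γ →₀ ℤ) →+ (RA Γ × Cl Γ →₀ ℤ) :=
  Finsupp.filterAddHom fun x => ht x.1 = j

theorem slabPj_apply (j : ℤ) (c : RA Γ × Cl Γ →₀ ℤ) (x : RA Γ × Cl Γ) :
    slabPj j c x = if ht x.1 = j then c x else 0 := rfl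

theorem slabPj_self {j : ℤ} {c : RA Γ × Cl Γ →₀ ℤ} (h : HtH j c) : slabPj j c = c := by
  ext x
  rw [slabPj_apply]
  split_ifs with hx
  · rfl
  · by_contra hc
    exact hx (h x (Finsupp.mem_support_iff.2 (Ne.symm hc)))

theorem slabPj_ne {i j : ℤ} {c : RA Γ × Cl Γ →₀ ℤ} (h : HtH i c) (hij : i ≠ j) :
    slabPj j c = 0 := by
  ext x
  rw [slabPj_apply]
  split_ifs with hx
  · by_contra hc
    exact hij ((h x (Finsupp.mem_support_iff.2 hc)).symm.trans hx)
  · rfl

theorem slabPj_ht (j : ℤ) (c : RA Γ × Cl Γ →₀ ℤ) : HtH j (slabPj j c) := by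
  intro x hx
  rw [Finsupp.mem_support_iff, slabPj_apply] at hx
  by_contra h
  exact hx (if_neg h)

theorem slabPj_hom {k : ℕ} (j : ℤ) {c : RA Γ × Cl Γ →₀ ℤ} (h : Hom cdeg k c) :
    Hom cdeg k (slabPj j c) := by
  intro x hx
  refine h x ?_
  rw [Finsupp.mem_support_iff, slabPj_apply] at hx
  rw [Finsupp.mem_support_iff]
  intro h0
  simp [h0] at hx

theorem slab_htH_single (x : RA Γ × Cl Γ) (n : ℤ) : HtH (ht x.1) (Finsupp.single x n) := by
  intro y hy
  rw [Finset.mem_singleton.1 (Finsupp.support_single_subset hy)]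

theorem slab_bound (c : RA Γ × Cl Γ →₀ ℤ) :
    ∃ N : ℕ, ∀ j : ℤ, (N : ℤ) ≤ |j| → slabPj j c = 0 := by
  refine ⟨c.support.sup (fun x => (ht x.1).natAbs) + 1, fun j hj => ?_⟩
  ext x
  rw [slabPj_apply]
  split_ifs with hx
  · by_contra hc
    have h1 : (ht x.1).natAbs ≤ c.support.sup (fun x => (ht x.1).natAbs) :=
      Finset.le_sup (f := fun x : RA Γ × Cl Γ => (ht x.1).natAbs) (Finsupp.mem_support_iff.2 hc)
    rw [hx] at h1
    rw [← Int.natCast_natAbs] at hj
    omega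
  · rfl

theorem slab_htH_of {i : ℤ} {c : RA Γ × Cl Γ →₀ ℤ} (h : ∀ j, j ≠ i → slabPj j c = 0) :
    HtH i c := by
  intro x hx
  by_contra hne
  have := DFunLike.congr_fun (h _ hne) x
  rw [slabPj_apply, if_pos rfl] at this
  exact Finsupp.mem_support_iff.1 hx this

variable [LinearOrder V]

theorem slabPj_dm (j : ℤ) (c : RA Γ × Cl Γ →₀ ℤ) : slabPj j (dm Γ c) = dm Γ (slabPj j c) := by
  induction c using Finsupp.induction_linear with
  | zero => simp
  | add f g hf hg => simp only [map_add, hf, hg]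
  | single x n =>
    have h := slab_htH_single x n
    by_cases hx : ht x.1 = j
    · rw [hx] at h
      rw [slabPj_self h, slabPj_self h.dm]
    · rw [slabPj_ne h hx, slabPj_ne h.dm hx, map_zero]

theorem slabPj_dp (j : ℤ) (c : RA Γ × Cl Γ →₀ ℤ) :
    slabPj (j + 1) (dp Γ c) = dp Γ (slabPj j c) := by
  induction c using Finsupp.induction_linear with
  | zero => simp
  | add f g hf hg => simp only [map_add, hf, hg]
  | single x n =>
    have h := slab_htH_single x n
    by_cases hx : ht x.1 = j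
    · rw [hx] at h
      rw [slabPj_self h, slabPj_self h.dp]
    · rw [slabPj_ne h hx, slabPj_ne h.dp (by omega), map_zero]

theorem slabPj_dK (j : ℤ) (c : RA Γ × Cl Γ →₀ ℤ) :
    slabPj (j + 1) (dK Γ c) = dp Γ (slabPj j c) - dm Γ (slabPj (j + 1) c) := by
  rw [dK, LinearMap.sub_apply, map_sub, slabPj_dp, slabPj_dm]

theorem slab_down {km kp} (H : KPM Γ km kp) {z : RA Γ × Cl Γ →₀ ℤ} (hz : HtH (-1) z) (N : ℕ) :
    ∀ c, Hom cdeg 2 c → dK Γ c = z → (∀ j : ℤ, (N : ℤ) ≤ j → slabPj j c = 0) →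
      ∃ c', Hom cdeg 2 c' ∧ dK Γ c' = z ∧ ∀ j : ℤ, 0 ≤ j → slabPj j c' = 0 := by
  induction N with
  | zero => exact fun c h1 h2 h3 => ⟨c, h1, h2, fun j hj => h3 j (by simpa using hj)⟩
  | succ N ih =>
    intro c h1 h2 h3
    have a1 : Hom cdeg 2 (slabPj N c) := slabPj_hom _ h1
    have a2 : dp Γ (slabPj N c) = 0 := by
      have := slabPj_dK (N : ℤ) c
      rw [h2, slabPj_ne hz (by omega), h3 (N + 1) (by omega), map_zero, sub_zero] at this
      exact this.symm
    have a3 : dp Γ (kp (slabPj N c)) = slabPj N c := by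
      have := H.kp2 _ a1
      rwa [a2, map_zero, add_zero] at this
    have a4 : HtH ((N : ℤ) - 1) (dm Γ (kp (slabPj N c))) := (H.kp_ht _ _ (slabPj_ht _ _)).dm
    refine ih (c - dK Γ (kp (slabPj N c))) (h1.sub (H.kp_hom _ _ a1).dK)
      (by rw [map_sub, dK_dK, sub_zero, h2]) fun j hj => ?_
    rw [dK, LinearMap.sub_apply, a3, map_sub, map_sub, slabPj_ne a4 (by omega), sub_zero]
    rcases hj.eq_or_lt with rfl | hj
    · rw [slabPj_self (slabPj_ht _ _), sub_self]
    · rw [slabPj_ne (slabPj_ht _ _) hj.ne, h3 _ (by omega), sub_zero]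

theorem slab_up {km kp} (H : KPM Γ km kp) {z : RA Γ × Cl Γ →₀ ℤ} (hz : HtH (-1) z) (N : ℕ) :
    ∀ c, Hom cdeg 2 c → dK Γ c = z → (∀ j : ℤ, 0 ≤ j → slabPj j c = 0) →
      (∀ j : ℤ, j < -1 - (N : ℤ) → slabPj j c = 0) →
      ∃ c', Hom cdeg 2 c' ∧ HtH (-1) c' ∧ dK Γ c' = z := by
  induction N with
  | zero =>
    refine fun c h1 h2 h3 h4 => ⟨c, h1, slab_htH_of fun j hj => ?_, h2⟩
    by_cases h : 0 ≤ j
    · exact h3 j h
    · exact h4 j (by omega)
  | succ N ih =>
    intro c h1 h2 h3 h4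
    obtain ⟨m, hm⟩ : ∃ m : ℤ, m = -2 - N := ⟨_, rfl⟩
    have a1 : Hom cdeg 2 (slabPj m c) := slabPj_hom _ h1
    have a2 : dm Γ (slabPj m c) = 0 := by
      have := slabPj_dK (m - 1) c
      rw [h2, slabPj_ne hz (by omega), h4 _ (by omega), map_zero, zero_sub, sub_add_cancel] at this
      exact neg_eq_zero.1 this.symm
    have a3 : dm Γ (km (slabPj m c)) = slabPj m c := by
      have := H.km2 _ a1
      rwa [a2, map_zero, add_zero] at this
    have a4 : HtH (m + 1) (dp Γ (km (slabPj m c))) := (H.km_ht _ _ (slabPj_ht _ _)).dp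
    refine ih (c + dK Γ (km (slabPj m c))) (h1.add (H.km_hom _ _ a1).dK)
      (by rw [map_add, dK_dK, add_zero, h2]) (fun j hj => ?_) fun j hj => ?_
    · rw [dK, LinearMap.sub_apply, a3, map_add, map_sub, slabPj_ne a4 (by omega),
        slabPj_ne (slabPj_ht _ _) (by omega), h3 _ hj, sub_zero, add_zero]
    · rw [dK, LinearMap.sub_apply, a3, map_add, map_sub, slabPj_ne a4 (by omega), zero_sub]
      rcases (show j ≤ m by omega).eq_or_lt with rfl | hj
      · rw [slabPj_self (slabPj_ht _ _), add_neg_cancel]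
      · rw [slabPj_ne (slabPj_ht _ _) hj.ne', h4 _ (by omega), neg_zero, add_zero]

end pj

section gen

variable {V : Type} {Γ : SimpleGraph V}

/-- The subgroup generated by the edge elements. -/
def slabN (Γ : SimpleGraph V) : Subgroup (RA Γ) :=
  Subgroup.closure {x | ∃ a b, Γ.Adj a b ∧ x = (gen Γ a)⁻¹ * gen Γ b}

theorem slabN_adj {a b : V} (h : Γ.Adj a b) : (gen Γ a)⁻¹ * gen Γ b ∈ slabN Γ :=
  Subgroup.subset_closure ⟨a, b, h, rfl⟩

theorem slabN_walk {a b : V} (p : Γ.Walk a b) :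
    (gen Γ a)⁻¹ * gen Γ b ∈ slabN Γ ∧ gen Γ a * (gen Γ b)⁻¹ ∈ slabN Γ := by
  induction p with
  | nil => simp
  | @cons a b c h p ih =>
    constructor
    · have := mul_mem (slabN_adj h) ih.1
      simpa [mul_assoc] using this
    · have h1 := slabN_adj h.symm
      rw [(gen_commute h.symm).inv_left.eq] at h1
      have := mul_mem h1 ih.2
      simpa [mul_assoc] using this

theorem slabN_conj (h : Γ.Connected) (s : V × Bool) {n : RA Γ} (hn : n ∈ slabN Γ) :
    ltr Γ s * n * (ltr Γ s)⁻¹ ∈ slabN Γ := by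
  induction hn using Subgroup.closure_induction with
  | mem x hx =>
    obtain ⟨a, b, hab, rfl⟩ := hx
    obtain ⟨v, _ | _⟩ := s
    · obtain ⟨p⟩ := h v b
      obtain ⟨q⟩ := h a v
      have := mul_mem (slabN_walk p).1 (slabN_walk q).1
      rw [(gen_commute hab).inv_left.eq]
      simpa [ltr, mul_assoc] using this
    · obtain ⟨p⟩ := h v a
      obtain ⟨q⟩ := h b v
      have := mul_mem (slabN_walk p).2 (slabN_walk q).2
      simpa [ltr, mul_assoc] using this
  | one => simp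
  | mul x y _ _ hx hy =>
    have := mul_mem hx hy
    simpa [mul_assoc] using this
  | inv x _ hx =>
    have := inv_mem hx
    simpa [mul_assoc] using this

theorem slabN_normal (h : Γ.Connected) : (slabN Γ).Normal := by
  refine ⟨fun n hn g => ?_⟩
  obtain ⟨l, rfl⟩ := exists_word g
  induction l with
  | nil => simpa using hn
  | cons s l ih =>
    have := slabN_conj h s ih
    simpa [mul_assoc] using this

theorem slabN_of_mem_BB (h : Γ.Connected) {x : RA Γ} (hx : x ∈ BB Γ) : x ∈ slabN Γ := by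
  have := slabN_normal h
  obtain ⟨t⟩ := h.nonempty
  have key : QuotientGroup.mk' (slabN Γ) =
      (zpowersHom _ (QuotientGroup.mk' (slabN Γ) (gen Γ t))).comp (htHom Γ) := by
    refine PresentedGroup.ext fun a => ?_
    change QuotientGroup.mk' (slabN Γ) (gen Γ a) =
      zpowersHom _ (QuotientGroup.mk' (slabN Γ) (gen Γ t)) (htHom Γ (gen Γ a))
    obtain ⟨p⟩ := h a t
    rw [htHom, raLift_gen, zpowersHom_apply, toAdd_ofAdd, zpow_one]
    exact QuotientGroup.eq.2 (slabN_walk p).1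
  have h1 := DFunLike.congr_fun key x
  rw [MonoidHom.comp_apply, MonoidHom.mem_ker.1 hx, map_one] at h1
  exact (QuotientGroup.eq_one_iff x).1 h1

end gen

variable {V : Type} [Fintype V] [LinearOrder V] {Γ : SimpleGraph V}

theorem slab_fill (h : Contr Γ) {z : RA Γ × Cl Γ →₀ ℤ} (h1 : Hom cdeg 1 z) (hz : HtH (-1) z)
    (hd : dK Γ z = 0) : ∃ c, Hom cdeg 2 c ∧ HtH (-1) c ∧ dK Γ c = z := by
  obtain ⟨km, kp, H⟩ := exists_KPM h
  obtain ⟨c, hc, hcz⟩ := dK_exact h1 hd (by simp)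
  obtain ⟨N, hN⟩ := slab_bound c
  obtain ⟨c', a1, a2, a3⟩ := slab_down H hz N c hc hcz fun j hj => hN j (hj.trans (le_abs_self j))
  obtain ⟨N', hN'⟩ := slab_bound c'
  exact slab_up H hz N' c' a1 a2 a3 fun j hj => hN' j (le_trans (by omega) (neg_le_abs j))

theorem bbGen_surjective (h : Γ.Connected) :
    Function.Surjective (FreeGroup.lift (bbGen Γ)) := by
  intro x
  have h1 : slabN Γ ≤ ((FreeGroup.lift (bbGen Γ)).range.map (BB Γ).subtype) := by
    rw [slabN, Subgroup.closure_le]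
    rintro _ ⟨a, b, hab, rfl⟩
    exact ⟨bbGen Γ ⟨(a, b), hab⟩, ⟨FreeGroup.of ⟨(a, b), hab⟩, by simp⟩, rfl⟩
  obtain ⟨y, ⟨w, rfl⟩, hy⟩ := h1 (slabN_of_mem_BB h x.2)
  exact ⟨w, Subtype.ext hy⟩

theorem bb_fg (h : Γ.Connected) : Group.FG (BB Γ) := by
  classical
  exact Group.fg_of_surjective (bbGen_surjective h)

end Crest.Agent.R197
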