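import Crest.Agent.R197.Defs

/-! Row 197: definitions for extracting a presentation from a two-dimensional CW complex. -/

set_option autoImplicit false

namespace Crest.Agent.R197

open Set Metric Topology unitInterval

/-- A multiplicative homotopy invariant of paths. -/
structure PHol (Y : Type) [TopologicalSpace Y] (U : Type) [Group U] where
  /-- the holonomy -/
  h : ∀ {x y : Y}, Path x y → U
  homotopic : ∀ {x y : Y} {p q : Path x y}, p.Homotopic q → h p = h q
  trans : ∀ {x y z : Y} (p : Path x y) (q : Path y z), h (p.trans q) = h p * h q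

namespace PHol

variable {Y U : Type} [TopologicalSpace Y] [Group U] (H : PHol Y U)

theorem refl (x : Y) : H.h (Path.refl x) = 1 := by
  have h := H.trans (Path.refl x) (Path.refl x)
  rw [H.homotopic ⟨Path.Homotopy.reflTrans _⟩] at h
  simpa using h

theorem symm {x y : Y} (p : Path x y) : H.h p.symm = (H.h p)⁻¹ := by
  have h := H.trans p p.symm
  rw [← H.homotopic ⟨Path.Homotopy.reflTransSymm p⟩, H.refl] at h
  exact eq_inv_of_mul_eq_one_right h.symm

theorem cast {x y x' y' : Y} (p : Path x y) (hx : x' = x) (hy : y' = y) :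
    H.h (p.cast hx hy) = H.h p := by
  subst hx hy; rfl

/-- Pull back along a continuous map. -/
def comap {Z : Type} [TopologicalSpace Z] {f : Z → Y} (hf : Continuous f) : PHol Z U where
  h p := H.h (p.map hf)
  homotopic h := H.homotopic (h.map ⟨f, hf⟩)
  trans p q := by rw [Path.map_trans, H.trans]

end PHol

/-- A local system given by charts with locally constant transition functions. -/
structure LocSys (Y : Type) [TopologicalSpace Y] (U : Type) [Group U] where
  /-- index type of the charts -/
  ι : Type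
  /-- the charts -/
  O : ι → Set Y
  /-- the trivialisations -/
  f : ι → Y → U
  isOpen : ∀ i, IsOpen (O i)
  cover : ∀ y, ∃ i, y ∈ O i
  lc : ∀ i j, ∀ y ∈ O i ∩ O j, ∀ᶠ z in 𝓝 y, (f i z)⁻¹ * f j z = (f i y)⁻¹ * f j y

/-- `H` is the holonomy of the local system. -/
def LocSys.IsHol {Y U : Type} [TopologicalSpace Y] [Group U] (L : LocSys Y U) (H : PHol Y U) :
    Prop :=
  ∀ i (x y : Y) (p : Path x y), (∀ t, p t ∈ L.O i) → H.h p = L.f i x * (L.f i y)⁻¹

/-- Edge paths in a graph. -/
inductive EP {V S : Type} (src tgt : S → V) : V → V → Type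
  | nil (v : V) : EP src tgt v v
  | fwd (e : S) {w : V} (l : EP src tgt (tgt e) w) : EP src tgt (src e) w
  | bwd (e : S) {w : V} (l : EP src tgt (src e) w) : EP src tgt (tgt e) w

namespace EP

variable {V S : Type} {src tgt : S → V}

/-- The word read along an edge path. -/
def word : ∀ {v w : V}, EP src tgt v w → FreeGroup S
  | _, _, nil _ => 1
  | _, _, fwd e l => FreeGroup.of e * l.word
  | _, _, bwd e l => (FreeGroup.of e)⁻¹ * l.word

/-- The topological path of an edge path. -/
noncomputable def path {Y : Type} [TopologicalSpace Y] {pt : V → Y}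
    (edge : ∀ e, Path (pt (src e)) (pt (tgt e))) : ∀ {v w : V}, EP src tgt v w → Path (pt v) (pt w)
  | _, _, nil v => Path.refl (pt v)
  | _, _, fwd e l => (edge e).trans (l.path edge)
  | _, _, bwd e l => (edge e).symm.trans (l.path edge)

/-- Concatenation. -/
def append : ∀ {u v w : V}, EP src tgt u v → EP src tgt v w → EP src tgt u w
  | _, _, _, nil _, m => m
  | _, _, _, fwd e l, m => fwd e (l.append m)
  | _, _, _, bwd e l, m => bwd e (l.append m)

theorem path_append {Y : Type} [TopologicalSpace Y] {pt : V → Y}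
    (edge : ∀ e, Path (pt (src e)) (pt (tgt e))) :
    ∀ {u v w : V} (l : EP src tgt u v) (m : EP src tgt v w),
      ((l.path edge).trans (m.path edge)).Homotopic ((l.append m).path edge)
  | _, _, _, nil _, _ => ⟨Path.Homotopy.reflTrans _⟩
  | _, _, _, fwd e l, m =>
    Path.Homotopic.trans ⟨Path.Homotopy.transAssoc _ _ _⟩
      ((Path.Homotopic.refl _).hcomp (path_append edge l m))
  | _, _, _, bwd e l, m =>
    Path.Homotopic.trans ⟨Path.Homotopy.transAssoc _ _ _⟩
      ((Path.Homotopic.refl _).hcomp (path_append edge l m))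

theorem hol_path {Y U : Type} [TopologicalSpace Y] [Group U] {pt : V → Y}
    (edge : ∀ e, Path (pt (src e)) (pt (tgt e))) (H : PHol Y U) :
    ∀ {v w : V} (l : EP src tgt v w),
      H.h (l.path edge) = FreeGroup.lift (fun e => H.h (edge e)) l.word
  | _, _, nil v => by simp [path, word, H.refl]
  | _, _, fwd e l => by simp [path, word, H.trans, hol_path edge H l]
  | _, _, bwd e l => by simp [path, word, H.trans, H.symm, hol_path edge H l]

end EP

/-- Parametrisation of the boundary of the square. -/
noncomputable def bet (t : ℝ) : Fin 2 → ℝ :=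
  ‖(![Real.cos (2 * Real.pi * t), Real.sin (2 * Real.pi * t)] : Fin 2 → ℝ)‖⁻¹ •
    ![Real.cos (2 * Real.pi * t), Real.sin (2 * Real.pi * t)]

theorem bet_aux_ne (t : ℝ) :
    (![Real.cos (2 * Real.pi * t), Real.sin (2 * Real.pi * t)] : Fin 2 → ℝ) ≠ 0 := by
  intro h
  have h0 := congrFun h 0
  have h1 := congrFun h 1
  simp only [Matrix.cons_val_zero, Matrix.cons_val_one, Pi.zero_apply] at h0 h1
  have := Real.cos_sq_add_sin_sq (2 * Real.pi * t)
  rw [h0, h1] at this
  norm_num at this

theorem norm_bet (t : ℝ) : ‖bet t‖ = 1 := by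
  unfold bet
  rw [norm_smul, norm_inv, norm_norm, inv_mul_cancel₀ (norm_ne_zero_iff.2 (bet_aux_ne t))]

theorem continuous_bet : Continuous bet := by
  have h : Continuous fun t : ℝ =>
      (![Real.cos (2 * Real.pi * t), Real.sin (2 * Real.pi * t)] : Fin 2 → ℝ) := by fun_prop
  exact (h.norm.inv₀ fun t => norm_ne_zero_iff.2 (bet_aux_ne t)).smul h

theorem bet_add_one (t : ℝ) : bet (t + 1) = bet t := by
  unfold bet
  rw [mul_add, mul_one, Real.cos_add_two_pi, Real.sin_add_two_pi]

open Classical in
/-- Logarithmic winding of a non-vanishing function on the interval. -/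
noncomputable def wd (γ : I → ℂ) : ℂ :=
  if h : ∃ L : I → ℂ, Continuous L ∧ ∀ t, Complex.exp (L t) = γ t then h.choose 1 - h.choose 0
  else 0

section CW

variable (X : Type) [TopologicalSpace X] [CWComplex (univ : Set X)]

/-- The cells. -/
abbrev Cell (n : ℕ) : Type := RelCWComplex.cell (univ : Set X) n

/-- The complex has dimension at most two. -/
def Dim2 : Prop := ∀ n : ℕ, 2 < n → IsEmpty (Cell X n)

variable {X}

/-- Characteristic maps. -/
abbrev chm (n : ℕ) (j : Cell X n) : PartialEquiv (Fin n → ℝ) X := RelCWComplex.map n j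

/-- Open cells. -/
abbrev oc (n : ℕ) (j : Cell X n) : Set X := RelCWComplex.openCell n j

variable (X) in
/-- The complement of the centres of the 2-cells. -/
def Yset : Set X := {x | ∀ d : Cell X 2, chm 2 d 0 ≠ x}

variable (X) in
/-- The complement of the open 2-cells (the 1-skeleton when the dimension is at most two). -/
def X1 : Set X := {x | ∀ d : Cell X 2, x ∉ oc 2 d}

variable (X) in
/-- The midpoints of the 1-cells. -/
def Mid : Set X := {x | ∃ e : Cell X 1, chm 1 e 0 = x}

theorem X1_subset_Yset : X1 X ⊆ Yset X := fun _ hx d h =>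
  hx d (h ▸ RelCWComplex.map_zero_mem_openCell 2 d)

variable [T2Space X]

theorem chm_mem_X1 {n : ℕ} (hn : n ≤ 1) (j : Cell X n) {z : Fin n → ℝ}
    (hz : z ∈ closedBall (0 : Fin n → ℝ) 1) : chm n j z ∈ X1 X := fun d hd => by
  have h1 : chm n j z ∈ (RelCWComplex.skeleton (univ : Set X) n : Set X) :=
    RelCWComplex.closedCell_subset_skeleton n j ⟨z, hz, rfl⟩
  exact Set.disjoint_left.1
    (RelCWComplex.disjoint_skeleton_openCell (j := d) (by exact_mod_cast (by omega : n < 2))) h1 hd

theorem chm_sphere_mem_X1 (d : Cell X 2) {z : Fin 2 → ℝ}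
    (hz : z ∈ sphere (0 : Fin 2 → ℝ) 1) : chm 2 d z ∈ X1 X := fun d' hd => by
  have h1 : chm 2 d z ∈ (RelCWComplex.skeleton (univ : Set X) (1 : ℕ) : Set X) :=
    RelCWComplex.cellFrontier_subset_skeleton 1 d ⟨z, hz, rfl⟩
  exact Set.disjoint_left.1
    (RelCWComplex.disjoint_skeleton_openCell (j := d') (by exact_mod_cast (by omega : 1 < 2)))
    h1 hd

omit [T2Space X] in
theorem exists_end (e : Cell X 1) {c : ℝ} (hc : |c| = 1) :
    ∃ v : Cell X 0, chm 1 e (fun _ => c) = chm 0 v 0 := by
  obtain ⟨J, hJ⟩ := CWComplex.cellFrontier_subset_finite_closedCell (C := (univ : Set X)) 1 e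
  have h : chm 1 e (fun _ => c) ∈ RelCWComplex.cellFrontier (C := (univ : Set X)) 1 e :=
    ⟨fun _ => c, by simp [hc], rfl⟩
  have h' := hJ h
  simp only [mem_iUnion] at h'
  obtain ⟨m, hm, j, -, z, -, hz⟩ := h'
  obtain rfl : m = 0 := by omega
  exact ⟨j, by rw [← hz, Subsingleton.elim z 0]⟩

/-- Initial vertex of an edge. -/
noncomputable def esrc (e : Cell X 1) : Cell X 0 := (exists_end e (c := -1) (by simp)).choose

/-- Terminal vertex of an edge. -/
noncomputable def etgt (e : Cell X 1) : Cell X 0 := (exists_end e (c := 1) (by simp)).choose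

omit [T2Space X] in
theorem chm_esrc (e : Cell X 1) : chm 1 e (fun _ => -1) = chm 0 (esrc e) 0 :=
  (exists_end e (c := -1) (by simp)).choose_spec

omit [T2Space X] in
theorem chm_etgt (e : Cell X 1) : chm 1 e (fun _ => 1) = chm 0 (etgt e) 0 :=
  (exists_end e (c := 1) (by simp)).choose_spec

/-- A vertex as a point of `Yset X`. -/
def vpt (v : Cell X 0) : Yset X :=
  ⟨chm 0 v 0, X1_subset_Yset (chm_mem_X1 (by omega) v (by simp))⟩

theorem edge_aux (t : I) : (fun _ => 2 * (t : ℝ) - 1) ∈ closedBall (0 : Fin 1 → ℝ) 1 := by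
  have h0 := t.2.1
  have h1 := t.2.2
  simp only [mem_closedBall, dist_zero_right, pi_norm_const, Real.norm_eq_abs, abs_le]
  constructor <;> linarith

/-- An edge as a path in `Yset X`. -/
noncomputable def edge (e : Cell X 1) : Path (vpt (esrc e)) (vpt (etgt e)) where
  toFun t := ⟨chm 1 e fun _ => 2 * (t : ℝ) - 1, X1_subset_Yset (chm_mem_X1 le_rfl e (edge_aux t))⟩
  continuous_toFun := Continuous.subtype_mk
    ((RelCWComplex.continuousOn 1 e).comp_continuous (by fun_prop) edge_aux) _
  source' := Subtype.ext (by simpa [vpt] using chm_esrc e)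
  target' := Subtype.ext (by
    have : (2 : ℝ) - 1 = 1 := by norm_num
    simpa [vpt, this] using chm_etgt e)

theorem bet_mem (t : ℝ) : bet t ∈ sphere (0 : Fin 2 → ℝ) 1 := by simp [norm_bet]

/-- Base point on the boundary of a 2-cell. -/
noncomputable def bpt (d : Cell X 2) : Yset X :=
  ⟨chm 2 d (bet 0), X1_subset_Yset (chm_sphere_mem_X1 d (bet_mem 0))⟩

/-- The boundary loop of a 2-cell. -/
noncomputable def bloop (d : Cell X 2) : Path (bpt d) (bpt d) where
  toFun t := ⟨chm 2 d (bet t), X1_subset_Yset (chm_sphere_mem_X1 d (bet_mem t))⟩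
  continuous_toFun := Continuous.subtype_mk
    ((RelCWComplex.continuousOn 2 d).comp_continuous (f := fun t : I => bet t)
      (continuous_bet.comp continuous_subtype_val)
      fun t => sphere_subset_closedBall (bet_mem t)) _
  source' := Subtype.ext (by simp [bpt])
  target' := Subtype.ext (by
    have := bet_add_one 0
    rw [zero_add] at this
    simp [bpt, this])

/-- Edge paths of the complex. -/
abbrev CP (v w : Cell X 0) : Type := EP (esrc (X := X)) etgt v w

/-- A combinatorial attaching word for a 2-cell. -/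
structure Att (d : Cell X 2) where
  /-- base vertex -/
  v : Cell X 0
  /-- connecting path -/
  δ : Path (vpt v) (bpt d)
  /-- the edge loop -/
  l : CP v v
  hom : ((δ.trans (bloop d)).trans δ.symm).Homotopic (l.path edge)

/-- The class in the fundamental group (with the multiplication in path order) of a loop. -/
noncomputable def cls {v0 : Cell X 0} (p : Path (vpt v0) (vpt v0)) :
    (FundamentalGroup X (vpt v0 : X))ᵐᵒᵖ :=
  MulOpposite.op (Path.Homotopic.Quotient.mk (p.map continuous_subtype_val))

/-- The generators of the presentation. -/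
noncomputable def gphi {v0 : Cell X 0} (κ : ∀ v, Path (vpt v0) (vpt v)) (e : Cell X 1) :
    (FundamentalGroup X (vpt v0 : X))ᵐᵒᵖ :=
  cls (((κ (esrc e)).trans (edge e)).trans (κ (etgt e)).symm)

end CW

end Crest.Agent.R197
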