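import Mathlib

/-! Contractibility from a filtration by deformation retracts. -/

set_option autoImplicit false

namespace Crest.Agent.R197

open unitInterval

/-- the telescoped homotopy, with time `s ∈ [0, N]` -/
noncomputable def telH {E : Type} (D : ℕ → E × I → E) : ℕ → E × ℝ → E
  | 0 => fun p => p.1
  | N + 1 => fun p =>
      if (N : ℝ) ≤ p.2 then D N (p.1, Set.projIcc 0 1 zero_le_one ((N : ℝ) + 1 - p.2))
      else telH D N (D N (p.1, 1), p.2)

/-- reparametrisation of time -/
noncomputable def telσ (N : ℕ) (t : ℝ) : ℝ := t / max (1 - t) (1 / ((N : ℝ) + 1))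

lemma telσ_continuous (N : ℕ) : Continuous (telσ N) := by
  unfold telσ
  refine continuous_id.div (by fun_prop) fun t => ?_
  exact (lt_max_of_lt_right (by positivity)).ne'

lemma telσ_ge {N M : ℕ} (h : N ≤ M) {t : ℝ} (ht : 1 - t ≤ 1 / ((N : ℝ) + 1)) :
    (N : ℝ) ≤ telσ M t := by
  have hN : (0 : ℝ) < (N : ℝ) + 1 := by positivity
  have hM : (N : ℝ) ≤ M := by exact_mod_cast h
  have h1 : max (1 - t) (1 / ((M : ℝ) + 1)) ≤ 1 / ((N : ℝ) + 1) :=
    max_le ht (one_div_le_one_div_of_le hN (by linarith))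
  have h2 : 0 < max (1 - t) (1 / ((M : ℝ) + 1)) := lt_max_of_lt_right (by positivity)
  rw [telσ, le_div_iff₀ h2]
  have h3 : (N : ℝ) * (1 / ((N : ℝ) + 1)) = 1 - 1 / ((N : ℝ) + 1) := by field_simp; ring
  calc _ ≤ (N : ℝ) * (1 / ((N : ℝ) + 1)) := mul_le_mul_of_nonneg_left h1 (by positivity)
    _ ≤ t := by linarith

lemma telσ_eq {N M : ℕ} (h : N ≤ M) {t : ℝ} (ht : 1 / ((N : ℝ) + 1) ≤ 1 - t) :
    telσ M t = telσ N t := by
  have hN : (0 : ℝ) < (N : ℝ) + 1 := by positivity
  have hM : (N : ℝ) ≤ M := by exact_mod_cast h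
  have h1 : 1 / ((M : ℝ) + 1) ≤ 1 / ((N : ℝ) + 1) := one_div_le_one_div_of_le hN (by linarith)
  rw [telσ, telσ, max_eq_left ht, max_eq_left (h1.trans ht)]

theorem contractible_of_filtration {E : Type} [TopologicalSpace E] (F : ℕ → Set E)
    (hmono : Monotone F) (hloc : ∀ e, ∃ n, F n ∈ nhds e) (e₀ : E) (h0 : F 0 = {e₀})
    (D : ℕ → E × I → E) (hc : ∀ n, ContinuousOn (D n) (F (n + 1) ×ˢ Set.univ))
    (hD0 : ∀ n, ∀ e ∈ F (n + 1), D n (e, 0) = e)
    (hD1 : ∀ n, ∀ e ∈ F (n + 1), D n (e, 1) ∈ F n)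
    (hDf : ∀ n, ∀ e ∈ F n, ∀ t, D n (e, t) = e) : ContractibleSpace E := by
  have hb : ∀ N, ∀ e ∈ F N, ∀ s : ℝ, (N : ℝ) ≤ s → telH D N (e, s) = e := by
    intro N e he s hs
    cases N with
    | zero => rfl
    | succ N =>
      push_cast at hs
      have h1 : (N : ℝ) ≤ s := by linarith
      simp only [telH, h1, if_true]
      rw [Set.projIcc_of_le_left _ (by linarith)]
      exact hD0 N e he
  have hz : ∀ N, ∀ e ∈ F N, telH D N (e, 0) = e₀ := by
    intro N
    induction N with
    | zero => intro e he; rw [h0] at he; exact he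
    | succ N ih =>
      intro e he
      simp only [telH]
      split_ifs with h1
      · have hN : N = 0 := by exact_mod_cast le_antisymm h1 (Nat.cast_nonneg N)
        subst hN
        rw [Set.projIcc_of_right_le _ (by simp)]
        have := hD1 0 e he
        rw [h0] at this
        exact this
      · exact ih _ (hD1 N e he)
  have hd : ∀ N, ∀ e ∈ F N, ∀ s : ℝ, telH D (N + 1) (e, s) = telH D N (e, s) := by
    intro N e he s
    simp only [telH]
    split_ifs with h1
    · rw [hDf N e he, hb N e he s h1]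
    · rw [hDf N e he]
  have hd' : ∀ N M, N ≤ M → ∀ e ∈ F N, ∀ s : ℝ, telH D M (e, s) = telH D N (e, s) := by
    intro N M h e he s
    induction M, h using Nat.le_induction with
    | base => rfl
    | succ M h ih => rw [hd M e (hmono h he), ih]
  have ha : ∀ N, ContinuousOn (telH D N) (F N ×ˢ Set.univ) := by
    intro N
    induction N with
    | zero => exact continuous_fst.continuousOn
    | succ N ih =>
      have c1 : ContinuousOn (fun p : E × ℝ =>
          D N (p.1, Set.projIcc 0 1 zero_le_one ((N : ℝ) + 1 - p.2))) (F (N + 1) ×ˢ Set.univ) :=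
        (hc N).comp (continuous_fst.prodMk
          (continuous_projIcc.comp (continuous_const.sub continuous_snd))).continuousOn
          fun p hp => ⟨hp.1, trivial⟩
      have c2 : ContinuousOn (fun p : E × ℝ => telH D N (D N (p.1, 1), p.2))
          (F (N + 1) ×ˢ Set.univ) := by
        refine ih.comp (ContinuousOn.prodMk ?_ continuous_snd.continuousOn)
          fun p hp => ⟨hD1 N _ hp.1, trivial⟩
        exact (hc N).comp (continuous_fst.prodMk continuous_const).continuousOn
          fun p hp => ⟨hp.1, trivial⟩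
      refine ContinuousOn.if (p := fun p : E × ℝ => (N : ℝ) ≤ p.2) ?_
        (c1.mono Set.inter_subset_left) (c2.mono Set.inter_subset_left)
      rintro ⟨e, s⟩ ⟨hp, hf⟩
      have hs : (N : ℝ) = s := frontier_le_subset_eq continuous_const continuous_snd hf
      subst hs
      simp only
      rw [Set.projIcc_of_right_le _ (by simp), hb N _ (hD1 N e hp.1) _ le_rfl]
      rfl
  set G : ℕ → I × E → E := fun N p => telH D N (p.2, telσ N p.1) with hG
  have hGc : ∀ N, ContinuousOn (G N) (Set.univ ×ˢ F N) := fun N =>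
    (ha N).comp (continuous_snd.prodMk ((telσ_continuous N).comp
      (continuous_subtype_val.comp continuous_fst))).continuousOn fun p hp => ⟨hp.2, trivial⟩
  have hGd : ∀ N M, N ≤ M → ∀ e ∈ F N, ∀ t, G M (t, e) = G N (t, e) := by
    intro N M h e he t
    simp only [hG]
    rw [hd' N M h e he]
    rcases le_total (1 / ((N : ℝ) + 1)) (1 - (t : ℝ)) with ht | ht
    · rw [telσ_eq h ht]
    · rw [hb N e he _ (telσ_ge h ht), hb N e he _ (telσ_ge le_rfl ht)]
  choose ν hν using hloc
  have hνe : ∀ e, e ∈ F (ν e) := fun e => mem_of_mem_nhds (hν e)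
  set K : I × E → E := fun p => G (ν p.2) p with hK
  have hKG : ∀ N, ∀ p : I × E, p.2 ∈ F N → K p = G N p := by
    rintro N ⟨t, e⟩ he
    simp only [hK]
    rw [← hGd _ _ (le_max_left (ν e) N) e (hνe e), hGd _ _ (le_max_right (ν e) N) e he]
  have hKc : Continuous K := by
    rw [continuous_iff_continuousAt]
    rintro ⟨t, e⟩
    have hU : (Set.univ : Set I) ×ˢ F (ν e) ∈ nhds (t, e) := prod_mem_nhds Filter.univ_mem (hν e)
    refine ((hGc (ν e)).continuousAt hU).congr ?_
    filter_upwards [hU] with p hp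
    exact (hKG _ p hp.2).symm
  rw [contractible_iff_id_nullhomotopic]
  refine ⟨e₀, ContinuousMap.Homotopic.symm ⟨⟨⟨K, hKc⟩, fun e => ?_, fun e => ?_⟩⟩⟩
  · have : telσ (ν e) 0 = 0 := by simp [telσ]
    simp only [hK, hG, Set.Icc.coe_zero, this]
    exact hz _ e (hνe e)
  · simp only [hK, hG, Set.Icc.coe_one]
    exact hb _ e (hνe e) _ (telσ_ge le_rfl (by simp only [sub_self]; positivity))

end Crest.Agent.R197
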