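import Crest.Agent.R197.LenA

/-! Normal forms of points of the cube complex. -/

set_option autoImplicit false

namespace Crest.Agent.R197

variable {V : Type} [Fintype V] [LinearOrder V] {Γ : SimpleGraph V}

theorem cpt_nonneg (x : RA Γ) (u : V → ℝ) (y : RA Γ) : 0 ≤ cpt x u y := by
  unfold cpt
  split_ifs
  · exact Finset.prod_nonneg fun _ _ => hat_nonneg _
  · exact le_rfl

theorem cpt_PP (x : RA Γ) (u : V → ℝ) (k : V → ℤ) :
    cpt x u (x * PP Γ k) = ∏ a, hat (u a - k a) := by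
  unfold cpt
  rw [inv_mul_cancel_left, ex_PP, if_pos rfl]

theorem cpt_self_pos (x : RA Γ) {u : V → ℝ} (hu : ∀ a, |u a| < 1) : 0 < cpt x u x := by
  have h := cpt_PP x u 0
  rw [PP_zero, mul_one] at h
  rw [h]
  exact Finset.prod_pos fun a _ => hat_pos (by simpa using hu a)

theorem exists_of_cpt_ne_zero {x y : RA Γ} {u : V → ℝ} (h : cpt x u y ≠ 0) :
    ∃ k : V → ℤ, y = x * PP Γ k ∧ ∀ a, |u a - k a| < 1 := by
  unfold cpt at h
  split_ifs at h with h1
  · refine ⟨ex (x⁻¹ * y), by rw [← h1, mul_inv_cancel_left], fun a => ?_⟩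
    by_contra h2
    exact h (Finset.prod_eq_zero (Finset.mem_univ a) (hat_eq_zero (not_lt.1 h2)))
  · exact absurd rfl h

theorem top1_int_eq_zero {m : ℤ} (h : |(0 : ℝ) - m| < 1) : m = 0 := by
  rw [zero_sub, abs_neg] at h
  have h' : |m| < 1 := by exact_mod_cast h
  exact Int.abs_lt_one_iff.1 h'

theorem cpt_shift (x : RA Γ) {u : V → ℝ} {k : V → ℤ} (h : ClS Γ fun a => (u a, k a)) :
    cpt x u = cpt (x * PP Γ k) (fun a => u a - k a) := by
  funext y
  have key : ∀ m : V → ℤ, (∀ b, m b ≠ 0 → (u b, k b) ≠ 0) →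
      cpt x u (x * PP Γ k * PP Γ m) = cpt (x * PP Γ k) (fun a => u a - k a) (x * PP Γ k * PP Γ m) := by
    intro m hm
    have h1 : PP Γ (k + m) = PP Γ k * PP Γ m :=
      PP_add fun a b ha hb => h a b (fun h0 => ha (congrArg Prod.snd h0)) (hm b hb)
    rw [cpt_PP, mul_assoc, ← h1, cpt_PP]
    refine Finset.prod_congr rfl fun a _ => ?_
    rw [Pi.add_apply, Int.cast_add, sub_sub]
  by_cases h1 : cpt x u y = 0
  · by_cases h2 : cpt (x * PP Γ k) (fun a => u a - k a) y = 0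
    · rw [h1, h2]
    · obtain ⟨m, rfl, hm⟩ := exists_of_cpt_ne_zero h2
      refine key m fun b hb h0 => hb (top1_int_eq_zero ?_)
      have h3 : u b = 0 := congrArg Prod.fst h0
      have h4 : k b = 0 := congrArg Prod.snd h0
      have h5 := hm b
      rwa [h3, h4, Int.cast_zero, sub_self] at h5
  · obtain ⟨m, rfl, hm⟩ := exists_of_cpt_ne_zero h1
    have h2 : ∀ b, (m - k) b ≠ 0 → (u b, k b) ≠ 0 := fun b hb h0 => by
      have h3 : u b = 0 := congrArg Prod.fst h0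
      have h4 : k b = 0 := congrArg Prod.snd h0
      have h5 := hm b
      rw [h3] at h5
      exact hb (by rw [Pi.sub_apply, h4, top1_int_eq_zero h5, sub_zero])
    have h3 : PP Γ (k + (m - k)) = PP Γ k * PP Γ (m - k) :=
      PP_add fun a b ha hb => h a b (fun h0 => ha (congrArg Prod.snd h0)) (h2 b hb)
    rw [add_sub_cancel] at h3
    rw [h3, ← mul_assoc]
    exact key _ h2

theorem top1_hat_sum {t : ℝ} (h : |t| < 1) : hat (t - 0) + hat (t - 1) + hat (t - -1) = 1 := by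
  obtain ⟨h1, h2⟩ := abs_lt.1 h
  unfold hat
  rw [sub_zero, abs_of_nonpos (show t - 1 ≤ 0 by linarith),
    abs_of_nonneg (show 0 ≤ t - -1 by linarith), max_eq_right (show 0 ≤ 1 - |t| by linarith)]
  rcases le_total 0 t with h3 | h3
  · rw [abs_of_nonneg h3, max_eq_right (by linarith), max_eq_left (by linarith)]; ring
  · rw [abs_of_nonpos h3, max_eq_left (by linarith), max_eq_right (by linarith)]; ring

theorem top1_hat_sub {t : ℝ} (h : |t| < 1) : hat (t - 1) - hat (t - -1) = t := by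
  obtain ⟨h1, h2⟩ := abs_lt.1 h
  unfold hat
  rw [abs_of_nonpos (show t - 1 ≤ 0 by linarith), abs_of_nonneg (show 0 ≤ t - -1 by linarith)]
  rcases le_total 0 t with h3 | h3
  · rw [max_eq_right (by linarith), max_eq_left (by linarith)]; ring
  · rw [max_eq_left (by linarith), max_eq_right (by linarith)]; ring

theorem top1_cpt_single (x : RA Γ) (u : V → ℝ) (a : V) (n : ℤ) :
    cpt x u (x * PP Γ (Pi.single a n)) =
      hat (u a - n) * ∏ b ∈ Finset.univ.erase a, hat (u b) := by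
  rw [cpt_PP, ← Finset.mul_prod_erase _ _ (Finset.mem_univ a), Pi.single_eq_same]
  congr 1
  refine Finset.prod_congr rfl fun b hb => ?_
  rw [Pi.single_eq_of_ne (Finset.ne_of_mem_erase hb), Int.cast_zero, sub_zero]

/-- With the same base vertex the coordinates are determined. -/
theorem cpt_inj (x : RA Γ) {u u' : V → ℝ} (hu : ∀ a, |u a| < 1) (hu' : ∀ a, |u' a| < 1)
    (h : cpt x u = cpt x u') : u = u' := by
  funext a
  have h1 : ∀ n : ℤ, hat (u a - n) * ∏ b ∈ Finset.univ.erase a, hat (u b) =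
      hat (u' a - n) * ∏ b ∈ Finset.univ.erase a, hat (u' b) := fun n => by
    rw [← top1_cpt_single x, ← top1_cpt_single x, h]
  have hc : 0 < ∏ b ∈ Finset.univ.erase a, hat (u b) := Finset.prod_pos fun b _ => hat_pos (hu b)
  have h2 := h1 0
  have h3 := h1 1
  have h4 := h1 (-1)
  push_cast at h2 h3 h4
  have h5 := top1_hat_sum (hu a)
  have h6 := top1_hat_sum (hu' a)
  have h7 := top1_hat_sub (hu a)
  have h8 := top1_hat_sub (hu' a)
  generalize ∏ b ∈ Finset.univ.erase a, hat (u b) = c at *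
  generalize ∏ b ∈ Finset.univ.erase a, hat (u' b) = c' at *
  have h9 : c = c' := by linear_combination h2 + h3 + h4 - c * h5 + c' * h6
  subst h9
  refine mul_right_cancel₀ hc.ne' ?_
  linear_combination h3 - h4 - c * h7 + c * h8

theorem exists_bottom (f : Esp Γ) :
    ∃ x u hu, (∀ a, 0 ≤ u a ∧ u a < 1) ∧ f = ept x u hu := by
  obtain ⟨f, x, u, hu, rfl⟩ := f
  have h1 : ∀ a, u a = 0 → ⌊u a⌋ = 0 := fun a ha => by rw [ha, Int.floor_zero]
  refine ⟨x * PP Γ fun a => ⌊u a⌋, fun a => u a - (⌊u a⌋ : ℤ), fun a b ha hb => hu a b ?_ ?_,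
    fun a => ⟨Int.fract_nonneg (u a), Int.fract_lt_one (u a)⟩, Subtype.ext (cpt_shift x ?_)⟩
  · intro h0; exact ha (by simp [h0])
  · intro h0; exact hb (by simp [h0])
  · intro a b ha hb
    refine hu a b (fun h0 => ha ?_) fun h0 => hb ?_
    · exact Prod.ext h0 (h1 a h0)
    · exact Prod.ext h0 (h1 b h0)

theorem top1_abs_lt {u : V → ℝ} (hu : ∀ a, 0 ≤ u a ∧ u a < 1) (a : V) : |u a| < 1 := by
  rw [abs_of_nonneg (hu a).1]; exact (hu a).2

theorem top1_int_bound {t : ℝ} {m : ℤ} (ht : 0 ≤ t ∧ t < 1) (h : |t - m| < 1) : 0 ≤ m ∧ m ≤ 1 := by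
  obtain ⟨h1, h2⟩ := abs_lt.1 h
  have h3 : (-1 : ℝ) < m := by linarith [ht.1]
  have h4 : (m : ℝ) < 2 := by linarith [ht.2]
  have h5 : (-1 : ℤ) < m := by exact_mod_cast h3
  have h6 : m < 2 := by exact_mod_cast h4
  omega

theorem bottom_unique {x x' : RA Γ} {u u' : V → ℝ} (hu : ∀ a, 0 ≤ u a ∧ u a < 1)
    (hu' : ∀ a, 0 ≤ u' a ∧ u' a < 1) (h : cpt x u = cpt x' u') : x = x' ∧ u = u' := by
  have h1 := cpt_self_pos x (top1_abs_lt hu)
  have h2 := cpt_self_pos x' (top1_abs_lt hu')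
  rw [h] at h1
  rw [← h] at h2
  obtain ⟨k, hk, hk'⟩ := exists_of_cpt_ne_zero h1.ne'
  obtain ⟨m, hm, hm'⟩ := exists_of_cpt_ne_zero h2.ne'
  have h3 := congrArg ex hk
  have h4 := congrArg ex hm
  rw [ex_mul, ex_PP] at h3 h4
  have h5 : k = 0 := by
    funext a
    have h6 := congrFun h3 a
    have h7 := congrFun h4 a
    have h8 := (top1_int_bound (hu' a) (hk' a)).1
    have h9 := (top1_int_bound (hu a) (hm' a)).1
    rw [Pi.add_apply] at h6 h7
    rw [Pi.zero_apply]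
    omega
  rw [h5, PP_zero, mul_one] at hk
  subst hk
  exact ⟨rfl, cpt_inj x (top1_abs_lt hu) (top1_abs_lt hu') h⟩

/-- The closed cubes with bottom vertex `x`. -/
def cubes (x : RA Γ) : Set (Esp Γ) := {f | ∃ u hu, (∀ a, 0 ≤ u a ∧ u a ≤ 1) ∧ f = ept x u hu}

theorem isCompact_cubes (x : RA Γ) : IsCompact (cubes x) := by
  have h1 : IsClosed {u : V → ℝ | ClS Γ u} := by
    have : {u : V → ℝ | ClS Γ u} = ⋂ a, ⋂ b, ⋂ (_ : ¬ AdjEq Γ a b), {u | u a * u b = 0} := by
      ext u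
      simp only [Set.mem_ofPred_eq, Set.mem_iInter, mul_eq_zero]
      refine ⟨fun h a b hab => ?_, fun h a b ha hb => ?_⟩
      · by_contra h2
        rw [not_or] at h2
        exact hab (h a b h2.1 h2.2)
      · by_contra h2
        exact (h a b h2).elim ha hb
    rw [this]
    exact isClosed_iInter fun a => isClosed_iInter fun b => isClosed_iInter fun _ =>
      isClosed_eq (by fun_prop) continuous_const
  have h2 : IsCompact (Set.Icc (0 : V → ℝ) 1 ∩ {u : V → ℝ | ClS Γ u}) :=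
    isCompact_Icc.inter_right h1
  rw [isEmbedding_val.isCompact_iff]
  convert h2.image (continuous_cpt x) using 1
  ext g
  constructor
  · rintro ⟨_, ⟨u, hu, h3, rfl⟩, rfl⟩
    exact ⟨u, ⟨⟨fun a => (h3 a).1, fun a => (h3 a).2⟩, hu⟩, rfl⟩
  · rintro ⟨u, ⟨⟨h3, h4⟩, hu⟩, rfl⟩
    exact ⟨_, ⟨u, hu, fun a => ⟨h3 a, h4 a⟩, rfl⟩, rfl⟩

theorem isClosed_Elev (n : ℕ) : IsClosed (Elev Γ n) := by
  have : Elev Γ n = ⋂ y, ⋂ (_ : n < len y), {f : Esp Γ | f.1 y = 0} := by
    ext f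
    simp only [Elev, Set.mem_ofPred_eq, Set.mem_iInter]
  rw [this]
  exact isClosed_iInter fun y => isClosed_iInter fun _ =>
    isClosed_eq (continuous_val_apply y) continuous_const

theorem Elev_mono {n m : ℕ} (h : n ≤ m) : Elev Γ n ⊆ Elev Γ m := by
  intro f hf y hy
  exact hf y (h.trans_lt hy)

theorem top1_len_le {n : ℕ} {x : RA Γ} {u : V → ℝ} {hu : ClS Γ u} (h : ∀ a, 0 ≤ u a ∧ u a < 1)
    (hf : ept x u hu ∈ Elev Γ n) : len x ≤ n := by
  by_contra h1
  exact (cpt_self_pos x (top1_abs_lt h)).ne' (hf x (not_le.1 h1))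

theorem Elev_subset (n : ℕ) : Elev Γ n ⊆ ⋃ x ∈ {x : RA Γ | len x ≤ n}, cubes x := by
  intro f hf
  obtain ⟨x, u, hu, h, rfl⟩ := exists_bottom f
  exact Set.mem_biUnion (top1_len_le h hf) ⟨u, hu, fun a => ⟨(h a).1, (h a).2.le⟩, rfl⟩

theorem isCompact_Elev (n : ℕ) : IsCompact (Elev Γ n) := by
  exact ((finite_len_le n).isCompact_biUnion fun x _ => isCompact_cubes x).of_isClosed_subset
    (isClosed_Elev n) (Elev_subset n)

theorem top1_len_PP_le {u : V → ℝ} (h : ∀ a, 0 ≤ u a ∧ u a < 1) {k : V → ℤ}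
    (hk : ∀ a, |u a - k a| < 1) : len (PP Γ k) ≤ Fintype.card V := by
  have h1 := len_PP (Γ := Γ) k
  have h2 : ∑ a, |k a| ≤ ∑ _a : V, (1 : ℤ) := Finset.sum_le_sum fun a _ => by
    obtain ⟨h3, h4⟩ := top1_int_bound (h a) (hk a)
    rwa [abs_of_nonneg h3]
  rw [Finset.sum_const, Finset.card_univ, nsmul_eq_mul, mul_one, ← h1] at h2
  exact_mod_cast h2

theorem exists_Elev_mem_nhds (f : Esp Γ) : ∃ n, Elev Γ n ∈ nhds f := by
  obtain ⟨x, u, hu, h, rfl⟩ := exists_bottom f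
  refine ⟨len x + 2 * Fintype.card V, Filter.mem_of_superset
    ((isOpen_lt continuous_const (continuous_val_apply x)).mem_nhds
      (cpt_self_pos x (top1_abs_lt h))) fun g hg y hy => ?_⟩
  obtain ⟨x', u', hu', h', rfl⟩ := exists_bottom g
  by_contra h1
  obtain ⟨k, hk, hk'⟩ := exists_of_cpt_ne_zero (ne_of_gt hg)
  obtain ⟨m, hm, hm'⟩ := exists_of_cpt_ne_zero h1
  have h2 := top1_len_PP_le (Γ := Γ) h' hk'
  have h3 := top1_len_PP_le (Γ := Γ) h' hm'
  have h4 := len_mul_le x' (PP Γ m)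
  have h5 := len_mul_le x (PP Γ k)⁻¹
  rw [len_inv, show x * (PP Γ k)⁻¹ = x' by rw [hk, mul_inv_cancel_right]] at h5
  rw [← hm] at h4
  omega

theorem Elev_zero : ∃ f₀ : Esp Γ, Elev Γ 0 = {f₀} := by
  refine ⟨ept 1 0 fun a _ ha => absurd rfl ha, Set.eq_singleton_iff_unique_mem.2 ⟨?_, ?_⟩⟩
  · intro y hy
    by_contra h1
    obtain ⟨k, hk, hk'⟩ := exists_of_cpt_ne_zero h1
    have h2 : k = 0 := funext fun a => top1_int_eq_zero (hk' a)
    rw [h2, PP_zero, mul_one] at hk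
    rw [len_eq_zero.2 hk] at hy
    exact lt_irrefl _ hy
  · intro f hf
    obtain ⟨x, u, hu, h, rfl⟩ := exists_bottom f
    have h1 : x = 1 := len_eq_zero.1 (Nat.le_zero.1 (top1_len_le h hf))
    subst h1
    have h2 : u = 0 := by
      funext a
      by_contra h3
      have h4 : 0 < u a := lt_of_le_of_ne (h a).1 (Ne.symm h3)
      have h5 : 0 < cpt (1 : RA Γ) u (1 * PP Γ (Pi.single a 1)) := by
        rw [top1_cpt_single]
        refine mul_pos (hat_pos ?_) (Finset.prod_pos fun b _ => hat_pos (top1_abs_lt h b))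
        rw [Int.cast_one, abs_lt]
        constructor <;> linarith [(h a).2]
      refine h5.ne' (hf _ ?_)
      have h6 := len_ltr (Γ := Γ) (a, true)
      rw [one_mul, PP_single, zpow_one]
      exact lt_of_lt_of_eq one_pos h6.symm
    subst h2
    rfl

theorem smul_free {g : RA Γ} {f : Esp Γ} (h : g • f = f) : g = 1 := by
  obtain ⟨x, u, hu, h1, rfl⟩ := exists_bottom f
  rw [smul_ept] at h
  exact mul_eq_right.1 (bottom_unique h1 h1 (congrArg Subtype.val h)).1

theorem locallyCompact_Esp : LocallyCompactSpace (Esp Γ) := by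
  haveI : WeaklyLocallyCompactSpace (Esp Γ) := ⟨fun f => by
    obtain ⟨n, hn⟩ := exists_Elev_mem_nhds f
    exact ⟨_, isCompact_Elev n, hn⟩⟩
  infer_instance

theorem top1_compact_subset {K : Set (Esp Γ)} (hK : IsCompact K) : ∃ n, K ⊆ Elev Γ n := by
  refine hK.induction_on (p := fun K => ∃ n, K ⊆ Elev Γ n) ⟨0, Set.empty_subset _⟩
    (fun s t hst ⟨n, hn⟩ => ⟨n, hst.trans hn⟩) (fun s t ⟨n, hn⟩ ⟨m, hm⟩ => ⟨max n m,
      Set.union_subset (hn.trans (Elev_mono (le_max_left _ _)))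
        (hm.trans (Elev_mono (le_max_right _ _)))⟩) fun f _ => ?_
  obtain ⟨n, hn⟩ := exists_Elev_mem_nhds f
  exact ⟨_, mem_nhdsWithin_of_mem_nhds hn, n, subset_rfl⟩

theorem properlyDiscontinuous_Esp : ProperlyDiscontinuousSMul (RA Γ) (Esp Γ) := by
  refine ⟨fun {K L} hK hL => ?_⟩
  obtain ⟨n, hn⟩ := top1_compact_subset hK
  obtain ⟨m, hm⟩ := top1_compact_subset hL
  refine (finite_len_le (m + n)).subset ?_
  rintro g ⟨_, ⟨f, hf, rfl⟩, hg⟩
  obtain ⟨x, u, hu, h, rfl⟩ := exists_bottom f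
  have h1 := top1_len_le h (hn hf)
  have h2 : ept (g * x) u hu ∈ Elev Γ m := by
    rw [← smul_ept]; exact hm hg
  have h3 := top1_len_le h h2
  have h4 := len_mul_le (g * x) x⁻¹
  rw [mul_inv_cancel_right, len_inv] at h4
  change len g ≤ m + n
  omega

end Crest.Agent.R197
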