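import Crest.Agent.R197.Top1
import Crest.Agent.R197.LenB
import Crest.Agent.R197.Tel

/-! The cube complex is contractible. -/

set_option autoImplicit false

namespace Crest.Agent.R197

open unitInterval

variable {V : Type} [Fintype V] [LinearOrder V] {Γ : SimpleGraph V}

section aux

theorem top2_continuousOn_range {A B C : Type} [TopologicalSpace A] [TopologicalSpace B]
    [TopologicalSpace C] [CompactSpace A] [T2Space B] {Φ : A → B} (hΦ : Continuous Φ) {D : B → C}
    (h : Continuous (D ∘ Φ)) : ContinuousOn D (Set.range Φ) := by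
  rw [continuousOn_iff_isClosed]
  intro t ht
  refine ⟨Φ '' ((D ∘ Φ) ⁻¹' t), hΦ.isClosedMap _ (ht.preimage h), ?_⟩
  ext b
  constructor
  · rintro ⟨hb, a, rfl⟩
    exact ⟨⟨a, hb, rfl⟩, a, rfl⟩
  · rintro ⟨⟨a, ha, rfl⟩, -⟩
    exact ⟨ha, a, rfl⟩

omit [Fintype V] [LinearOrder V] in
theorem top2_not_both {y : RA Γ} {a : V} (h1 : Desc y (a, true)) (h2 : Desc y (a, false)) :
    False :=
  (desc_adj h1 h2 (by simp)).ne rfl

/-- the signed indicator of `S` -/
def sgv (S : Finset V) (τ : V → Bool) : V → ℤ := fun a =>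
  if a ∈ S then (if τ a then 1 else -1) else 0

theorem PP_sgv_insert {S : Finset V} {τ : V → Bool} {a : V} (ha : a ∉ S)
    (h : ∀ b ∈ S, Γ.Adj b a) : PP Γ (sgv (insert a S) τ) = PP Γ (sgv S τ) * ltr Γ (a, τ a) := by
  have e : sgv (insert a S) τ = sgv S τ + Pi.single a (if τ a then 1 else -1) := by
    funext b
    by_cases hb : b = a
    · subst hb
      simp [sgv, ha]
    · simp [sgv, hb]
  rw [e, PP_add, PP_single]
  · congr 1
    cases hτ : τ a <;> simp [ltr]
  · intro b c hb hc
    have hb' : b ∈ S := by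
      by_contra h'
      exact hb (by simp [sgv, h'])
    have hc' : c = a := by
      by_contra h'
      exact hc (by simp [h'])
    exact Or.inr (hc' ▸ h b hb')

theorem desc_sgv_iff (x : RA Γ) (τ : V → Bool) (t : V × Bool) (S : Finset V)
    (hS : ∀ a ∈ S, ∀ b ∈ S, AdjEq Γ a b) (ht : ∀ a ∈ S, Γ.Adj a t.1) :
    Desc (x * PP Γ (sgv S τ)) t ↔ Desc x t := by
  induction S using Finset.induction_on with
  | empty =>
    have : sgv (∅ : Finset V) τ = 0 := by funext a; simp [sgv]
    rw [this, PP_zero, mul_one]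
  | insert a S ha ih =>
    rw [PP_sgv_insert ha, ← mul_assoc, desc_mul_iff (ht a (Finset.mem_insert_self _ _))]
    · exact ih (fun b hb c hc => hS b (Finset.mem_insert_of_mem hb) c (Finset.mem_insert_of_mem hc))
        fun b hb => ht b (Finset.mem_insert_of_mem hb)
    · exact fun b hb => (hS b (Finset.mem_insert_of_mem hb) a
        (Finset.mem_insert_self _ _)).resolve_left fun h => ha (h ▸ hb)

theorem desc_sgv_back (x : RA Γ) (τ : V → Bool) {S : Finset V}
    (hS : ∀ a ∈ S, ∀ b ∈ S, AdjEq Γ a b) {a : V} (ha : a ∈ S) :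
    Desc (x * PP Γ (sgv S τ)) (a, !τ a) ↔ ¬ Desc x (a, τ a) := by
  have hadj : ∀ b ∈ S.erase a, Γ.Adj b a := fun b hb =>
    (hS b (Finset.mem_of_mem_erase hb) a ha).resolve_left (Finset.ne_of_mem_erase hb)
  conv_lhs => rw [← Finset.insert_erase ha]
  rw [PP_sgv_insert (Finset.notMem_erase a S) hadj, ← mul_assoc]
  refine (desc_back (s := (a, τ a))).trans (not_congr ?_)
  exact desc_sgv_iff x τ (a, τ a) _
    (fun b hb c hc => hS b (Finset.mem_of_mem_erase hb) c (Finset.mem_of_mem_erase hc)) hadj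

theorem len_sgv (x : RA Γ) (τ : V → Bool) (S : Finset V) (hS : ∀ a ∈ S, Desc x (a, τ a)) :
    len (x * PP Γ (sgv S τ)) + S.card = len x := by
  induction S using Finset.induction_on with
  | empty =>
    have : sgv (∅ : Finset V) τ = 0 := by funext a; simp [sgv]
    rw [this, PP_zero, mul_one, Finset.card_empty, add_zero]
  | insert a S ha ih =>
    have hadj : ∀ b ∈ insert a S, ∀ c ∈ insert a S, AdjEq Γ b c := fun b hb c hc => by
      by_cases hbc : b = c
      · exact Or.inl hbc
      · exact Or.inr (desc_adj (hS b hb) (hS c hc) fun h => hbc (congrArg Prod.fst h))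
    have hadj' : ∀ b ∈ S, Γ.Adj b a := fun b hb =>
      (hadj b (Finset.mem_insert_of_mem hb) a (Finset.mem_insert_self _ _)).resolve_left
        fun h => ha (h ▸ hb)
    have h1 := (desc_sgv_iff x τ (a, τ a) S
      (fun b hb c hc => hadj b (Finset.mem_insert_of_mem hb) c (Finset.mem_insert_of_mem hc))
      hadj').2 (hS a (Finset.mem_insert_self _ _))
    have h2 := desc_iff.1 h1
    have h3 := ih fun b hb => hS b (Finset.mem_insert_of_mem hb)
    rw [PP_sgv_insert ha hadj', ← mul_assoc, Finset.card_insert_of_notMem ha]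
    omega

open Classical in
/-- the direction of the descents -/
noncomputable def dir (y : RA Γ) (a : V) : ℝ :=
  if Desc y (a, true) then 1 else if Desc y (a, false) then -1 else 0

omit [Fintype V] [LinearOrder V] in
theorem dir_cases (y : RA Γ) (a : V) : (Desc y (a, true) ∧ dir y a = 1) ∨
    (Desc y (a, false) ∧ dir y a = -1) ∨ (dir y a = 0 ∧ ∀ b, ¬ Desc y (a, b)) := by
  unfold dir
  by_cases h1 : Desc y (a, true)
  · exact Or.inl ⟨h1, if_pos h1⟩
  by_cases h2 : Desc y (a, false)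
  · exact Or.inr (Or.inl ⟨h2, by rw [if_neg h1, if_pos h2]⟩)
  · refine Or.inr (Or.inr ⟨by rw [if_neg h1, if_neg h2], fun b => ?_⟩)
    cases b
    · exact h2
    · exact h1

omit [Fintype V] [LinearOrder V] in
theorem dir_true {y : RA Γ} {a : V} (h : Desc y (a, true)) : dir y a = 1 := if_pos h

omit [Fintype V] [LinearOrder V] in
theorem dir_false {y : RA Γ} {a : V} (h : Desc y (a, false)) : dir y a = -1 := by
  unfold dir
  rw [if_neg fun h' => top2_not_both h' h, if_pos h]

omit [Fintype V] [LinearOrder V] in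
theorem exists_desc_of_dir {y : RA Γ} {a : V} (h : dir y a ≠ 0) : ∃ b, Desc y (a, b) := by
  rcases dir_cases y a with h1 | h1 | h1
  · exact ⟨_, h1.1⟩
  · exact ⟨_, h1.1⟩
  · exact absurd h1.1 h

/-- coordinates of the closed cube with far vertex `y` -/
def Adm (y : RA Γ) (u : V → ℝ) : Prop := ∀ a, |u a| ≤ 1 ∧ u a = dir y a * |u a|

omit [Fintype V] [LinearOrder V] in
theorem Adm.clS {y : RA Γ} {u : V → ℝ} (h : Adm y u) : ClS Γ u := by
  intro a b ha hb
  have h1 : ∀ c, u c ≠ 0 → dir y c ≠ 0 := fun c hc h0 => hc (by rw [(h c).2, h0, zero_mul])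
  obtain ⟨s, hs⟩ := exists_desc_of_dir (h1 a ha)
  obtain ⟨t, ht⟩ := exists_desc_of_dir (h1 b hb)
  by_cases hab : a = b
  · exact Or.inl hab
  · exact Or.inr (desc_adj hs ht fun h => hab (congrArg Prod.fst h))

theorem Adm.len_lt {y z : RA Γ} {u : V → ℝ} (h : Adm y u) (hz : cpt y u z ≠ 0) :
    z = y ∨ len z < len y := by
  obtain ⟨k, rfl, hk⟩ := exists_of_cpt_ne_zero hz
  have key : ∀ a, k a = 0 ∨ (k a = 1 ∧ Desc y (a, true)) ∨ (k a = -1 ∧ Desc y (a, false)) := by
    intro a
    obtain ⟨h1, h2⟩ := h a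
    obtain ⟨h3, h4⟩ := abs_lt.1 (hk a)
    have h5 := abs_nonneg (u a)
    rcases dir_cases y a with ⟨hd, he⟩ | ⟨hd, he⟩ | ⟨he, -⟩ <;> rw [he] at h2
    · have h6 : (-1 : ℝ) < k a := by linarith
      have h7 : (k a : ℝ) < 2 := by linarith
      have h6' : -1 < k a := by exact_mod_cast h6
      have h7' : k a < 2 := by exact_mod_cast h7
      by_cases h0 : k a = 0
      · exact Or.inl h0
      · exact Or.inr (Or.inl ⟨by omega, hd⟩)
    · have h6 : (-2 : ℝ) < k a := by linarith
      have h7 : (k a : ℝ) < 1 := by linarith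
      have h6' : -2 < k a := by exact_mod_cast h6
      have h7' : k a < 1 := by exact_mod_cast h7
      by_cases h0 : k a = 0
      · exact Or.inl h0
      · exact Or.inr (Or.inr ⟨by omega, hd⟩)
    · have h6 : (-1 : ℝ) < k a := by linarith
      have h7 : (k a : ℝ) < 1 := by linarith
      have h6' : -1 < k a := by exact_mod_cast h6
      have h7' : k a < 1 := by exact_mod_cast h7
      exact Or.inl (by omega)
  have e : k = sgv (Finset.univ.filter fun a => k a ≠ 0) fun a => decide (k a = 1) := by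
    funext a
    rcases key a with h0 | ⟨h0, -⟩ | ⟨h0, -⟩ <;> simp [sgv, h0]
  have h1 := len_sgv y (fun a => decide (k a = 1)) (Finset.univ.filter fun a => k a ≠ 0)
    fun a ha => by
      rcases key a with h0 | ⟨h0, hd⟩ | ⟨h0, hd⟩
      · exact absurd h0 (Finset.mem_filter.1 ha).2
      · simpa [h0] using hd
      · simpa [h0] using hd
  rw [← e] at h1
  by_cases hk0 : k = 0
  · exact Or.inl (by rw [hk0, PP_zero, mul_one])
  · obtain ⟨a, ha⟩ := Function.ne_iff.1 hk0
    have : 0 < (Finset.univ.filter fun a => k a ≠ 0).card :=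
      Finset.card_pos.2 ⟨a, Finset.mem_filter.2 ⟨Finset.mem_univ _, ha⟩⟩
    exact Or.inr (by omega)

theorem exists_far (f : Esp Γ) : ∃ y u, Adm y u ∧ (∀ a, |u a| < 1) ∧ f.1 = cpt y u := by
  classical
  obtain ⟨x, u, hu, h01, rfl⟩ := exists_bottom f
  set S := Finset.univ.filter fun a => u a ≠ 0 ∧ ¬ Desc x (a, true) with hS
  have hmem : ∀ a, a ∈ S ↔ u a ≠ 0 ∧ ¬ Desc x (a, true) := fun a => by simp [hS]
  have hcl : ∀ a ∈ S, ∀ b ∈ S, AdjEq Γ a b := fun a ha b hb =>
    hu a b ((hmem a).1 ha).1 ((hmem b).1 hb).1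
  have hlt : ∀ a, |u a - sgv S (fun _ => true) a| < 1 := by
    intro a
    obtain ⟨h0, h1⟩ := h01 a
    by_cases ha : a ∈ S
    · have := lt_of_le_of_ne h0 ((hmem a).1 ha).1.symm
      simp only [sgv, ha, if_true, Int.cast_one, abs_lt]
      constructor <;> linarith
    · simp only [sgv, ha, if_false, Int.cast_zero, abs_lt]
      constructor <;> linarith
  refine ⟨x * PP Γ (sgv S fun _ => true), fun a => u a - sgv S (fun _ => true) a,
    fun a => ⟨(hlt a).le, ?_⟩, hlt, cpt_shift x fun a b ha hb => ?_⟩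
  · obtain ⟨h0, h1⟩ := h01 a
    by_cases ha : a ∈ S
    · have h2 := (desc_sgv_back x (fun _ => true) hcl ha).2 ((hmem a).1 ha).2
      rw [dir_false h2]
      simp only [sgv, ha, if_true, Int.cast_one]
      rw [abs_of_nonpos (by linarith)]
      ring
    · by_cases hua : u a = 0
      · simp [sgv, ha, hua]
      · have h2 : Desc x (a, true) := by
          by_contra h'
          exact ha ((hmem a).2 ⟨hua, h'⟩)
        have h3 := (desc_sgv_iff x (fun _ => true) (a, true) S hcl fun b hb =>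
          (hu b a ((hmem b).1 hb).1 hua).resolve_left fun h => ha (h ▸ hb)).2 h2
        rw [dir_true h3]
        simp [sgv, ha, abs_of_nonneg h0]
  · have h1 : ∀ c, (u c, sgv S (fun _ => true) c) ≠ 0 → u c ≠ 0 := fun c hc h0 => by
      have : c ∉ S := fun h => ((hmem c).1 h).1 h0
      exact hc (by simp [sgv, this, h0])
    exact hu a b (h1 a ha) (h1 b hb)

theorem far_unique {y y' : RA Γ} {u u' : V → ℝ} (h : Adm y u) (h' : Adm y' u')
    (hu : ∀ a, |u a| < 1) (hu' : ∀ a, |u' a| < 1) (e : cpt y u = cpt y' u') : y = y' ∧ u = u' := by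
  have h1 := h'.len_lt (z := y) (by rw [← e]; exact (cpt_self_pos y hu).ne')
  have h2 := h.len_lt (z := y') (by rw [e]; exact (cpt_self_pos y' hu').ne')
  obtain rfl : y = y' := by
    rcases h1 with h1 | h1
    · exact h1
    · rcases h2 with h2 | h2
      · exact h2.symm
      · omega
  exact ⟨rfl, cpt_inj y hu hu' e⟩

theorem Adm.mem_Elev {y : RA Γ} {u : V → ℝ} (h : Adm y u) {n : ℕ} (hy : len y = n + 1) {a : V}
    (ha : |u a| = 1) : ept y u h.clS ∈ Elev Γ n := by
  intro z hz
  by_contra hne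
  rcases h.len_lt hne with rfl | h1
  · refine hne ?_
    have := cpt_PP z u 0
    rw [PP_zero, mul_one] at this
    change cpt z u z = 0
    rw [this]
    exact Finset.prod_eq_zero (Finset.mem_univ a) (hat_eq_zero (by simp [ha]))
  · omega

/-- the push away from the far vertex -/
noncomputable def mv (y : RA Γ) (u : V → ℝ) (t : I) : V → ℝ :=
  fun a => u a + (t : ℝ) * (1 - ‖u‖) * dir y a

omit [LinearOrder V] in
theorem Adm.norm_le {y : RA Γ} {u : V → ℝ} (h : Adm y u) : ‖u‖ ≤ 1 :=
  (pi_norm_le_iff_of_nonneg zero_le_one).2 fun a => (h a).1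

omit [LinearOrder V] in
theorem Adm.abs_mv {y : RA Γ} {u : V → ℝ} (h : Adm y u) (t : I) {a : V} (ha : dir y a ≠ 0) :
    |mv y u t a| = |u a| + t * (1 - ‖u‖) := by
  have h1 : 0 ≤ |u a| + t * (1 - ‖u‖) :=
    add_nonneg (abs_nonneg _) (mul_nonneg t.2.1 (sub_nonneg.2 h.norm_le))
  have h2 : mv y u t a = dir y a * (|u a| + t * (1 - ‖u‖)) := by
    unfold mv
    rw [mul_add, ← (h a).2]
    ring
  rw [h2, abs_mul, abs_of_nonneg h1]
  rcases dir_cases y a with ⟨-, he⟩ | ⟨-, he⟩ | ⟨he, -⟩
  · simp [he]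
  · simp [he]
  · exact absurd he ha

omit [LinearOrder V] in
theorem Adm.mv {y : RA Γ} {u : V → ℝ} (h : Adm y u) (t : I) : Adm y (mv y u t) := by
  intro a
  by_cases ha : dir y a = 0
  · have h1 : u a = 0 := by rw [(h a).2, ha, zero_mul]
    simp [R197.mv, ha, h1]
  · rw [h.abs_mv t ha]
    constructor
    · have h1 : |u a| ≤ ‖u‖ := norm_le_pi_norm u a
      have h2 := mul_le_mul_of_nonneg_right t.2.2 (sub_nonneg.2 h.norm_le)
      linarith
    · unfold R197.mv
      rw [mul_add, ← (h a).2]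
      ring

omit [LinearOrder V] in
theorem Adm.exists_mv_one {y : RA Γ} {u : V → ℝ} (h : Adm y u) (hy : y ≠ 1) :
    ∃ a, |R197.mv y u 1 a| = 1 := by
  classical
  obtain ⟨⟨a₀, b⟩, hs⟩ := exists_desc hy
  have h0 : dir y a₀ ≠ 0 := by
    cases b
    · rw [dir_false hs]; norm_num
    · rw [dir_true hs]; norm_num
  obtain ⟨a, ha, hmax⟩ := Finset.exists_max_image (Finset.univ.filter fun a => dir y a ≠ 0)
    (fun a => |u a|) ⟨a₀, Finset.mem_filter.2 ⟨Finset.mem_univ _, h0⟩⟩
  have h1 : ‖u‖ = |u a| := by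
    refine le_antisymm ((pi_norm_le_iff_of_nonneg (abs_nonneg _)).2 fun c => ?_)
      (norm_le_pi_norm u a)
    by_cases hc : dir y c = 0
    · rw [(h c).2, hc, zero_mul, norm_zero]
      exact abs_nonneg _
    · exact hmax c (Finset.mem_filter.2 ⟨Finset.mem_univ _, hc⟩)
  refine ⟨a, ?_⟩
  rw [h.abs_mv 1 (Finset.mem_filter.1 ha).2, h1]
  simp

/-- `f` has the far vertex `p.1` of length `n + 1` and the coordinates `p.2` -/
def IsFar (n : ℕ) (f : Esp Γ) (p : RA Γ × (V → ℝ)) : Prop :=
  len p.1 = n + 1 ∧ Adm p.1 p.2 ∧ (∀ a, |p.2 a| < 1) ∧ f.1 = cpt p.1 p.2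

open Classical in
/-- the deformation -/
noncomputable def stepD (n : ℕ) (q : Esp Γ × I) : Esp Γ :=
  if h : ∃ p, IsFar n q.1 p then
    ept h.choose.1 (mv h.choose.1 h.choose.2 q.2) (h.choose_spec.2.1.mv q.2).clS
  else q.1

theorem stepD_of_mem {n : ℕ} {f : Esp Γ} (hf : f ∈ Elev Γ n) (t : I) : stepD n (f, t) = f := by
  refine dif_neg ?_
  rintro ⟨p, h1, -, h2, h3⟩
  have := hf p.1 (by omega)
  rw [show f.1 = _ from h3] at this
  exact (cpt_self_pos p.1 h2).ne' this

theorem stepD_ept {n : ℕ} {y : RA Γ} {u : V → ℝ} (h : Adm y u) (hy : len y = n + 1) (t : I) :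
    stepD n (ept y u h.clS, t) = ept y (mv y u t) (h.mv t).clS := by
  by_cases hu : ∀ a, |u a| < 1
  · have hex : ∃ p, IsFar n (ept y u h.clS) p := ⟨(y, u), hy, h, hu, rfl⟩
    have hs := hex.choose_spec
    obtain ⟨e1, e2⟩ := far_unique h hs.2.1 hu hs.2.2.1 hs.2.2.2
    refine (dif_pos hex).trans (Subtype.ext ?_)
    change cpt hex.choose.1 (mv hex.choose.1 hex.choose.2 t) = cpt y (mv y u t)
    rw [← e1, ← e2]
  · obtain ⟨a, ha⟩ := not_forall.1 hu
    have ha' : |u a| = 1 := le_antisymm (h a).1 (not_lt.1 ha)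
    have h1 : ‖u‖ = 1 := le_antisymm h.norm_le (ha' ▸ norm_le_pi_norm u a)
    rw [stepD_of_mem (h.mem_Elev hy ha')]
    refine Subtype.ext ?_
    change cpt y u = cpt y (mv y u t)
    congr 1
    funext c
    simp [mv, h1]

omit [LinearOrder V] in
theorem isCompact_Adm (y : RA Γ) : IsCompact {u : V → ℝ | Adm y u} := by
  refine (isCompact_closedBall (0 : V → ℝ) 1).of_isClosed_subset ?_ fun u hu => ?_
  · simp only [Adm, Set.setOf_forall]
    refine isClosed_iInter fun a => IsClosed.inter ?_ ?_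
    · exact isClosed_le (continuous_apply a).abs continuous_const
    · exact isClosed_eq (continuous_apply a) (continuous_const.mul (continuous_apply a).abs)
  · simpa using Adm.norm_le hu

/-- parametrisation of the cube with far vertex `y`, times the interval -/
noncomputable def farPar (y : RA Γ) (q : {u : V → ℝ | Adm y u} × I) : Esp Γ × I :=
  (ept y q.1.1 (Adm.clS q.1.2), q.2)

theorem continuous_farPar (y : RA Γ) : Continuous (farPar y) := by
  refine Continuous.prodMk (continuous_induced_rng.2 ?_) continuous_snd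
  exact (continuous_cpt y).comp (continuous_subtype_val.comp continuous_fst)

theorem continuousOn_stepD {n : ℕ} {y : RA Γ} (hy : len y = n + 1) :
    ContinuousOn (stepD n) (Set.range (farPar y)) := by
  haveI : CompactSpace {u : V → ℝ | Adm y u} := isCompact_iff_compactSpace.1 (isCompact_Adm y)
  refine top2_continuousOn_range (continuous_farPar y) ?_
  have e : stepD n ∘ farPar y = fun q => ept y (mv y q.1.1 q.2) (Adm.mv q.1.2 q.2).clS :=
    funext fun q => stepD_ept q.1.2 hy q.2
  rw [e]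
  refine continuous_induced_rng.2 ((continuous_cpt y).comp (continuous_pi fun a => ?_))
  have h1 : Continuous fun q : {u : V → ℝ | Adm y u} × I => q.1.1 :=
    continuous_subtype_val.comp continuous_fst
  exact ((continuous_apply a).comp h1).add (((continuous_subtype_val.comp continuous_snd).mul
    (continuous_const.sub h1.norm)).mul continuous_const)

theorem Elev_succ_cases {n : ℕ} {f : Esp Γ} (hf : f ∈ Elev Γ (n + 1)) :
    f ∈ Elev Γ n ∨ ∃ y u, ∃ h : Adm y u, len y = n + 1 ∧ f = ept y u h.clS := by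
  obtain ⟨y, u, h, hu, e⟩ := exists_far f
  have h1 : len y ≤ n + 1 := by
    by_contra h'
    have := hf y (not_le.1 h')
    rw [e] at this
    exact (cpt_self_pos y hu).ne' this
  rcases h1.eq_or_lt with h2 | h2
  · exact Or.inr ⟨y, u, h, h2, Subtype.ext e⟩
  · refine Or.inl fun z hz => ?_
    by_contra hne
    rw [e] at hne
    rcases h.len_lt hne with rfl | h3 <;> omega

end aux

theorem exists_step (n : ℕ) : ∃ D : Esp Γ × I → Esp Γ,
    ContinuousOn D (Elev Γ (n + 1) ×ˢ Set.univ) ∧ (∀ e ∈ Elev Γ (n + 1), D (e, 0) = e) ∧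
    (∀ e ∈ Elev Γ (n + 1), D (e, 1) ∈ Elev Γ n) ∧ ∀ e ∈ Elev Γ n, ∀ t, D (e, t) = e := by
  refine ⟨stepD n, ?_, fun e he => ?_, fun e he => ?_, fun e he t => stepD_of_mem he t⟩
  · haveI : Finite {y : RA Γ // len y = n + 1} :=
      ((finite_len_le (n + 1)).subset fun y (hy : len y = n + 1) => hy.le).to_subtype
    have hcl : ∀ y : RA Γ, IsClosed (Set.range (farPar y)) := fun y => by
      haveI : CompactSpace {u : V → ℝ | Adm y u} := isCompact_iff_compactSpace.1 (isCompact_Adm y)
      exact (isCompact_range (continuous_farPar y)).isClosed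
    have h1 : ContinuousOn (stepD n) (⋃ y : {y : RA Γ // len y = n + 1}, Set.range (farPar y.1)) :=
      (locallyFinite_of_finite _).continuousOn_iUnion (fun y => hcl y.1)
        fun y => continuousOn_stepD y.2
    have h2 : ContinuousOn (stepD n) (Elev Γ n ×ˢ Set.univ) :=
      continuous_fst.continuousOn.congr fun q hq => stepD_of_mem hq.1 q.2
    refine (h2.union_of_isClosed h1 ((isClosed_Elev n).prod isClosed_univ)
      (isClosed_iUnion_of_finite fun y => hcl y.1)).mono ?_
    rintro ⟨f, t⟩ ⟨hf, -⟩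
    rcases Elev_succ_cases hf with h | ⟨y, u, h, hy, rfl⟩
    · exact Or.inl ⟨h, trivial⟩
    · exact Or.inr (Set.mem_iUnion.2 ⟨⟨y, hy⟩, (⟨u, h⟩, t), rfl⟩)
  · rcases Elev_succ_cases he with h | ⟨y, u, h, hy, rfl⟩
    · exact stepD_of_mem h 0
    · rw [stepD_ept h hy]
      refine Subtype.ext ?_
      change cpt y (mv y u 0) = cpt y u
      congr 1
      funext c
      simp [mv]
  · rcases Elev_succ_cases he with h | ⟨y, u, h, hy, rfl⟩
    · rwa [stepD_of_mem h 1]
    · rw [stepD_ept h hy]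
      obtain ⟨a, ha⟩ := h.exists_mv_one fun h1 => by
        rw [len_eq_zero.2 h1] at hy
        omega
      exact (h.mv 1).mem_Elev hy ha

theorem contractible_Esp : ContractibleSpace (Esp Γ) := by
  obtain ⟨f₀, h₀⟩ := Elev_zero (Γ := Γ)
  choose D h1 h2 h3 h4 using exists_step (Γ := Γ)
  exact contractible_of_filtration (Elev Γ) (fun _ _ h => Elev_mono h) exists_Elev_mem_nhds f₀ h₀
    D h1 h2 h3 h4

end Crest.Agent.R197
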