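import Crest.Agent.R197.Top2
import Crest.Agent.R184.TopBAux2
import Crest.Prelude.Def_ClassifyingComplex

/-! A three-dimensional classifying complex for the Bestvina–Brady group. -/

set_option autoImplicit false

namespace Crest.Agent.R197

open Set Metric _root_.Topology R184.TopB

theorem top3_exists_cw {X : Type} [TopologicalSpace X] [T2Space X] (cell : ℕ → Type)
    (χ : (n : ℕ) → cell n → (Fin n → ℝ) → X) (d : ℕ)
    (hE : ∀ n, d < n → IsEmpty (cell n))
    (hc : ∀ n i, ContinuousOn (χ n i) (closedBall 0 1))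
    (hi : ∀ n i, ∀ x ∈ ball (0 : Fin n → ℝ) 1, ∀ y ∈ closedBall (0 : Fin n → ℝ) 1,
      χ n i x = χ n i y → x = y)
    (hd : ∀ n i m j, ∀ x ∈ ball (0 : Fin n → ℝ) 1, ∀ y ∈ ball (0 : Fin m → ℝ) 1,
      χ n i x = χ m j y → (⟨n, i⟩ : Σ n, cell n) = ⟨m, j⟩)
    (hb : ∀ n i, ∃ J : ∀ m, Finset (cell m), ∀ x ∈ sphere (0 : Fin n → ℝ) 1, ∃ m < n, ∃ j ∈ J m,
      ∃ y ∈ closedBall (0 : Fin m → ℝ) 1, χ m j y = χ n i x)
    (hcl : ∀ A : Set X, (∀ n j, IsClosed (A ∩ χ n j '' closedBall 0 1)) → IsClosed A)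
    (hu : ∀ x : X, ∃ m, ∃ j, ∃ y ∈ closedBall (0 : Fin m → ℝ) 1, χ m j y = x) :
    ∃ _ : CWComplex (univ : Set X),
      ∀ n : ℕ, d < n → IsEmpty (RelCWComplex.cell (univ : Set X) n) := by
  choose e he1 he2 he3 using fun n i => exists_partialEquiv (χ n i) (hc n i) (hi n i)
  refine ⟨{ cell := cell
            map := e
            source_eq := he2
            continuousOn := fun n i => he1 n i ▸ hc n i
            continuousOn_symm := he3
            pairwiseDisjoint' := ?_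
            mapsTo' := fun n i => ?_
            closed' := fun A _ h => hcl A fun n j => he1 n j ▸ h n j
            union' := ?_ }, hE⟩
  · rintro ⟨n, i⟩ - ⟨m, j⟩ - hne
    refine disjoint_left.2 ?_
    rintro _ ⟨x, hx, rfl⟩ ⟨y, hy, h⟩
    simp only [he1] at h
    exact hne (hd n i m j x hx y hy h.symm)
  · obtain ⟨J, hJ⟩ := hb n i
    refine ⟨J, fun x hx => ?_⟩
    obtain ⟨m, hm, j, hj, y, hy, h⟩ := hJ x hx
    simp only [mem_iUnion, he1]
    exact ⟨m, hm, j, hj, y, hy, h⟩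
  · refine eq_univ_of_forall fun x => ?_
    obtain ⟨m, j, y, hy, h⟩ := hu x
    simp only [mem_iUnion, he1]
    exact ⟨m, j, y, hy, h⟩

variable {V : Type} [Fintype V] [LinearOrder V] {Γ : SimpleGraph V}

variable (Γ) in
/-- The quotient complex. -/
abbrev Ysp : Type := Quotient (MulAction.orbitRel (BB Γ) (Esp Γ))

variable (Γ) in
/-- Cells of the quotient complex. -/
abbrev YCell (n : ℕ) : Type := ℤ × {σ : Cl Γ // σ.1.card = n}

/-- Cube coordinates. -/
noncomputable def coo {n : ℕ} (σ : {σ : Cl Γ // σ.1.card = n}) (z : Fin n → ℝ) : V → ℝ :=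
  fun a => if ha : a ∈ σ.1.1 then (resc (z (Finset.equivFinOfCardEq σ.2 ⟨a, ha⟩)) : ℝ) else 0

omit [Fintype V] in
theorem coo_mem {n : ℕ} {σ : {σ : Cl Γ // σ.1.card = n}} {z : Fin n → ℝ} {a : V}
    (h : coo σ z a ≠ 0) : a ∈ σ.1.1 := by
  by_contra ha
  exact h (dif_neg ha)

omit [Fintype V] in
theorem coo_cls {n : ℕ} (σ : {σ : Cl Γ // σ.1.card = n}) (z : Fin n → ℝ) : ClS Γ (coo σ z) :=
  fun a b ha hb => σ.1.2 a (coo_mem ha) b (coo_mem hb)

omit [Fintype V] in
theorem coo_bd {n : ℕ} (σ : {σ : Cl Γ // σ.1.card = n}) (z : Fin n → ℝ) (a : V) :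
    0 ≤ coo σ z a ∧ coo σ z a ≤ 1 := by
  unfold coo
  split_ifs
  · exact (resc _).2
  · exact ⟨le_rfl, zero_le_one⟩

omit [Fintype V] in
theorem coo_val {n : ℕ} (σ : {σ : Cl Γ // σ.1.card = n}) {z : Fin n → ℝ}
    (hz : ∀ i, |z i| ≤ 1) (i : Fin n) :
    coo σ z ((Finset.equivFinOfCardEq σ.2).symm i) = (z i + 1) / 2 := by
  unfold coo
  rw [dif_pos ((Finset.equivFinOfCardEq σ.2).symm i).2, resc_val (hz _)]
  simp

omit [Fintype V] in
theorem coo_int {n : ℕ} (σ : {σ : Cl Γ // σ.1.card = n}) {z : Fin n → ℝ}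
    (hz : ∀ i, |z i| < 1) (a : V) : coo σ z a < 1 ∧ (a ∈ σ.1.1 → 0 < coo σ z a) := by
  by_cases ha : a ∈ σ.1.1
  · have h := coo_val σ (fun i => (hz i).le) (Finset.equivFinOfCardEq σ.2 ⟨a, ha⟩)
    rw [Equiv.symm_apply_apply] at h
    have h' := abs_lt.1 (hz (Finset.equivFinOfCardEq σ.2 ⟨a, ha⟩))
    change coo σ z a = _ at h
    rw [h]
    exact ⟨by linarith [h'.2], fun _ => by linarith [h'.1]⟩
  · refine ⟨?_, fun h => absurd h ha⟩
    rw [show coo σ z a = 0 from dif_neg ha]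
    exact zero_lt_one

omit [Fintype V] in
theorem continuous_coo {n : ℕ} (σ : {σ : Cl Γ // σ.1.card = n}) : Continuous (coo σ) := by
  refine continuous_pi fun a => ?_
  unfold coo
  split_ifs
  · exact continuous_subtype_val.comp (continuous_resc.comp (continuous_apply _))
  · exact continuous_const

omit [Fintype V] in
theorem coo_surj {n : ℕ} (σ : {σ : Cl Γ // σ.1.card = n}) {u : V → ℝ}
    (hu : ∀ a, 0 ≤ u a ∧ u a ≤ 1) (hs : ∀ a, u a ≠ 0 → a ∈ σ.1.1) :
    ∃ z ∈ closedBall (0 : Fin n → ℝ) 1, coo σ z = u := by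
  have hz : ∀ i, |2 * u ((Finset.equivFinOfCardEq σ.2).symm i) - 1| ≤ 1 := fun i =>
    abs_le.2 ⟨by linarith [(hu ((Finset.equivFinOfCardEq σ.2).symm i)).1],
      by linarith [(hu ((Finset.equivFinOfCardEq σ.2).symm i)).2]⟩
  refine ⟨fun i => 2 * u ((Finset.equivFinOfCardEq σ.2).symm i) - 1, mem_cb.2 hz, funext fun a => ?_⟩
  by_cases ha : a ∈ σ.1.1
  · have h := coo_val σ hz (Finset.equivFinOfCardEq σ.2 ⟨a, ha⟩)
    rw [Equiv.symm_apply_apply] at h
    refine h.trans ?_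
    ring
  · rw [show coo σ _ a = 0 from dif_neg ha]
    by_contra h
    exact ha (hs a (Ne.symm h))

/-- Characteristic maps. -/
noncomputable def ychi (v : V) (n : ℕ) (c : YCell Γ n) (z : Fin n → ℝ) : Ysp Γ :=
  Quotient.mk _ (ept (gen Γ v ^ c.1) (coo c.2 z) (coo_cls _ _))

theorem mk_ept_eq {x x' : RA Γ} (h : ht x = ht x') {u u' : V → ℝ} (hu : ClS Γ u) (hu' : ClS Γ u')
    (huu : u = u') : (Quotient.mk _ (ept x u hu) : Ysp Γ) = Quotient.mk _ (ept x' u' hu') := by
  subst huu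
  refine Quotient.sound ⟨⟨x * x'⁻¹, by simp [mem_BB, h]⟩, ?_⟩
  change (x * x'⁻¹) • ept x' u hu' = _
  rw [smul_ept]
  simp

theorem exists_ychi (v : V) (x : RA Γ) {u : V → ℝ} (hc : ClS Γ u) (hu : ∀ a, 0 ≤ u a ∧ u a ≤ 1)
    (σ : Cl Γ) (hs : ∀ a, u a ≠ 0 → a ∈ σ.1) {n : ℕ} (hn : σ.1.card = n) :
    ∃ z ∈ closedBall (0 : Fin n → ℝ) 1,
      ychi v n (ht x, ⟨σ, hn⟩) z = Quotient.mk _ (ept x u hc) := by
  obtain ⟨z, hz, h⟩ := coo_surj ⟨σ, hn⟩ hu hs
  exact ⟨z, hz, mk_ept_eq (by simp) _ _ h⟩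

theorem mk_ept_inj {x x' : RA Γ} {u u' : V → ℝ} {hu : ClS Γ u} {hu' : ClS Γ u'}
    (h1 : ∀ a, 0 ≤ u a ∧ u a < 1) (h2 : ∀ a, 0 ≤ u' a ∧ u' a ≤ 1)
    (h : (Quotient.mk _ (ept x u hu) : Ysp Γ) = Quotient.mk _ (ept x' u' hu')) :
    (∀ a, u a = u' a ∨ u a = 0) ∧ ((∀ a, u' a < 1) → ht x = ht x' ∧ u = u') := by
  obtain ⟨g, hg⟩ := Quotient.exact h
  change (g : RA Γ) • ept x' u' hu' = ept x u hu at hg
  rw [smul_ept] at hg
  have hg' : cpt ((g : RA Γ) * x') u' = cpt x u := congrArg Subtype.val hg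
  constructor
  · let k : V → ℤ := fun a => if u' a = 1 then 1 else 0
    have hk : ClS Γ fun a => (u' a, k a) := fun a b ha hb => by
      refine hu' a b (fun h0 => ha ?_) (fun h0 => hb ?_) <;> simp [k, h0]
    rw [cpt_shift _ hk] at hg'
    have hb : ∀ a, 0 ≤ u' a - k a ∧ u' a - k a < 1 := fun a => by
      by_cases ha : u' a = 1
      · simp [k, ha]
      · simp only [k, ha, if_false, Int.cast_zero, sub_zero]
        exact ⟨(h2 a).1, lt_of_le_of_ne (h2 a).2 ha⟩
    have := (bottom_unique hb h1 hg').2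
    intro a
    have ha := congrFun this a
    by_cases hu1 : u' a = 1
    · right; rw [← ha]; simp [k, hu1]
    · left; rw [← ha]; simp [k, hu1]
  · intro h3
    obtain ⟨hx, hu⟩ := bottom_unique (fun a => ⟨(h2 a).1, h3 a⟩) h1 hg'
    refine ⟨?_, hu.symm⟩
    rw [← hx, ht_mul, mem_BB.1 g.2, zero_add]

instance : Finite (Cl Γ) := inferInstanceAs (Finite (Subtype _))

/-- The support of a vector with clique support. -/
noncomputable def clOf {u : V → ℝ} (hu : ClS Γ u) : Cl Γ :=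
  ⟨Finset.univ.filter fun a => u a ≠ 0, fun a ha b hb =>
    hu a b (Finset.mem_filter.1 ha).2 (Finset.mem_filter.1 hb).2⟩

omit [LinearOrder V] in
theorem mem_clOf {u : V → ℝ} (hu : ClS Γ u) (a : V) (h : u a ≠ 0) : a ∈ (clOf hu).1 :=
  Finset.mem_filter.2 ⟨Finset.mem_univ _, h⟩

theorem bb_classifying {V : Type} [Fintype V] [LinearOrder V] [Nonempty V] {Γ : SimpleGraph V}
    (h : ∀ σ : Cl Γ, σ.1.card ≤ 3) : Crest.Topology.HasClassifyingComplex (BB Γ) 3 := by
  classical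
  obtain ⟨v⟩ := ‹Nonempty V›
  have := locallyCompact_Esp (Γ := Γ)
  have hpd := properlyDiscontinuous_Esp (Γ := Γ)
  have : ProperlyDiscontinuousSMul (BB Γ) (Esp Γ) := ⟨fun {K L} hK hL =>
    (Set.Finite.preimage (f := (Subtype.val : BB Γ → RA Γ)) Subtype.val_injective.injOn
      (hpd.finite_disjoint_inter_image hK hL)).subset fun g hg => hg⟩
  have : IsCancelSMul (BB Γ) (Esp Γ) :=
    isCancelSMul_iff_eq_one_of_smul_eq.2 fun g x h => Subtype.ext (smul_free h)
  have : ContinuousConstSMul (BB Γ) (Esp Γ) := ⟨fun g => continuous_const_smul (g : RA Γ)⟩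
  have hq : IsQuotientCoveringMap (Quotient.mk (MulAction.orbitRel (BB Γ) (Esp Γ))) (BB Γ) :=
    isQuotientCoveringMap_quotientMk_of_properlyDiscontinuousSMul
  have hT : T2Space (Ysp Γ) := inferInstance
  have hE := contractible_Esp (Γ := Γ)
  have hcont : ∀ n c, Continuous (ychi (Γ := Γ) v n c) := fun n c =>
    continuous_quotient_mk'.comp (isEmbedding_val.continuous_iff.2
      ((continuous_cpt _).comp (continuous_coo c.2)))
  obtain ⟨cw, h2⟩ := top3_exists_cw (X := Ysp Γ) (YCell Γ) (ychi v) 3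
    (fun n hn => ⟨fun c => by have := h c.2.1; have := c.2.2; omega⟩)
    (fun n c => (hcont n c).continuousOn)
    (fun n c x hx y hy hxy => by
      have hx' := mem_ob.1 hx
      have h1 := (mk_ept_inj (fun a => ⟨(coo_bd c.2 x a).1, (coo_int c.2 hx' a).1⟩)
        (coo_bd c.2 y) hxy).1
      funext i
      rcases h1 ((Finset.equivFinOfCardEq c.2.2).symm i) with h1 | h1
      · rw [coo_val _ fun i => (hx' i).le, coo_val _ (mem_cb.1 hy)] at h1
        linarith
      · exact absurd h1 ((coo_int c.2 hx' _).2 ((Finset.equivFinOfCardEq c.2.2).symm i).2).ne')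
    (fun n c m c' x hx y hy hxy => by
      have hx' := mem_ob.1 hx
      have hy' := mem_ob.1 hy
      obtain ⟨h1, h3⟩ := (mk_ept_inj (fun a => ⟨(coo_bd c.2 x a).1, (coo_int c.2 hx' a).1⟩)
        (coo_bd c'.2 y) hxy).2 fun a => (coo_int c'.2 hy' a).1
      obtain ⟨j, σ, rfl⟩ := c
      obtain ⟨j', σ', rfl⟩ := c'
      have hj : j = j' := by simpa using h1
      have hσ : σ = σ' := by
        refine Subtype.ext (Finset.ext fun a => ⟨fun ha => ?_, fun ha => ?_⟩)
        · have := ((coo_int ⟨σ, rfl⟩ hx' a).2 ha).ne'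
          rw [h3] at this
          exact coo_mem this
        · have := ((coo_int ⟨σ', rfl⟩ hy' a).2 ha).ne'
          rw [← h3] at this
          exact coo_mem this
      subst hj hσ
      rfl)
    (fun n c => by
      refine ⟨fun m => ({c.1, c.1 + 1} : Finset ℤ) ×ˢ (Set.toFinite univ).toFinset,
        fun x hx => ?_⟩
      obtain ⟨hx1, hx2⟩ := mem_sph hx
      obtain ⟨i, hi⟩ := not_forall.1 hx2
      have hi' : |x i| = 1 := le_antisymm (hx1 i) (not_lt.1 hi)
      set a : V := ((Finset.equivFinOfCardEq c.2.2).symm i).1 with ha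
      have haσ : a ∈ c.2.1.1 := ((Finset.equivFinOfCardEq c.2.2).symm i).2
      have hval : coo c.2 x a = (x i + 1) / 2 := coo_val c.2 hx1 i
      have hlt : (c.2.1.er a).1.card < n := (Finset.card_erase_lt_of_mem haσ).trans_eq c.2.2
      rcases (abs_eq zero_le_one).1 hi' with h1 | h1
      · let k : V → ℤ := Pi.single a 1
        have hk : ClS Γ fun b => (coo c.2 x b, k b) := fun b b' hb hb' => by
          have key : ∀ b, (coo c.2 x b, k b) ≠ 0 → b ∈ c.2.1.1 := fun b hb => by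
            by_contra hn
            refine hb (Prod.ext (dif_neg hn) ?_)
            exact Pi.single_eq_of_ne (fun h : b = a => hn (h ▸ haσ)) _
          exact c.2.1.2 b (key b hb) b' (key b' hb')
        have hs : ∀ b, coo c.2 x b - k b ≠ 0 → b ∈ (c.2.1.er a).1 := fun b hb => by
          by_cases hba : b = a
          · subst hba
            exact absurd (by simp [k, hval, h1]) hb
          · refine Finset.mem_erase.2 ⟨hba, coo_mem (z := x) ?_⟩
            simpa [k, Pi.single_eq_of_ne hba] using hb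
        have hc' : ClS Γ fun b => coo c.2 x b - k b := fun b b' hb hb' =>
          (c.2.1.er a).2 b (hs b hb) b' (hs b' hb')
        obtain ⟨z, hz, hz'⟩ := exists_ychi v (gen Γ v ^ c.1 * PP Γ k) hc' (fun b => by
          by_cases hba : b = a
          · subst hba
            simp [k, hval, h1]
          · simpa [k, Pi.single_eq_of_ne hba] using coo_bd c.2 x b) (c.2.1.er a) hs rfl
        refine ⟨_, hlt, _, ?_, z, hz, hz'.trans ?_⟩
        · simp [k, PP_single]
        · exact congrArg _ (Subtype.ext (cpt_shift _ hk).symm)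
      · obtain ⟨z, hz, hz'⟩ := exists_ychi v (gen Γ v ^ c.1) (coo_cls c.2 x) (coo_bd c.2 x)
          (c.2.1.er a) (fun b hb => Finset.mem_erase.2 ⟨fun hba => hb (by
            rw [hba, hval, h1]; norm_num), coo_mem hb⟩) rfl
        refine ⟨_, hlt, _, ?_, z, hz, hz'⟩
        simp)
    (fun A hA => by
      let _ := MulAction.orbitRel (BB Γ) (Esp Γ)
      rw [← isQuotientMap_quotient_mk'.isClosed_preimage]
      refine isClosed_of_closure_subset fun f hf => ?_
      obtain ⟨n, hn⟩ := exists_Elev_mem_nhds f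
      let T : Set (Esp Γ) := ⋃ x ∈ {x : RA Γ | len x ≤ n}, ⋃ σ : Cl Γ, Quotient.mk' ⁻¹'
        (A ∩ ychi v _ (ht x, ⟨σ, rfl⟩) '' closedBall 0 1)
      have hT : IsClosed T := (finite_len_le n).isClosed_biUnion fun x _ =>
        isClosed_iUnion_of_finite fun σ => (hA _ _).preimage continuous_quotient_mk'
      have h1 : f ∈ closure (Quotient.mk' ⁻¹' A ∩ Elev Γ n) := by
        rw [mem_closure_iff_nhds] at hf ⊢
        intro t ht'
        obtain ⟨y, hy1, hy2⟩ := hf _ (Filter.inter_mem ht' hn)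
        exact ⟨y, hy1.1, hy2, hy1.2⟩
      have h2 : Quotient.mk' ⁻¹' A ∩ Elev Γ n ⊆ T := by
        rintro g ⟨hg1, hg2⟩
        have hg3 := Elev_subset n hg2
        simp only [mem_iUnion] at hg3
        obtain ⟨x, hx, u, hu, hu1, rfl⟩ := hg3
        obtain ⟨z, hz, hz'⟩ := exists_ychi v x hu hu1 (clOf hu) (mem_clOf hu) rfl
        exact mem_biUnion hx (mem_iUnion.2 ⟨clOf hu, hg1, z, hz, hz'⟩)
      have h3 := hT.closure_subset_iff.2 h2 h1
      simp only [T, mem_iUnion] at h3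
      obtain ⟨x, -, σ, h3, -⟩ := h3
      exact h3)
    (fun y => by
      obtain ⟨f⟩ := y
      obtain ⟨x, u, hu, hu1, rfl⟩ := exists_bottom f
      obtain ⟨z, hz, hz'⟩ := exists_ychi v x hu (fun a => ⟨(hu1 a).1, (hu1 a).2.le⟩) (clOf hu)
        (mem_clOf hu) rfl
      exact ⟨_, _, z, hz, hz'⟩)
  obtain ⟨f₀⟩ : Nonempty (Esp Γ) := inferInstance
  refine ⟨Ysp Γ, inferInstance, cw, hT, h2,
    ⟨Esp Γ, inferInstance, Quotient.mk _, hE, hq.isCoveringMap, hq.surjective⟩,
    Quotient.mk _ f₀, ⟨?_⟩⟩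
  exact (hq.fundamentalGroupEquiv ⟨f₀, rfl⟩).trans (MulEquiv.inv' (BB Γ)).symm

end Crest.Agent.R197
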