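import Crest.Agent.R197.TDefs

/-! Logarithmic winding numbers. -/

set_option autoImplicit false

namespace Crest.Agent.R197

open Set Metric Topology unitInterval

theorem wind_const {A : Type} [TopologicalSpace A] [PreconnectedSpace A] {g : A → ℂ}
    (hg : Continuous g) (h : ∀ a a', Complex.exp (g a) = Complex.exp (g a')) (a a' : A) :
    g a = g a' :=
  Complex.isCoveringMap_exp.const_of_comp hg (fun a a' => Subtype.ext (h a a')) a a'

theorem exists_log {γ : I → ℂ} (hγ : Continuous γ) (h0 : ∀ t, γ t ≠ 0) :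
    ∃ L : I → ℂ, Continuous L ∧ ∀ t, Complex.exp (L t) = γ t := by
  obtain ⟨Γ, hΓ, -⟩ := Complex.isCoveringMap_exp.exists_path_lifts
    (⟨fun t => ⟨γ t, h0 t⟩, hγ.subtype_mk _⟩ : C(I, {z : ℂ // z ≠ 0})) (Complex.log (γ 0))
    (Subtype.ext (Complex.exp_log (h0 0)).symm)
  exact ⟨Γ, Γ.continuous, fun t => congrArg Subtype.val (congrFun hΓ t)⟩

theorem wind_log_sq {F : I × I → ℂ} (hF : Continuous F) (h0 : ∀ p, F p ≠ 0) :
    ∃ L : I × I → ℂ, Continuous L ∧ ∀ p, Complex.exp (L p) = F p := by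
  obtain ⟨L₀, hL₀, hL₀'⟩ := exists_log (γ := fun t => F (0, t)) (by fun_prop) fun t => h0 _
  let H : C(I × I, {z : ℂ // z ≠ 0}) := ⟨fun p => ⟨F p, h0 p⟩, hF.subtype_mk _⟩
  have H0 : ∀ a, H (0, a) = ⟨_, Complex.exp_ne_zero ((⟨L₀, hL₀⟩ : C(I, ℂ)) a)⟩ := fun a =>
    Subtype.ext (hL₀' a).symm
  exact ⟨Complex.isCoveringMap_exp.liftHomotopy H ⟨L₀, hL₀⟩ H0, ContinuousMap.continuous _,
    fun p => congrArg Subtype.val
      (congrFun (Complex.isCoveringMap_exp.liftHomotopy_lifts H ⟨L₀, hL₀⟩ H0) p)⟩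

theorem wd_eq {γ L : I → ℂ} (hL : Continuous L) (h : ∀ t, Complex.exp (L t) = γ t) :
    wd γ = L 1 - L 0 := by
  have hex : ∃ L : I → ℂ, Continuous L ∧ ∀ t, Complex.exp (L t) = γ t := ⟨L, hL, h⟩
  unfold wd
  rw [dif_pos hex]
  obtain ⟨h1, h2⟩ := hex.choose_spec
  have h3 : ∀ t, Complex.exp (hex.choose t - L t) = 1 := fun t => by
    rw [Complex.exp_sub, h2, h t, div_self]
    rw [← h t]
    exact Complex.exp_ne_zero _
  have h4 := wind_const (g := fun t => hex.choose t - L t) (h1.sub hL)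
    (fun a a' => by rw [h3, h3]) 1 0
  linear_combination h4

variable {E : Type} [TopologicalSpace E]

theorem wd_trans {f : E → ℂ} {K : Set E} (hf : ContinuousOn f K) (h0 : ∀ x ∈ K, f x ≠ 0)
    {x y z : E} (p : Path x y) (q : Path y z) (hp : ∀ t, p t ∈ K) (hq : ∀ t, q t ∈ K) :
    wd (fun t => f (p.trans q t)) = wd (fun t => f (p t)) + wd fun t => f (q t) := by
  obtain ⟨L₁, hL₁, h₁⟩ := exists_log (γ := fun t => f (p t))
    (hf.comp_continuous p.continuous hp) fun t => h0 _ (hp t)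
  obtain ⟨L₂, hL₂, h₂⟩ := exists_log (γ := fun t => f (q t))
    (hf.comp_continuous q.continuous hq) fun t => h0 _ (hq t)
  have h₃ : ∀ t, Complex.exp (L₂ t - L₂ 0 + L₁ 1) = f (q t) := fun t => by
    rw [Complex.exp_add, Complex.exp_sub, h₂, h₂, h₁, p.target, q.source, div_mul_cancel₀]
    exact h0 _ (by simpa using hq 0)
  let P₁ : Path (L₁ 0) (L₁ 1) := ⟨⟨L₁, hL₁⟩, rfl, rfl⟩
  let P₂ : Path (L₁ 1) (L₂ 1 - L₂ 0 + L₁ 1) :=
    ⟨⟨fun t => L₂ t - L₂ 0 + L₁ 1, by fun_prop⟩, by simp, rfl⟩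
  rw [wd_eq (L := P₁.trans P₂) (P₁.trans P₂).continuous, wd_eq hL₁ h₁, wd_eq hL₂ h₂,
    Path.source, Path.target]
  · ring
  · intro t
    rw [Path.trans_apply, Path.trans_apply]
    split_ifs
    · exact h₁ _
    · exact h₃ _

theorem wd_symm {f : E → ℂ} {K : Set E} (hf : ContinuousOn f K) (h0 : ∀ x ∈ K, f x ≠ 0)
    {x y : E} (p : Path x y) (hp : ∀ t, p t ∈ K) :
    wd (fun t => f (p.symm t)) = -wd fun t => f (p t) := by
  obtain ⟨L₁, hL₁, h₁⟩ := exists_log (γ := fun t => f (p t))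
    (hf.comp_continuous p.continuous hp) fun t => h0 _ (hp t)
  rw [wd_eq (γ := fun t => f (p.symm t)) (L := fun t => L₁ (σ t)) (hL₁.comp continuous_symm)
    fun t => h₁ _, wd_eq hL₁ h₁]
  simp

theorem wd_const (c : ℂ) : wd (fun _ => c) = 0 := by
  by_cases hc : c = 0
  · unfold wd
    rw [dif_neg]
    rintro ⟨L, -, h⟩
    exact Complex.exp_ne_zero _ ((h 0).trans hc)
  · rw [wd_eq (L := fun _ => Complex.log c) continuous_const fun _ => Complex.exp_log hc, sub_self]

/-- Invariance under free homotopies of loops. -/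
theorem wind_free {F : I × I → ℂ} (hF : Continuous F) (h0 : ∀ p, F p ≠ 0)
    (c : ℂ) (ha : ∀ s, F (s, 1) = c * F (s, 0)) :
    wd (fun t => F (0, t)) = wd fun t => F (1, t) := by
  obtain ⟨L, hL, h⟩ := wind_log_sq hF h0
  rw [wd_eq (L := fun t => L (0, t)) (by fun_prop) fun t => h _,
    wd_eq (L := fun t => L (1, t)) (by fun_prop) fun t => h _]
  have h3 : ∀ s, Complex.exp (L (s, 1) - L (s, 0)) = c := fun s => by
    rw [Complex.exp_sub, h, h, ha, mul_div_assoc, div_self (h0 _), mul_one]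
  exact wind_const (g := fun s => L (s, 1) - L (s, 0)) (by fun_prop)
    (fun a a' => by rw [h3, h3]) 0 1

/-- Invariance under homotopies with fixed end values. -/
theorem wd_homotopy {F : I × I → ℂ} (hF : Continuous F) (h0 : ∀ p, F p ≠ 0)
    (ha : ∀ s, F (s, 0) = F (0, 0)) (hb : ∀ s, F (s, 1) = F (0, 1)) :
    wd (fun t => F (0, t)) = wd fun t => F (1, t) :=
  wind_free hF h0 (F (0, 1) / F (0, 0)) fun s => by
    rw [ha s, hb s, div_mul_cancel₀ _ (h0 _)]

theorem wind_bet_one : bet 1 = bet 0 := by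
  simpa using bet_add_one 0

theorem wd_disc {g : (Fin 2 → ℝ) → ℂ} (hg : ContinuousOn g (closedBall 0 1))
    (h0 : ∀ z ∈ closedBall (0 : Fin 2 → ℝ) 1, g z ≠ 0) : wd (fun t => g (bet t)) = 0 := by
  have hm : ∀ p : I × I, (p.1 : ℝ) • bet p.2 ∈ closedBall (0 : Fin 2 → ℝ) 1 := fun p => by
    rw [mem_closedBall_zero_iff, norm_smul, norm_bet, mul_one, Real.norm_eq_abs,
      abs_of_nonneg p.1.2.1]
    exact p.1.2.2
  have hc : Continuous fun p : I × I => (p.1 : ℝ) • bet p.2 :=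
    (continuous_subtype_val.comp continuous_fst).smul
      (continuous_bet.comp (continuous_subtype_val.comp continuous_snd))
  have h := wind_free (F := fun p : I × I => g ((p.1 : ℝ) • bet p.2)) (hg.comp_continuous hc hm)
    (fun p => h0 _ (hm p)) 1 fun s => by simp [wind_bet_one]
  simp only [Icc.coe_zero, zero_smul, Icc.coe_one, one_smul, wd_const] at h
  exact h.symm

theorem wd_bet {g : (Fin 2 → ℝ) → ℂ} (hg : ContinuousOn g (closedBall 0 1))
    (h0 : ∀ z ∈ closedBall (0 : Fin 2 → ℝ) 1, g z ≠ 0) :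
    wd (fun t => g (bet t) * ((bet t 0 : ℂ) + (bet t 1 : ℂ) * Complex.I)) =
      2 * Real.pi * Complex.I := by
  have hm : ∀ t : I, bet t ∈ closedBall (0 : Fin 2 → ℝ) 1 := fun t => by
    rw [mem_closedBall_zero_iff, norm_bet]
  obtain ⟨L, hL, h⟩ := exists_log (γ := fun t : I => g (bet t))
    (hg.comp_continuous (continuous_bet.comp continuous_subtype_val) hm) fun t => h0 _ (hm t)
  have h1 := wd_disc hg h0
  rw [wd_eq hL h] at h1
  set N : ℝ → ℝ := fun t =>
    ‖(![Real.cos (2 * Real.pi * t), Real.sin (2 * Real.pi * t)] : Fin 2 → ℝ)‖ with hN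
  have hNc : Continuous N := by
    have h : Continuous fun t : ℝ =>
      (![Real.cos (2 * Real.pi * t), Real.sin (2 * Real.pi * t)] : Fin 2 → ℝ) := by fun_prop
    exact h.norm
  have hNp : ∀ t, 0 < N t := fun t => norm_pos_iff.2 (bet_aux_ne t)
  have hN1 : N 1 = N 0 := by simp [hN]
  have hlc : Continuous fun t : ℝ => Real.log (N t) := hNc.log fun t => (hNp t).ne'
  rw [wd_eq (L := fun t : I => L t + (-(Real.log (N t) : ℂ) + (2 * Real.pi * (t : ℝ) : ℝ) *
    Complex.I))]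
  · simp only [Icc.coe_zero, Icc.coe_one, hN1]
    push_cast
    linear_combination h1
  · have : Continuous fun t : I => Real.log (N t) := hlc.comp continuous_subtype_val
    fun_prop
  · intro t
    rw [Complex.exp_add, h, Complex.exp_add, Complex.exp_neg, ← Complex.ofReal_exp,
      Real.exp_log (hNp t), Complex.exp_mul_I, ← Complex.ofReal_cos, ← Complex.ofReal_sin]
    congr 1
    have e0 : bet t 0 = (N t)⁻¹ * Real.cos (2 * Real.pi * t) := by simp [bet, hN]
    have e1 : bet t 1 = (N t)⁻¹ * Real.sin (2 * Real.pi * t) := by simp [bet, hN]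
    rw [e0, e1, Complex.ofReal_mul, Complex.ofReal_mul, Complex.ofReal_inv]
    ring

end Crest.Agent.R197
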